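import Vale.Agent.P354NP.TD

set_option linter.unusedSimpArgs false

namespace Vale.Agent.P354NP

variable {A : Type*} [CommRing A] [StarRing A] [Algebra ℂ A]

/-- The imaginary unit of the algebra. -/
noncomputable def iA (A : Type*) [CommRing A] [Algebra ℂ A] : A := algebraMap ℂ A Complex.I

omit [StarRing A] in
theorem iA_sq : iA A * iA A = -1 := by
  unfold iA; rw [← map_mul, Complex.I_mul_I, map_neg, map_one]

omit [StarRing A] in
theorem d_iA (D : Derivation ℂ A A) : D (iA A) = 0 := D.map_algebraMap _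

/-- Killed by all six derivations. -/
structure TD.Const (T : TD A) (x : A) : Prop where
  k0 : T.d0 x = 0
  k1 : T.d1 x = 0
  k2 : T.d2 x = 0
  k3 : T.d3 x = 0
  kH : T.H x = 0
  kHb : T.Hb x = 0

/-- Plebanski-Demianski coordinates `p, q` for constants `c, al`. -/
structure PD (T : TD A) where
  c : A
  ci : A
  al : A
  p : A
  q : A
  oi : A
  oj : A
  sv : A
  si : star (iA A) = -iA A
  cci : c * ci = 1
  kc : T.Const ci
  kal : T.Const al
  sal : star al = al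
  sp : star p = p
  sq : star q = q
  hZ : ci * T.ze * (1 - al * p * q) = q - iA A * p
  hoi : (1 - al * p * q) * oi = 1
  hoj : (1 + al * p * q) * oj = 1
  hsv : T.d1 q * sv = 1

namespace PD
variable {T : TD A} (P : PD T)

theorem first (D : Derivation ℂ A A) (k : A) (hc : D P.ci = 0) (ha : D P.al = 0)
    (hz : D T.ze = -(k * T.ze)) :
    k * ((P.q - iA A * P.p) * (1 - P.al * P.p * P.q))
      = -((1 - iA A * P.al * P.p ^ 2) * D P.q + (P.al * P.q ^ 2 - iA A) * D P.p) := by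
  have h := congrArg D P.hZ
  simp only [dmul, map_sub, hc, ha, hz, d_iA, D.map_one_eq_zero] at h
  linear_combination -(1 - P.al * P.p * P.q) * h
    - (k * (1 - P.al * P.p * P.q) + P.al * (P.p * D P.q + P.q * D P.p)) * P.hZ

theorem E0 : T.r * ((P.q - iA A * P.p) * (1 - P.al * P.p * P.q))
    = -((1 - iA A * P.al * P.p ^ 2) * T.d0 P.q + (P.al * P.q ^ 2 - iA A) * T.d0 P.p) :=
  P.first T.d0 T.r P.kc.k0 P.kal.k0 T.ze0
theorem E1 : T.r2 * ((P.q - iA A * P.p) * (1 - P.al * P.p * P.q))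
    = -((1 - iA A * P.al * P.p ^ 2) * T.d1 P.q + (P.al * P.q ^ 2 - iA A) * T.d1 P.p) :=
  P.first T.d1 T.r2 P.kc.k1 P.kal.k1 T.ze1
theorem E2 : T.t * ((P.q - iA A * P.p) * (1 - P.al * P.p * P.q))
    = -((1 - iA A * P.al * P.p ^ 2) * T.d2 P.q + (P.al * P.q ^ 2 - iA A) * T.d2 P.p) :=
  P.first T.d2 T.t P.kc.k2 P.kal.k2 T.ze2
theorem E3 : T.t2 * ((P.q - iA A * P.p) * (1 - P.al * P.p * P.q))
    = -((1 - iA A * P.al * P.p ^ 2) * T.d3 P.q + (P.al * P.q ^ 2 - iA A) * T.d3 P.p) :=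
  P.first T.d3 T.t2 P.kc.k3 P.kal.k3 T.ze3

theorem E0b : star T.r * ((P.q + iA A * P.p) * (1 - P.al * P.p * P.q))
    = -((1 + iA A * P.al * P.p ^ 2) * T.d0 P.q + (P.al * P.q ^ 2 + iA A) * T.d0 P.p) := by
  have h := congrArg star P.E0
  simp only [star_mul', star_sub, star_add, star_neg, star_one, star_pow, P.si, P.sp, P.sq, P.sal,
    T.s0] at h
  linear_combination h
theorem E1b : star T.r2 * ((P.q + iA A * P.p) * (1 - P.al * P.p * P.q))
    = -((1 + iA A * P.al * P.p ^ 2) * T.d1 P.q + (P.al * P.q ^ 2 + iA A) * T.d1 P.p) := by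
  have h := congrArg star P.E1
  simp only [star_mul', star_sub, star_add, star_neg, star_one, star_pow, P.si, P.sp, P.sq, P.sal,
    T.s1] at h
  linear_combination h
theorem E2b : star T.t2 * ((P.q + iA A * P.p) * (1 - P.al * P.p * P.q))
    = -((1 + iA A * P.al * P.p ^ 2) * T.d2 P.q + (P.al * P.q ^ 2 + iA A) * T.d2 P.p) := by
  have h := congrArg star P.E3
  simp only [star_mul', star_sub, star_add, star_neg, star_one, star_pow, P.si, P.sp, P.sq, P.sal,
    T.s3] at h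
  linear_combination h
theorem E3b : star T.t * ((P.q + iA A * P.p) * (1 - P.al * P.p * P.q))
    = -((1 + iA A * P.al * P.p ^ 2) * T.d3 P.q + (P.al * P.q ^ 2 + iA A) * T.d3 P.p) := by
  have h := congrArg star P.E2
  simp only [star_mul', star_sub, star_add, star_neg, star_one, star_pow, P.si, P.sp, P.sq, P.sal,
    T.s2] at h
  linear_combination h

theorem uz : IsUnit (P.q - iA A * P.p) := by
  refine IsUnit.of_mul_eq_one (P.c * T.zi * P.oi) ?_
  rw [← P.hZ]
  linear_combination (T.ze * T.zi * ((1 - P.al * P.p * P.q) * P.oi)) * P.cci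
    + ((1 - P.al * P.p * P.q) * P.oi) * T.zezi + P.hoi

theorem uzb : IsUnit (P.q + iA A * P.p) := by
  have h := P.uz.star
  simp only [star_mul', star_sub, P.si, P.sp, P.sq] at h
  simpa only [neg_mul, sub_neg_eq_add] using h

theorem uO : IsUnit (1 - P.al * P.p * P.q) := IsUnit.of_mul_eq_one _ P.hoi
theorem uS : IsUnit (T.d1 P.q) := IsUnit.of_mul_eq_one _ P.hsv

omit [StarRing A] in
theorem u2 : IsUnit (2 : A) := by
  have h : IsUnit (algebraMap ℂ A 2) := (IsUnit.mk0 (2 : ℂ) two_ne_zero).map _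
  simpa only [map_ofNat] using h

omit [StarRing A] in
theorem uI : IsUnit (iA A) := IsUnit.of_mul_eq_one (-iA A) (by linear_combination -iA_sq (A := A))

theorem uD : IsUnit ((1 + iA A * P.al * P.p ^ 2) * (P.al * P.q ^ 2 - iA A)
    - (1 - iA A * P.al * P.p ^ 2) * (P.al * P.q ^ 2 + iA A)) := by
  have h := ((u2.mul uI).mul P.uO).mul (IsUnit.of_mul_eq_one _ P.hoj) |>.neg
  have e : (1 + iA A * P.al * P.p ^ 2) * (P.al * P.q ^ 2 - iA A)
    - (1 - iA A * P.al * P.p ^ 2) * (P.al * P.q ^ 2 + iA A)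
    = -(2 * iA A * (1 - P.al * P.p * P.q) * (1 + P.al * P.p * P.q)) := by ring
  rw [e]; exact h

theorem Hpq : T.H P.p = 0 ∧ T.H P.q = 0 := by
  have h := P.first T.H 0 P.kc.kH P.kal.kH (by rw [T.Hze]; ring)
  have hb := congrArg star (P.first T.Hb 0 P.kc.kHb P.kal.kHb (by rw [T.Hbze]; ring))
  simp only [star_mul', star_sub, star_add, star_neg, star_one, star_pow, star_zero, P.si, P.sp,
    P.sq, P.sal, T.sHb] at hb
  constructor
  · apply P.uD.mul_right_eq_zero.mp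
    linear_combination (1 + iA A * P.al * P.p ^ 2) * h - (1 - iA A * P.al * P.p ^ 2) * hb
  · apply P.uD.mul_right_eq_zero.mp
    linear_combination -(P.al * P.q ^ 2 + iA A) * h + (P.al * P.q ^ 2 - iA A) * hb

theorem Hp : T.H P.p = 0 := P.Hpq.1
theorem Hq : T.H P.q = 0 := P.Hpq.2
theorem Hbp : T.Hb P.p = 0 := by rw [← P.sp, T.Hbs, P.Hp, star_zero]
theorem Hbq : T.Hb P.q = 0 := by rw [← P.sq, T.Hbs, P.Hq, star_zero]

/-- `þ q þ' p = þ' q þ p`. -/
theorem sX : T.d0 P.q * T.d1 P.p = T.d1 P.q * T.d0 P.p := by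
  rw [← sub_eq_zero]
  apply P.uD.mul_right_eq_zero.mp
  linear_combination
    -((P.q - iA A * P.p) * (1 - P.al * P.p * P.q) * ((P.q + iA A * P.p) * (1 - P.al * P.p * P.q)))
      * T.n1
    + star T.r2 * ((P.q + iA A * P.p) * (1 - P.al * P.p * P.q)) * P.E0
    - ((1 - iA A * P.al * P.p ^ 2) * T.d0 P.q + (P.al * P.q ^ 2 - iA A) * T.d0 P.p) * P.E1b
    - star T.r * ((P.q + iA A * P.p) * (1 - P.al * P.p * P.q)) * P.E1
    + ((1 - iA A * P.al * P.p ^ 2) * T.d1 P.q + (P.al * P.q ^ 2 - iA A) * T.d1 P.p) * P.E0b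

/-- `ð q ð' p = ð' q ð p`. -/
theorem sY : T.d2 P.q * T.d3 P.p = T.d3 P.q * T.d2 P.p := by
  rw [← sub_eq_zero]
  apply P.uD.mul_right_eq_zero.mp
  linear_combination
    -((P.q - iA A * P.p) * (1 - P.al * P.p * P.q) * ((P.q + iA A * P.p) * (1 - P.al * P.p * P.q)))
      * T.n2
    + star T.t * ((P.q + iA A * P.p) * (1 - P.al * P.p * P.q)) * P.E2
    - ((1 - iA A * P.al * P.p ^ 2) * T.d2 P.q + (P.al * P.q ^ 2 - iA A) * T.d2 P.p) * P.E3b
    - star T.t2 * ((P.q + iA A * P.p) * (1 - P.al * P.p * P.q)) * P.E3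
    + ((1 - iA A * P.al * P.p ^ 2) * T.d3 P.q + (P.al * P.q ^ 2 - iA A) * T.d3 P.p) * P.E2b

variable {B : Type*} [CommRing B]

/-- A ring map killing the first order defects. -/
structure Kill (φ : A →+* B) : Prop where
  h1 : φ (T.d1 P.p) = 0
  h2 : φ (T.d2 P.q) = 0
  h3 : φ (T.d3 P.q) = 0

variable {P} {φ : A →+* B}

theorem Kill.h0 (K : P.Kill φ) : φ (T.d0 P.p) = 0 := by
  have h := congrArg φ P.sX
  rw [map_mul, map_mul, K.h1, mul_zero] at h
  exact (P.uS.map φ).mul_right_eq_zero.mp h.symm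

variable (P)

theorem uM (φ : A →+* B) : IsUnit ((φ P.q - φ (iA A) * φ P.p) * (1 - φ P.al * φ P.p * φ P.q)
    * ((φ P.q + φ (iA A) * φ P.p) * (1 - φ P.al * φ P.p * φ P.q)) * φ (T.d1 P.q)
    * ((1 + φ (iA A) * φ P.al * φ P.p ^ 2) * (φ P.al * φ P.q ^ 2 - φ (iA A))
      - (1 - φ (iA A) * φ P.al * φ P.p ^ 2) * (φ P.al * φ P.q ^ 2 + φ (iA A)))) := by
  have h := ((((P.uz.mul P.uO).mul (P.uzb.mul P.uO)).mul P.uS).mul P.uD).map φ
  simpa only [map_mul, map_add, map_sub, map_one, map_pow] using h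

theorem rel (K : P.Kill φ) :
    φ T.r * ((φ P.q - φ (iA A) * φ P.p) * (1 - φ P.al * φ P.p * φ P.q))
      = -((1 - φ (iA A) * φ P.al * φ P.p ^ 2) * φ (T.d0 P.q)) ∧
    φ (star T.r) * ((φ P.q + φ (iA A) * φ P.p) * (1 - φ P.al * φ P.p * φ P.q))
      = -((1 + φ (iA A) * φ P.al * φ P.p ^ 2) * φ (T.d0 P.q)) ∧
    φ T.r2 * ((φ P.q - φ (iA A) * φ P.p) * (1 - φ P.al * φ P.p * φ P.q))
      = -((1 - φ (iA A) * φ P.al * φ P.p ^ 2) * φ (T.d1 P.q)) ∧
    φ (star T.r2) * ((φ P.q + φ (iA A) * φ P.p) * (1 - φ P.al * φ P.p * φ P.q))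
      = -((1 + φ (iA A) * φ P.al * φ P.p ^ 2) * φ (T.d1 P.q)) ∧
    φ T.t * ((φ P.q - φ (iA A) * φ P.p) * (1 - φ P.al * φ P.p * φ P.q))
      = -((φ P.al * φ P.q ^ 2 - φ (iA A)) * φ (T.d2 P.p)) ∧
    φ (star T.t2) * ((φ P.q + φ (iA A) * φ P.p) * (1 - φ P.al * φ P.p * φ P.q))
      = -((φ P.al * φ P.q ^ 2 + φ (iA A)) * φ (T.d2 P.p)) ∧
    φ T.t2 * ((φ P.q - φ (iA A) * φ P.p) * (1 - φ P.al * φ P.p * φ P.q))
      = -((φ P.al * φ P.q ^ 2 - φ (iA A)) * φ (T.d3 P.p)) ∧
    φ (star T.t) * ((φ P.q + φ (iA A) * φ P.p) * (1 - φ P.al * φ P.p * φ P.q))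
      = -((φ P.al * φ P.q ^ 2 + φ (iA A)) * φ (T.d3 P.p)) := by
  have e0 := congrArg φ P.E0
  have e0b := congrArg φ P.E0b
  have e1 := congrArg φ P.E1
  have e1b := congrArg φ P.E1b
  have e2 := congrArg φ P.E2
  have e2b := congrArg φ P.E2b
  have e3 := congrArg φ P.E3
  have e3b := congrArg φ P.E3b
  simp only [map_mul, map_add, map_sub, map_neg, map_pow, map_one, K.h0, K.h1, K.h2, K.h3,
    mul_zero, add_zero, zero_add] at e0 e0b e1 e1b e2 e2b e3 e3b
  exact ⟨e0, e0b, e1, e1b, e2, e2b, e3, e3b⟩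

theorem dX0 (K : P.Kill φ) : φ (T.d0 (T.d1 P.p)) = 0 := by
  have h := congrArg T.d0 P.E1
  have hb := congrArg T.d0 P.E1b
  simp only [dmul, dsq, map_add, map_sub, map_neg, d_iA, P.kal.k0, Derivation.map_one_eq_zero,
    T.d0s, T.r2_0a, star_mul', star_sub, star_star, star_ofNat] at h hb
  have g := congrArg φ h
  have gb := congrArg φ hb
  have gr := congrArg φ T.r2a
  simp only [map_mul, map_add, map_sub, map_neg, map_pow, map_one, map_zero, map_ofNat, K.h0, K.h1,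
    K.h2, K.h3] at g gb gr
  obtain ⟨E0, E0b, E1, E1b, E2, E2b, E3, E3b⟩ := P.rel K
  apply (P.uM φ).mul_right_eq_zero.mp
  clear h hb K
  generalize φ (iA A) = i at *
  generalize φ P.al = al at *
  generalize φ P.p = p at *
  generalize φ P.q = q at *
  generalize φ (T.d0 P.q) = s at *
  generalize φ (T.d1 P.q) = s2 at *
  generalize φ (T.d2 P.p) = pi at *
  generalize φ (T.d3 P.p) = pb at *
  generalize φ T.r = r at *
  generalize φ (star T.r) = rb at *
  generalize φ T.r2 = r2 at *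
  generalize φ (star T.r2) = r2b at *
  generalize φ T.t = t at *
  generalize φ (star T.t) = tb at *
  generalize φ T.t2 = t2 at *
  generalize φ (star T.t2) = t2b at *
  generalize φ T.a = aa at *
  generalize φ (star T.a) = ab at *
  linear_combination
    (((q - i * p) * (1 - al * p * q)) * ((q + i * p) * (1 - al * p * q)) * s2) * (1 + al * i * p ^ 2)
    * g + (((q - i * p) * (1 - al * p * q)) * ((q + i * p) * (1 - al * p * q)) * s2) * (-1 + al * i
    * p ^ 2) * gb + (((q - i * p) * (1 - al * p * q)) ^ 2 * ((q + i * p) * (1 - al * p * q)) ^ 2)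
    * gr + (((q - i * p) * (1 - al * p * q)) * ((q + i * p) * (1 - al * p * q)) ^ 2 * r2 * r2b - ((q
    - i * p) * (1 - al * p * q)) * ((q + i * p) * (1 - al * p * q)) ^ 2 * r2b ^ 2) * E0 + (ab * ((q
    - i * p) * (1 - al * p * q)) * ((q + i * p) * (1 - al * p * q)) ^ 2 - 2 * ((q + i * p) * (1 - al
    * p * q)) * al * i * p ^ 2 * s * s2 + 2 * ((q + i * p) * (1 - al * p * q)) * al * p * q * s * s2
    + 2 * ((q + i * p) * (1 - al * p * q)) * al ^ 2 * i * p ^ 3 * q * s * s2 - ((q + i * p) * (1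
    - al * p * q)) * al ^ 2 * i ^ 2 * p ^ 4 * s * s2 - ((q + i * p) * (1 - al * p * q)) * s * s2
    + ((q + i * p) * (1 - al * p * q)) ^ 2 * al * i * p ^ 2 * r2b * s - ((q + i * p) * (1 - al * p
    * q)) ^ 2 * r2b * s) * E1 + (-aa * ((q - i * p) * (1 - al * p * q)) ^ 2 * ((q + i * p) * (1 - al
    * p * q)) - ((q - i * p) * (1 - al * p * q)) * ((q + i * p) * (1 - al * p * q)) * al * i * p ^ 2
    * r2b * s + ((q - i * p) * (1 - al * p * q)) * ((q + i * p) * (1 - al * p * q)) * r2b * s - 2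
    * ((q - i * p) * (1 - al * p * q)) * al * i * p ^ 2 * s * s2 - 2 * ((q - i * p) * (1 - al * p
    * q)) * al * p * q * s * s2 + 2 * ((q - i * p) * (1 - al * p * q)) * al ^ 2 * i * p ^ 3 * q * s
    * s2 + 2 * ((q - i * p) * (1 - al * p * q)) * al ^ 2 * i ^ 2 * p ^ 4 * s * s2 - 2 * ((q + i * p)
    * (1 - al * p * q)) * al * i * p ^ 2 * s * s2 + ((q + i * p) * (1 - al * p * q)) * al ^ 2 * i ^ 2
    * p ^ 4 * s * s2 + ((q + i * p) * (1 - al * p * q)) * s * s2) * E1b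

theorem dX1 (K : P.Kill φ) : φ (T.d1 (T.d1 P.p)) = 0 := by
  have h := congrArg T.d1 P.E1
  have hb := congrArg T.d1 P.E1b
  simp only [dmul, dsq, map_add, map_sub, map_neg, d_iA, P.kal.k1, Derivation.map_one_eq_zero,
    T.d1s, T.r2_1, star_mul', star_sub, star_star, star_ofNat] at h hb
  have g := congrArg φ h
  have gb := congrArg φ hb
  simp only [map_mul, map_add, map_sub, map_neg, map_pow, map_one, map_zero, map_ofNat, K.h0, K.h1,
    K.h2, K.h3] at g gb
  obtain ⟨E0, E0b, E1, E1b, E2, E2b, E3, E3b⟩ := P.rel K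
  apply (P.uM φ).mul_right_eq_zero.mp
  clear h hb K
  generalize φ (iA A) = i at *
  generalize φ P.al = al at *
  generalize φ P.p = p at *
  generalize φ P.q = q at *
  generalize φ (T.d0 P.q) = s at *
  generalize φ (T.d1 P.q) = s2 at *
  generalize φ (T.d2 P.p) = pi at *
  generalize φ (T.d3 P.p) = pb at *
  generalize φ T.r = r at *
  generalize φ (star T.r) = rb at *
  generalize φ T.r2 = r2 at *
  generalize φ (star T.r2) = r2b at *
  generalize φ T.t = t at *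
  generalize φ (star T.t) = tb at *
  generalize φ T.t2 = t2 at *
  generalize φ (star T.t2) = t2b at *
  linear_combination
    (((q - i * p) * (1 - al * p * q)) * ((q + i * p) * (1 - al * p * q)) * s2) * (1 + al * i * p ^ 2)
    * g + (((q - i * p) * (1 - al * p * q)) * ((q + i * p) * (1 - al * p * q)) * s2) * (-1 + al * i
    * p ^ 2) * gb + (-((q - i * p) * (1 - al * p * q)) * ((q + i * p) * (1 - al * p * q)) * al * i
    * p ^ 2 * r2 * s2 - ((q - i * p) * (1 - al * p * q)) * ((q + i * p) * (1 - al * p * q)) * r2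
    * s2 - 2 * ((q + i * p) * (1 - al * p * q)) * al * i * p ^ 2 * s2 ^ 2 + 2 * ((q + i * p) * (1
    - al * p * q)) * al * p * q * s2 ^ 2 + 2 * ((q + i * p) * (1 - al * p * q)) * al ^ 2 * i * p ^ 3
    * q * s2 ^ 2 - 2 * ((q + i * p) * (1 - al * p * q)) * al ^ 2 * i ^ 2 * p ^ 4 * s2 ^ 2) * E1 + (-((q
    - i * p) * (1 - al * p * q)) * ((q + i * p) * (1 - al * p * q)) * al * i * p ^ 2 * r2b * s2 + ((q
    - i * p) * (1 - al * p * q)) * ((q + i * p) * (1 - al * p * q)) * r2b * s2 - 2 * ((q - i * p)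
    * (1 - al * p * q)) * al * i * p ^ 2 * s2 ^ 2 - 2 * ((q - i * p) * (1 - al * p * q)) * al * p
    * q * s2 ^ 2 + 2 * ((q - i * p) * (1 - al * p * q)) * al ^ 2 * i * p ^ 3 * q * s2 ^ 2 + 2 * ((q
    - i * p) * (1 - al * p * q)) * al ^ 2 * i ^ 2 * p ^ 4 * s2 ^ 2) * E1b

theorem dX2 (K : P.Kill φ) : φ (T.d2 (T.d1 P.p)) = 0 := by
  have h := congrArg T.d2 P.E1
  have hb := congrArg T.d2 P.E1b
  simp only [dmul, dsq, map_add, map_sub, map_neg, d_iA, P.kal.k2, Derivation.map_one_eq_zero,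
    T.d2s, T.r2_2, T.r2_3, T.e_eq, star_mul', star_sub, star_star, star_ofNat] at h hb
  have g := congrArg φ h
  have gb := congrArg φ hb
  simp only [map_mul, map_add, map_sub, map_neg, map_pow, map_one, map_zero, map_ofNat, K.h0, K.h1,
    K.h2, K.h3] at g gb
  obtain ⟨E0, E0b, E1, E1b, E2, E2b, E3, E3b⟩ := P.rel K
  apply (P.uM φ).mul_right_eq_zero.mp
  clear h hb K
  generalize φ (iA A) = i at *
  generalize φ P.al = al at *
  generalize φ P.p = p at *
  generalize φ P.q = q at *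
  generalize φ (T.d0 P.q) = s at *
  generalize φ (T.d1 P.q) = s2 at *
  generalize φ (T.d2 P.p) = pi at *
  generalize φ (T.d3 P.p) = pb at *
  generalize φ T.r = r at *
  generalize φ (star T.r) = rb at *
  generalize φ T.r2 = r2 at *
  generalize φ (star T.r2) = r2b at *
  generalize φ T.t = t at *
  generalize φ (star T.t) = tb at *
  generalize φ T.t2 = t2 at *
  generalize φ (star T.t2) = t2b at *
  linear_combination
    (((q - i * p) * (1 - al * p * q)) * ((q + i * p) * (1 - al * p * q)) * s2) * (1 + al * i * p ^ 2)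
    * g + (((q - i * p) * (1 - al * p * q)) * ((q + i * p) * (1 - al * p * q)) * s2) * (-1 + al * i
    * p ^ 2) * gb + (-2 * ((q - i * p) * (1 - al * p * q)) * ((q + i * p) * (1 - al * p * q)) * al
    * i * p ^ 2 * s2 * t + ((q - i * p) * (1 - al * p * q)) * ((q + i * p) * (1 - al * p * q)) * al
    * i * p ^ 2 * s2 * t2b - 2 * ((q - i * p) * (1 - al * p * q)) * ((q + i * p) * (1 - al * p * q))
    * s2 * t + ((q - i * p) * (1 - al * p * q)) * ((q + i * p) * (1 - al * p * q)) * s2 * t2b - 2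
    * ((q + i * p) * (1 - al * p * q)) * al * i * p * pi * q * s2 + ((q + i * p) * (1 - al * p * q))
    * al * i ^ 2 * p ^ 2 * pi * s2 + ((q + i * p) * (1 - al * p * q)) * al * pi * q ^ 2 * s2 + ((q
    + i * p) * (1 - al * p * q)) * al ^ 2 * i * p ^ 2 * pi * q ^ 2 * s2 - 2 * ((q + i * p) * (1 - al
    * p * q)) * al ^ 2 * i ^ 2 * p ^ 3 * pi * q * s2 + ((q + i * p) * (1 - al * p * q)) * i * pi
    * s2 + ((q + i * p) * (1 - al * p * q)) ^ 2 * al * i * p ^ 2 * s2 * t2b - ((q + i * p) * (1 - al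
    * p * q)) ^ 2 * s2 * t2b) * E1 + (-((q - i * p) * (1 - al * p * q)) * ((q + i * p) * (1 - al
    * p * q)) * al * i * p ^ 2 * s2 * t2b + ((q - i * p) * (1 - al * p * q)) * ((q + i * p) * (1
    - al * p * q)) * s2 * t2b - 2 * ((q - i * p) * (1 - al * p * q)) * al * i * p * pi * q * s2 - ((q
    - i * p) * (1 - al * p * q)) * al * i ^ 2 * p ^ 2 * pi * s2 - ((q - i * p) * (1 - al * p * q))
    * al * pi * q ^ 2 * s2 + ((q - i * p) * (1 - al * p * q)) * al ^ 2 * i * p ^ 2 * pi * q ^ 2 * s2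
    + 2 * ((q - i * p) * (1 - al * p * q)) * al ^ 2 * i ^ 2 * p ^ 3 * pi * q * s2 + ((q - i * p)
    * (1 - al * p * q)) * i * pi * s2 + ((q - i * p) * (1 - al * p * q)) ^ 2 * al * i * p ^ 2 * s2
    * t + ((q - i * p) * (1 - al * p * q)) ^ 2 * s2 * t) * E1b + (-2 * ((q - i * p) * (1 - al * p
    * q)) * al * i * p ^ 2 * s2 ^ 2 - ((q - i * p) * (1 - al * p * q)) * al ^ 2 * i ^ 2 * p ^ 4 * s2 ^ 2
    - ((q - i * p) * (1 - al * p * q)) * s2 ^ 2 - 2 * ((q + i * p) * (1 - al * p * q)) * al ^ 2 * i ^ 2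
    * p ^ 4 * s2 ^ 2 + 2 * ((q + i * p) * (1 - al * p * q)) * s2 ^ 2) * E2 + (2 * ((q - i * p) * (1
    - al * p * q)) * al ^ 2 * i ^ 2 * p ^ 4 * s2 ^ 2 - 2 * ((q - i * p) * (1 - al * p * q)) * s2 ^ 2
    - 2 * ((q + i * p) * (1 - al * p * q)) * al * i * p ^ 2 * s2 ^ 2 + ((q + i * p) * (1 - al * p
    * q)) * al ^ 2 * i ^ 2 * p ^ 4 * s2 ^ 2 + ((q + i * p) * (1 - al * p * q)) * s2 ^ 2) * E2b

theorem dX3 (K : P.Kill φ) : φ (T.d3 (T.d1 P.p)) = 0 := by
  have h := congrArg T.d3 P.E1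
  have hb := congrArg T.d3 P.E1b
  simp only [dmul, dsq, map_add, map_sub, map_neg, d_iA, P.kal.k3, Derivation.map_one_eq_zero,
    T.d3s, T.r2_2, T.r2_3, T.e_eq, star_mul', star_sub, star_star, star_ofNat] at h hb
  have g := congrArg φ h
  have gb := congrArg φ hb
  simp only [map_mul, map_add, map_sub, map_neg, map_pow, map_one, map_zero, map_ofNat, K.h0, K.h1,
    K.h2, K.h3] at g gb
  obtain ⟨E0, E0b, E1, E1b, E2, E2b, E3, E3b⟩ := P.rel K
  apply (P.uM φ).mul_right_eq_zero.mp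
  clear h hb K
  generalize φ (iA A) = i at *
  generalize φ P.al = al at *
  generalize φ P.p = p at *
  generalize φ P.q = q at *
  generalize φ (T.d0 P.q) = s at *
  generalize φ (T.d1 P.q) = s2 at *
  generalize φ (T.d2 P.p) = pi at *
  generalize φ (T.d3 P.p) = pb at *
  generalize φ T.r = r at *
  generalize φ (star T.r) = rb at *
  generalize φ T.r2 = r2 at *
  generalize φ (star T.r2) = r2b at *
  generalize φ T.t = t at *
  generalize φ (star T.t) = tb at *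
  generalize φ T.t2 = t2 at *
  generalize φ (star T.t2) = t2b at *
  linear_combination
    (((q - i * p) * (1 - al * p * q)) * ((q + i * p) * (1 - al * p * q)) * s2) * (1 + al * i * p ^ 2)
    * g + (((q - i * p) * (1 - al * p * q)) * ((q + i * p) * (1 - al * p * q)) * s2) * (-1 + al * i
    * p ^ 2) * gb + (-((q - i * p) * (1 - al * p * q)) * ((q + i * p) * (1 - al * p * q)) * al * i
    * p ^ 2 * s2 * t2 - ((q - i * p) * (1 - al * p * q)) * ((q + i * p) * (1 - al * p * q)) * s2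
    * t2 - 2 * ((q + i * p) * (1 - al * p * q)) * al * i * p * pb * q * s2 + ((q + i * p) * (1 - al
    * p * q)) * al * i ^ 2 * p ^ 2 * pb * s2 + ((q + i * p) * (1 - al * p * q)) * al * pb * q ^ 2
    * s2 + ((q + i * p) * (1 - al * p * q)) * al ^ 2 * i * p ^ 2 * pb * q ^ 2 * s2 - 2 * ((q + i
    * p) * (1 - al * p * q)) * al ^ 2 * i ^ 2 * p ^ 3 * pb * q * s2 + ((q + i * p) * (1 - al * p
    * q)) * i * pb * s2 + ((q + i * p) * (1 - al * p * q)) ^ 2 * al * i * p ^ 2 * s2 * tb - ((q + i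
    * p) * (1 - al * p * q)) ^ 2 * s2 * tb) * E1 + (((q - i * p) * (1 - al * p * q)) * ((q + i * p)
    * (1 - al * p * q)) * al * i * p ^ 2 * s2 * t2 - 2 * ((q - i * p) * (1 - al * p * q)) * ((q + i
    * p) * (1 - al * p * q)) * al * i * p ^ 2 * s2 * tb - ((q - i * p) * (1 - al * p * q)) * ((q
    + i * p) * (1 - al * p * q)) * s2 * t2 + 2 * ((q - i * p) * (1 - al * p * q)) * ((q + i * p)
    * (1 - al * p * q)) * s2 * tb - 2 * ((q - i * p) * (1 - al * p * q)) * al * i * p * pb * q * s2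
    - ((q - i * p) * (1 - al * p * q)) * al * i ^ 2 * p ^ 2 * pb * s2 - ((q - i * p) * (1 - al * p
    * q)) * al * pb * q ^ 2 * s2 + ((q - i * p) * (1 - al * p * q)) * al ^ 2 * i * p ^ 2 * pb * q ^ 2
    * s2 + 2 * ((q - i * p) * (1 - al * p * q)) * al ^ 2 * i ^ 2 * p ^ 3 * pb * q * s2 + ((q - i
    * p) * (1 - al * p * q)) * i * pb * s2 + ((q - i * p) * (1 - al * p * q)) ^ 2 * al * i * p ^ 2
    * s2 * t2 + ((q - i * p) * (1 - al * p * q)) ^ 2 * s2 * t2) * E1b + (-2 * ((q - i * p) * (1 - al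
    * p * q)) * al * i * p ^ 2 * s2 ^ 2 - ((q - i * p) * (1 - al * p * q)) * al ^ 2 * i ^ 2 * p ^ 4
    * s2 ^ 2 - ((q - i * p) * (1 - al * p * q)) * s2 ^ 2 - 2 * ((q + i * p) * (1 - al * p * q)) * al ^ 2
    * i ^ 2 * p ^ 4 * s2 ^ 2 + 2 * ((q + i * p) * (1 - al * p * q)) * s2 ^ 2) * E3 + (2 * ((q - i
    * p) * (1 - al * p * q)) * al ^ 2 * i ^ 2 * p ^ 4 * s2 ^ 2 - 2 * ((q - i * p) * (1 - al * p * q))
    * s2 ^ 2 - 2 * ((q + i * p) * (1 - al * p * q)) * al * i * p ^ 2 * s2 ^ 2 + ((q + i * p) * (1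
    - al * p * q)) * al ^ 2 * i ^ 2 * p ^ 4 * s2 ^ 2 + ((q + i * p) * (1 - al * p * q)) * s2 ^ 2)
    * E3b

theorem dY0 (K : P.Kill φ) : φ (T.d0 (T.d2 P.q)) = 0 := by
  have h := congrArg T.d0 P.E2
  have hb := congrArg T.d0 P.E2b
  simp only [dmul, dsq, map_add, map_sub, map_neg, d_iA, P.kal.k0, Derivation.map_one_eq_zero,
    T.d0s, T.t_0, T.t2_0, T.b_eq, star_mul', star_sub, star_star, star_ofNat] at h hb
  have g := congrArg φ h
  have gb := congrArg φ hb
  simp only [map_mul, map_add, map_sub, map_neg, map_pow, map_one, map_zero, map_ofNat, K.h0, K.h1,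
    K.h2, K.h3] at g gb
  obtain ⟨E0, E0b, E1, E1b, E2, E2b, E3, E3b⟩ := P.rel K
  apply (P.uM φ).mul_right_eq_zero.mp
  clear h hb K
  generalize φ (iA A) = i at *
  generalize φ P.al = al at *
  generalize φ P.p = p at *
  generalize φ P.q = q at *
  generalize φ (T.d0 P.q) = s at *
  generalize φ (T.d1 P.q) = s2 at *
  generalize φ (T.d2 P.p) = pi at *
  generalize φ (T.d3 P.p) = pb at *
  generalize φ T.r = r at *
  generalize φ (star T.r) = rb at *
  generalize φ T.r2 = r2 at *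
  generalize φ (star T.r2) = r2b at *
  generalize φ T.t = t at *
  generalize φ (star T.t) = tb at *
  generalize φ T.t2 = t2 at *
  generalize φ (star T.t2) = t2b at *
  linear_combination
    (((q - i * p) * (1 - al * p * q)) * ((q + i * p) * (1 - al * p * q)) * s2) * (-al * q ^ 2 - i)
    * g + (((q - i * p) * (1 - al * p * q)) * ((q + i * p) * (1 - al * p * q)) * s2) * (al * q ^ 2
    - i) * gb + (((q - i * p) * (1 - al * p * q)) * ((q + i * p) * (1 - al * p * q)) * al * q ^ 2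
    * s2 * t - ((q - i * p) * (1 - al * p * q)) * ((q + i * p) * (1 - al * p * q)) * al * q ^ 2 * s2
    * t2b + ((q - i * p) * (1 - al * p * q)) * ((q + i * p) * (1 - al * p * q)) * i * s2 * t - ((q
    - i * p) * (1 - al * p * q)) * ((q + i * p) * (1 - al * p * q)) * i * s2 * t2b + ((q + i * p)
    * (1 - al * p * q)) ^ 2 * al * q ^ 2 * s2 * t2b - ((q + i * p) * (1 - al * p * q)) ^ 2 * i * s2
    * t2b) * E0 + (((q - i * p) * (1 - al * p * q)) * ((q + i * p) * (1 - al * p * q)) * al * q ^ 2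
    * s2 * t - 2 * ((q - i * p) * (1 - al * p * q)) * ((q + i * p) * (1 - al * p * q)) * al * q ^ 2
    * s2 * t2b - ((q - i * p) * (1 - al * p * q)) * ((q + i * p) * (1 - al * p * q)) * i * s2 * t
    + 2 * ((q - i * p) * (1 - al * p * q)) * ((q + i * p) * (1 - al * p * q)) * i * s2 * t2b) * E0b
    + (-2 * ((q + i * p) * (1 - al * p * q)) * al * i * p * q * s * s2 + 3 * ((q + i * p) * (1 - al
    * p * q)) * al * i ^ 2 * p ^ 2 * s * s2 - ((q + i * p) * (1 - al * p * q)) * al * q ^ 2 * s * s2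
    + ((q + i * p) * (1 - al * p * q)) * al ^ 2 * i * p ^ 2 * q ^ 2 * s * s2 - 2 * ((q + i * p) * (1
    - al * p * q)) * al ^ 2 * p * q ^ 3 * s * s2 + ((q + i * p) * (1 - al * p * q)) * i * s * s2)
    * E2 + (-2 * ((q - i * p) * (1 - al * p * q)) * al * i * p * q * s * s2 - 4 * ((q - i * p) * (1
    - al * p * q)) * al * i ^ 2 * p ^ 2 * s * s2 + 2 * ((q - i * p) * (1 - al * p * q)) * al * q ^ 2
    * s * s2 + 2 * ((q - i * p) * (1 - al * p * q)) * al ^ 2 * i * p ^ 2 * q ^ 2 * s * s2 + 2 * ((q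
    - i * p) * (1 - al * p * q)) * al ^ 2 * p * q ^ 3 * s * s2 - ((q + i * p) * (1 - al * p * q))
    * al * i ^ 2 * p ^ 2 * s * s2 - ((q + i * p) * (1 - al * p * q)) * al * q ^ 2 * s * s2 + ((q
    + i * p) * (1 - al * p * q)) * al ^ 2 * i * p ^ 2 * q ^ 2 * s * s2 + ((q + i * p) * (1 - al * p
    * q)) * i * s * s2) * E2b

theorem dY1 (K : P.Kill φ) : φ (T.d1 (T.d2 P.q)) = 0 := by
  have h := congrArg T.d1 P.E2
  have hb := congrArg T.d1 P.E2b
  simp only [dmul, dsq, map_add, map_sub, map_neg, d_iA, P.kal.k1, Derivation.map_one_eq_zero,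
    T.d1s, T.t_1, T.t2_1, T.e_eq, star_mul', star_sub, star_star, star_ofNat] at h hb
  have g := congrArg φ h
  have gb := congrArg φ hb
  simp only [map_mul, map_add, map_sub, map_neg, map_pow, map_one, map_zero, map_ofNat, K.h0, K.h1,
    K.h2, K.h3] at g gb
  obtain ⟨E0, E0b, E1, E1b, E2, E2b, E3, E3b⟩ := P.rel K
  apply (P.uM φ).mul_right_eq_zero.mp
  clear h hb K
  generalize φ (iA A) = i at *
  generalize φ P.al = al at *
  generalize φ P.p = p at *
  generalize φ P.q = q at *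
  generalize φ (T.d0 P.q) = s at *
  generalize φ (T.d1 P.q) = s2 at *
  generalize φ (T.d2 P.p) = pi at *
  generalize φ (T.d3 P.p) = pb at *
  generalize φ T.r = r at *
  generalize φ (star T.r) = rb at *
  generalize φ T.r2 = r2 at *
  generalize φ (star T.r2) = r2b at *
  generalize φ T.t = t at *
  generalize φ (star T.t) = tb at *
  generalize φ T.t2 = t2 at *
  generalize φ (star T.t2) = t2b at *
  linear_combination
    (((q - i * p) * (1 - al * p * q)) * ((q + i * p) * (1 - al * p * q)) * s2) * (-al * q ^ 2 - i)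
    * g + (((q - i * p) * (1 - al * p * q)) * ((q + i * p) * (1 - al * p * q)) * s2) * (al * q ^ 2
    - i) * gb + (2 * ((q - i * p) * (1 - al * p * q)) * ((q + i * p) * (1 - al * p * q)) * al * q ^ 2
    * s2 * t - ((q - i * p) * (1 - al * p * q)) * ((q + i * p) * (1 - al * p * q)) * al * q ^ 2 * s2
    * t2b + 2 * ((q - i * p) * (1 - al * p * q)) * ((q + i * p) * (1 - al * p * q)) * i * s2 * t
    - ((q - i * p) * (1 - al * p * q)) * ((q + i * p) * (1 - al * p * q)) * i * s2 * t2b) * E1 + (((q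
    - i * p) * (1 - al * p * q)) * ((q + i * p) * (1 - al * p * q)) * al * q ^ 2 * s2 * t - ((q - i
    * p) * (1 - al * p * q)) * ((q + i * p) * (1 - al * p * q)) * al * q ^ 2 * s2 * t2b - ((q - i
    * p) * (1 - al * p * q)) * ((q + i * p) * (1 - al * p * q)) * i * s2 * t + ((q - i * p) * (1
    - al * p * q)) * ((q + i * p) * (1 - al * p * q)) * i * s2 * t2b - ((q - i * p) * (1 - al * p
    * q)) ^ 2 * al * q ^ 2 * s2 * t - ((q - i * p) * (1 - al * p * q)) ^ 2 * i * s2 * t) * E1b + (((q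
    - i * p) * (1 - al * p * q)) * al * i ^ 2 * p ^ 2 * s2 ^ 2 + ((q - i * p) * (1 - al * p * q))
    * al * q ^ 2 * s2 ^ 2 + ((q - i * p) * (1 - al * p * q)) * al ^ 2 * i * p ^ 2 * q ^ 2 * s2 ^ 2
    + ((q - i * p) * (1 - al * p * q)) * i * s2 ^ 2 - 2 * ((q + i * p) * (1 - al * p * q)) * al * i
    * p * q * s2 ^ 2 + 4 * ((q + i * p) * (1 - al * p * q)) * al * i ^ 2 * p ^ 2 * s2 ^ 2 - 2 * ((q
    + i * p) * (1 - al * p * q)) * al * q ^ 2 * s2 ^ 2 + 2 * ((q + i * p) * (1 - al * p * q)) * al ^ 2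
    * i * p ^ 2 * q ^ 2 * s2 ^ 2 - 2 * ((q + i * p) * (1 - al * p * q)) * al ^ 2 * p * q ^ 3 * s2 ^ 2)
    * E2 + (-2 * ((q - i * p) * (1 - al * p * q)) * al * i * p * q * s2 ^ 2 - 3 * ((q - i * p) * (1
    - al * p * q)) * al * i ^ 2 * p ^ 2 * s2 ^ 2 + ((q - i * p) * (1 - al * p * q)) * al * q ^ 2
    * s2 ^ 2 + ((q - i * p) * (1 - al * p * q)) * al ^ 2 * i * p ^ 2 * q ^ 2 * s2 ^ 2 + 2 * ((q - i
    * p) * (1 - al * p * q)) * al ^ 2 * p * q ^ 3 * s2 ^ 2 + ((q - i * p) * (1 - al * p * q)) * i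
    * s2 ^ 2) * E2b

theorem dY2 (K : P.Kill φ) : φ (T.d2 (T.d2 P.q)) = 0 := by
  have h := congrArg T.d2 P.E2
  have hb := congrArg T.d2 P.E2b
  simp only [dmul, dsq, map_add, map_sub, map_neg, d_iA, P.kal.k2, Derivation.map_one_eq_zero,
    T.d2s, T.t_2, T.t2_3, star_mul', star_sub, star_star, star_ofNat] at h hb
  have g := congrArg φ h
  have gb := congrArg φ hb
  simp only [map_mul, map_add, map_sub, map_neg, map_pow, map_one, map_zero, map_ofNat, K.h0, K.h1,
    K.h2, K.h3] at g gb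
  obtain ⟨E0, E0b, E1, E1b, E2, E2b, E3, E3b⟩ := P.rel K
  apply (P.uM φ).mul_right_eq_zero.mp
  clear h hb K
  generalize φ (iA A) = i at *
  generalize φ P.al = al at *
  generalize φ P.p = p at *
  generalize φ P.q = q at *
  generalize φ (T.d0 P.q) = s at *
  generalize φ (T.d1 P.q) = s2 at *
  generalize φ (T.d2 P.p) = pi at *
  generalize φ (T.d3 P.p) = pb at *
  generalize φ T.r = r at *
  generalize φ (star T.r) = rb at *
  generalize φ T.r2 = r2 at *
  generalize φ (star T.r2) = r2b at *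
  generalize φ T.t = t at *
  generalize φ (star T.t) = tb at *
  generalize φ T.t2 = t2 at *
  generalize φ (star T.t2) = t2b at *
  linear_combination
    (((q - i * p) * (1 - al * p * q)) * ((q + i * p) * (1 - al * p * q)) * s2) * (-al * q ^ 2 - i)
    * g + (((q - i * p) * (1 - al * p * q)) * ((q + i * p) * (1 - al * p * q)) * s2) * (al * q ^ 2
    - i) * gb + (((q - i * p) * (1 - al * p * q)) * ((q + i * p) * (1 - al * p * q)) * al * q ^ 2
    * s2 * t + ((q - i * p) * (1 - al * p * q)) * ((q + i * p) * (1 - al * p * q)) * i * s2 * t - 2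
    * ((q + i * p) * (1 - al * p * q)) * al * i * pi * q ^ 2 * s2 + 2 * ((q + i * p) * (1 - al * p
    * q)) * al * i ^ 2 * p * pi * q * s2 + 2 * ((q + i * p) * (1 - al * p * q)) * al ^ 2 * i * p
    * pi * q ^ 3 * s2 - 2 * ((q + i * p) * (1 - al * p * q)) * al ^ 2 * pi * q ^ 4 * s2) * E2 + (-((q
    - i * p) * (1 - al * p * q)) * ((q + i * p) * (1 - al * p * q)) * al * q ^ 2 * s2 * t2b + ((q
    - i * p) * (1 - al * p * q)) * ((q + i * p) * (1 - al * p * q)) * i * s2 * t2b - 2 * ((q - i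
    * p) * (1 - al * p * q)) * al * i * pi * q ^ 2 * s2 - 2 * ((q - i * p) * (1 - al * p * q)) * al
    * i ^ 2 * p * pi * q * s2 + 2 * ((q - i * p) * (1 - al * p * q)) * al ^ 2 * i * p * pi * q ^ 3
    * s2 + 2 * ((q - i * p) * (1 - al * p * q)) * al ^ 2 * pi * q ^ 4 * s2) * E2b

end PD
end Vale.Agent.P354NP
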