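import Mathlib

namespace Vale.Agent.P354NP

/-- An exact vacuum type D GHP algebra: six derivations on a commutative star algebra. -/
structure TD (A : Type*) [CommRing A] [StarRing A] [Algebra ℂ A] where
  d0 : Derivation ℂ A A
  d1 : Derivation ℂ A A
  d2 : Derivation ℂ A A
  d3 : Derivation ℂ A A
  H : Derivation ℂ A A
  Hb : Derivation ℂ A A
  r : A
  r2 : A
  t : A
  t2 : A
  ze : A
  zi : A
  zezi : ze * zi = 1
  s0 : ∀ f, star (d0 f) = d0 (star f)
  s1 : ∀ f, star (d1 f) = d1 (star f)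
  s2 : ∀ f, star (d2 f) = d3 (star f)
  sH : ∀ f, star (H f) = Hb (star f)
  H0 : ∀ f, H (d0 f) = d0 (H f) + d0 f
  H1 : ∀ f, H (d1 f) = d1 (H f) - d1 f
  H2 : ∀ f, H (d2 f) = d2 (H f) + d2 f
  H3 : ∀ f, H (d3 f) = d3 (H f) - d3 f
  HH : ∀ f, H (Hb f) = Hb (H f)
  Hr : H r = r
  Hbr : Hb r = r
  Hr2 : H r2 = -r2
  Hbr2 : Hb r2 = -r2
  Ht : H t = t
  Hbt : Hb t = -t
  Ht2 : H t2 = -t2
  Hbt2 : Hb t2 = t2
  Hze : H ze = 0
  Hbze : Hb ze = 0
  c01 : ∀ f, d0 (d1 f) - d1 (d0 f) = (star t - t2) * d2 f + (t - star t2) * d3 f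
    - (zi ^ 3 - t * t2) * H f - (star zi ^ 3 - star t * star t2) * Hb f
  c02 : ∀ f, d0 (d2 f) - d2 (d0 f) = star r * d2 f - star t2 * d0 f + star r * star t2 * Hb f
  c12 : ∀ f, d1 (d2 f) - d2 (d1 f) = r2 * d2 f - t * d1 f - r2 * t * H f
  c23 : ∀ f, d2 (d3 f) - d3 (d2 f) = (star r2 - r2) * d0 f + (r - star r) * d1 f
    + (r * r2 + zi ^ 3) * H f - (star r * star r2 + star zi ^ 3) * Hb f
  r_0 : d0 r = r * r
  r_2 : d2 r = t * (r - star r)
  t_0 : d0 t = r * (t - star t2)
  t_2 : d2 t = t * t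
  rt : d1 r - d3 t = r * star r2 - t * star t - zi ^ 3
  r2_1 : d1 r2 = r2 * r2
  r2_3 : d3 r2 = t2 * (r2 - star r2)
  t2_1 : d1 t2 = r2 * (t2 - star t)
  t2_3 : d3 t2 = t2 * t2
  rt2 : d0 r2 - d2 t2 = r2 * star r - t2 * star t2 - zi ^ 3
  ze0 : d0 ze = -(r * ze)
  ze1 : d1 ze = -(r2 * ze)
  ze2 : d2 ze = -(t * ze)
  ze3 : d3 ze = -(t2 * ze)

variable {A : Type*} [CommRing A] [StarRing A] [Algebra ℂ A]

omit [StarRing A] in
theorem dmul (D : Derivation ℂ A A) (a b : A) : D (a * b) = a * D b + b * D a := by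
  rw [D.leibniz]; simp only [smul_eq_mul]

omit [StarRing A] in
theorem d2n (D : Derivation ℂ A A) : D (2 : A) = 0 := by
  have := D.map_natCast 2
  simpa using this

omit [StarRing A] in
theorem d3n (D : Derivation ℂ A A) : D (3 : A) = 0 := by
  have := D.map_natCast 3
  simpa using this

omit [StarRing A] in
theorem dsq (D : Derivation ℂ A A) (a : A) : D (a ^ 2) = 2 * a * D a := by
  rw [pow_two, dmul]; ring

omit [StarRing A] in
theorem dcu (D : Derivation ℂ A A) (a : A) : D (a ^ 3) = 3 * a ^ 2 * D a := by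
  rw [pow_succ, dmul, dsq]; ring

omit [StarRing A] in
theorem dqu (D : Derivation ℂ A A) (a : A) : D (a ^ 4) = 4 * a ^ 3 * D a := by
  rw [pow_succ, dmul, dcu]; ring

omit [StarRing A] in
theorem dinv (D : Derivation ℂ A A) {a b : A} (h : a * b = 1) : D b = -(b * b * D a) := by
  have h1 : D (a * b) = 0 := by rw [h]; exact D.map_one_eq_zero
  rw [dmul] at h1
  linear_combination b * h1 - D b * h

omit [StarRing A] in
theorem ncancel (n : ℕ) (hn : n ≠ 0) {x : A} (h : (n : A) * x = 0) : x = 0 := by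
  have h1 : algebraMap ℂ A ((n : ℂ)⁻¹) * (n : A) = 1 := by
    rw [← map_natCast (algebraMap ℂ A) n, ← map_mul, inv_mul_cancel₀ (Nat.cast_ne_zero.mpr hn),
      map_one]
  calc x = algebraMap ℂ A ((n : ℂ)⁻¹) * ((n : A) * x) := by rw [← mul_assoc, h1, one_mul]
    _ = 0 := by rw [h, mul_zero]

namespace TD
variable (T : TD A)

theorem s3 (f : A) : star (T.d3 f) = T.d2 (star f) := by
  have := T.s2 (star f); rw [star_star] at this; rw [← this, star_star]

theorem sHb (f : A) : star (T.Hb f) = T.H (star f) := by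
  have := T.sH (star f); rw [star_star] at this; rw [← this, star_star]

theorem Hb0 (f : A) : T.Hb (T.d0 f) = T.d0 (T.Hb f) + T.d0 f := by
  have := congrArg star (T.H0 (star f))
  simpa only [star_add, T.sH, T.s0, star_star] using this

theorem Hb1 (f : A) : T.Hb (T.d1 f) = T.d1 (T.Hb f) - T.d1 f := by
  have := congrArg star (T.H1 (star f))
  simpa only [star_sub, T.sH, T.s1, star_star] using this

theorem Hb2 (f : A) : T.Hb (T.d2 f) = T.d2 (T.Hb f) - T.d2 f := by
  have := congrArg star (T.H3 (star f))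
  simpa only [star_sub, T.sH, T.s3, star_star] using this

theorem Hb3 (f : A) : T.Hb (T.d3 f) = T.d3 (T.Hb f) + T.d3 f := by
  have := congrArg star (T.H2 (star f))
  simpa only [star_add, T.sH, T.s2, star_star] using this

theorem c03 (f : A) : T.d0 (T.d3 f) - T.d3 (T.d0 f)
    = T.r * T.d3 f - T.t2 * T.d0 f + T.r * T.t2 * T.H f := by
  have := congrArg star (T.c02 (star f))
  simpa only [star_add, star_sub, star_mul', T.sHb, T.s0, T.s2, star_star] using this

theorem c13 (f : A) : T.d1 (T.d3 f) - T.d3 (T.d1 f)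
    = star T.r2 * T.d3 f - star T.t * T.d1 f - star T.r2 * star T.t * T.Hb f := by
  have := congrArg star (T.c12 (star f))
  simpa only [star_add, star_sub, star_mul', T.sH, T.s1, T.s2, star_star] using this

/-- The GHP prime symmetry. -/
def prime : TD A where
  d0 := T.d1
  d1 := T.d0
  d2 := T.d3
  d3 := T.d2
  H := -T.H
  Hb := -T.Hb
  r := T.r2
  r2 := T.r
  t := T.t2
  t2 := T.t
  ze := T.ze
  zi := T.zi
  zezi := T.zezi
  s0 := T.s1
  s1 := T.s0
  s2 := T.s3
  sH := fun f => by simp only [Derivation.neg_apply, star_neg, T.sH]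
  H0 := fun f => by simp only [Derivation.neg_apply, map_neg, T.H1]; ring
  H1 := fun f => by simp only [Derivation.neg_apply, map_neg, T.H0]; ring
  H2 := fun f => by simp only [Derivation.neg_apply, map_neg, T.H3]; ring
  H3 := fun f => by simp only [Derivation.neg_apply, map_neg, T.H2]; ring
  HH := fun f => by simp only [Derivation.neg_apply, map_neg, T.HH]
  Hr := by simp only [Derivation.neg_apply, T.Hr2, neg_neg]
  Hbr := by simp only [Derivation.neg_apply, T.Hbr2, neg_neg]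
  Hr2 := by simp only [Derivation.neg_apply, T.Hr]
  Hbr2 := by simp only [Derivation.neg_apply, T.Hbr]
  Ht := by simp only [Derivation.neg_apply, T.Ht2, neg_neg]
  Hbt := by simp only [Derivation.neg_apply, T.Hbt2]
  Ht2 := by simp only [Derivation.neg_apply, T.Ht]
  Hbt2 := by simp only [Derivation.neg_apply, T.Hbt, neg_neg]
  Hze := by simp only [Derivation.neg_apply, T.Hze, neg_zero]
  Hbze := by simp only [Derivation.neg_apply, T.Hbze, neg_zero]
  c01 := fun f => by simp only [Derivation.neg_apply]; linear_combination -T.c01 f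
  c02 := fun f => by simp only [Derivation.neg_apply]; linear_combination T.c13 f
  c12 := fun f => by simp only [Derivation.neg_apply]; linear_combination T.c03 f
  c23 := fun f => by simp only [Derivation.neg_apply]; linear_combination -T.c23 f
  r_0 := T.r2_1
  r_2 := T.r2_3
  t_0 := T.t2_1
  t_2 := T.t2_3
  rt := T.rt2
  r2_1 := T.r_0
  r2_3 := T.r_2
  t2_1 := T.t_0
  t2_3 := T.t_2
  rt2 := T.rt
  ze0 := T.ze1
  ze1 := T.ze0
  ze2 := T.ze3
  ze3 := T.ze2

theorem zi0 : T.d0 T.zi = T.r * T.zi := by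
  rw [dinv T.d0 T.zezi, T.ze0]; linear_combination (T.r * T.zi) * T.zezi
theorem zi1 : T.d1 T.zi = T.r2 * T.zi := T.prime.zi0
theorem zi2 : T.d2 T.zi = T.t * T.zi := by
  rw [dinv T.d2 T.zezi, T.ze2]; linear_combination (T.t * T.zi) * T.zezi
theorem zi3 : T.d3 T.zi = T.t2 * T.zi := T.prime.zi2
theorem Hzi : T.H T.zi = 0 := by rw [dinv T.H T.zezi, T.Hze]; ring
theorem Hbzi : T.Hb T.zi = 0 := by rw [dinv T.Hb T.zezi, T.Hbze]; ring

theorem zcancel {x y : A} (h : T.ze * x = T.ze * y) : x = y := by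
  linear_combination T.zi * h - (x - y) * T.zezi

theorem zezib : star T.ze * star T.zi = 1 := by
  rw [← star_mul', T.zezi, star_one]

theorem psbcancel {x y : A} (h : 3 * star T.zi ^ 3 * x = 3 * star T.zi ^ 3 * y) : x = y := by
  rw [← sub_eq_zero]
  apply ncancel 3 (by norm_num)
  have h3 : (star T.ze * star T.zi) ^ 3 = 1 := by rw [T.zezib, one_pow]
  push_cast
  linear_combination star T.ze ^ 3 * h - 3 * (x - y) * h3

theorem d0s (f : A) : T.d0 (star f) = star (T.d0 f) := (T.s0 f).symm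
theorem d1s (f : A) : T.d1 (star f) = star (T.d1 f) := (T.s1 f).symm
theorem d2s (f : A) : T.d2 (star f) = star (T.d3 f) := (T.s3 f).symm
theorem d3s (f : A) : T.d3 (star f) = star (T.d2 f) := (T.s2 f).symm
theorem Hs (f : A) : T.H (star f) = star (T.Hb f) := (T.sHb f).symm
theorem Hbs (f : A) : T.Hb (star f) = star (T.H f) := (T.sH f).symm

/-- `A = þ' ρ`. -/
def a : A := T.d1 T.r
/-- `B = ð' ρ`. -/
def b : A := T.d3 T.r
/-- `B' = ð ρ'`. -/
def e : A := T.d2 T.r2

theorem r_1 : T.d1 T.r = T.a := rfl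
theorem r_3 : T.d3 T.r = T.b := rfl
theorem r2_2 : T.d2 T.r2 = T.e := rfl

theorem t_3 : T.d3 T.t = T.a - (T.r * star T.r2 - T.t * star T.t - T.zi ^ 3) := by
  linear_combination T.r_1 - T.rt

theorem r2_0 : T.d0 T.r2 = T.a - T.t2 * star T.t2 + T.t * star T.t := by
  have h := T.c01 T.ze
  simp only [T.ze0, T.ze1, T.ze2, T.ze3, T.Hze, T.Hbze, map_neg, dmul, T.r_1] at h
  apply T.zcancel
  linear_combination -h

theorem t2_2 : T.d2 T.t2 = T.a - T.r2 * star T.r + T.t * star T.t + T.zi ^ 3 := by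
  linear_combination T.r2_0 - T.rt2

theorem t2_0 : T.d0 T.t2 = T.b := by
  have h := T.c03 T.ze
  simp only [T.ze0, T.ze3, T.Hze, map_neg, dmul, T.r_3] at h
  apply T.zcancel
  linear_combination -h

theorem t_1 : T.d1 T.t = T.e := T.prime.t2_0

theorem Ha : T.H T.a = 0 := by
  unfold a; rw [T.H1, T.Hr]; ring
theorem Hba : T.Hb T.a = 0 := by
  unfold a; rw [T.Hb1, T.Hbr]; ring
theorem Hbb0 : T.H T.b = 0 := by
  unfold b; rw [T.H3, T.Hr]; ring
theorem Hbb : T.Hb T.b = 2 * T.b := by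
  unfold b; rw [T.Hb3, T.Hbr]; ring

theorem a_0 : T.d0 T.a = 2 * T.a * T.r + T.b * T.t - T.b * star T.t2 - T.zi ^ 3 * T.r
    - star T.zi ^ 3 * T.r + T.r * T.t * star T.t + T.r * star T.t2 * star T.t
    + star T.r * T.t * T.t2 - star T.r * T.t * star T.t := by
  have h := T.c01 T.r
  simp only [T.r_0, T.r_1, T.r_2, T.r_3, T.Hr, T.Hbr, dmul] at h
  linear_combination h

theorem a_1 : T.d1 T.a = 2 * T.a * T.r2 + T.e * T.t2 - 2 * T.e * star T.t - star T.e * T.t
    - T.zi ^ 3 * T.r2 - star T.zi ^ 3 * T.r2 + 2 * T.r2 * T.t * star T.t := by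
  have h := T.c01 T.r2
  simp only [T.r2_0, T.r2_1, T.r2_2, T.r2_3, T.Hr2, T.Hbr2, dmul, map_add, map_sub, T.d1s, T.t2_1,
    T.t_1, star_mul', star_sub, star_star] at h
  linear_combination -h

theorem a_2 : T.d2 T.a = 2 * T.a * T.t - star T.a * T.t + T.e * T.r - T.e * star T.r
    + T.r2 * star T.r * T.t := by
  have h := T.c12 T.r
  simp only [T.r_1, T.r_2, T.Hr, dmul, map_sub, T.d1s, T.t_1] at h
  linear_combination -h

theorem a_3 : T.d3 T.a = 2 * T.a * T.t2 - T.a * star T.t + T.b * T.r2 - T.b * star T.r2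
    - T.zi ^ 3 * star T.t + star T.zi ^ 3 * T.t2 + T.r * star T.r2 * star T.t
    + 2 * T.t * T.t2 * star T.t - 2 * T.t * star T.t ^ 2 := by
  have h := T.c03 T.r2
  simp only [T.r2_0, T.r2_3, T.Hr2, dmul, map_add, map_sub, T.d0s, T.d3s, T.t2_0, T.t2_3, T.t2_2,
    T.t_2, T.t_3, star_mul', star_sub, star_add, star_star, star_pow] at h
  linear_combination -h

theorem b_0 : T.d0 T.b = 3 * T.b * T.r := by
  have h := T.c03 T.r
  simp only [T.r_0, T.r_3, T.Hr, dmul] at h
  linear_combination h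

theorem b_3 : T.d3 T.b = 3 * T.b * T.t2 := by
  have h := T.c03 T.t2
  simp only [T.t2_0, T.t2_3, T.Ht2, dmul] at h
  linear_combination -h

theorem b_eq : T.b = 2 * T.r * T.t2 - T.r * star T.t - star T.r * T.t2 := by
  have h := T.c03 T.a
  rw [T.a_0, T.a_3] at h
  simp only [T.Ha, dmul, dsq, dcu, d2n, map_add, map_sub, T.d0s, T.d3s, T.a_0, T.a_3, T.b_0, T.b_3,
    T.r_0, T.r_2, T.r_3, T.r2_0, T.t_0, T.t_2, T.t_3, T.t2_0, T.t2_2, T.t2_3, T.zi0, T.zi2, T.zi3,
    star_mul', star_sub, star_add, star_star, star_pow] at h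
  apply T.psbcancel
  linear_combination h

theorem e_eq : T.e = 2 * T.r2 * T.t - T.r2 * star T.t2 - star T.r2 * T.t := T.prime.b_eq

theorem e_0 : T.d0 T.e = 2 * T.a * T.t - 2 * T.a * star T.t2 + T.e * T.r - T.zi ^ 3 * star T.t2
    + star T.zi ^ 3 * T.t - 2 * T.t * star T.t2 * star T.t + 2 * T.t ^ 2 * star T.t := by
  have h := T.c01 T.t
  simp only [T.t_0, T.t_1, T.t_2, T.t_3, T.Ht, T.Hbt, dmul, map_sub, T.d1s, T.r_1, T.t2_1,
    star_mul', star_sub, star_star] at h
  linear_combination h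

theorem b_1 : T.d1 T.b = 2 * T.a * T.t2 - 2 * T.a * star T.t + T.b * T.r2 - T.zi ^ 3 * star T.t
    + star T.zi ^ 3 * T.t2 + 2 * T.t * T.t2 * star T.t - 2 * T.t * star T.t ^ 2 := by
  have h := T.c01 T.t2
  simp only [T.t2_0, T.t2_1, T.t2_2, T.t2_3, T.Ht2, T.Hbt2, dmul, map_sub, T.d0s, T.r2_0, T.t_0,
    star_mul', star_sub, star_star] at h
  linear_combination -h

theorem n12 : T.r * star T.r2 - star T.r * T.r2 = T.t * star T.t - T.t2 * star T.t2 := by
  have h := T.c01 T.a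
  rw [T.a_0, T.a_1] at h
  simp only [T.Ha, T.Hba, dmul, dcu, d2n, map_add, map_sub, T.d0s, T.d1s, T.a_0, T.a_1, T.a_2,
    T.a_3, T.b_1, T.e_0, T.r_1, T.r2_0, T.t_0, T.t_1, T.t2_0, T.t2_1, T.zi0, T.zi1,
    star_mul', star_sub, star_add, star_star, star_pow, star_ofNat] at h
  apply T.psbcancel
  linear_combination h

theorem n1 : T.r * star T.r2 = star T.r * T.r2 := by
  have h := congrArg star T.n12
  simp only [star_mul', star_sub, star_star] at h
  rw [← sub_eq_zero]
  apply ncancel 2 (by norm_num)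
  push_cast
  linear_combination T.n12 - h

theorem n2 : T.t * star T.t = T.t2 * star T.t2 := by
  linear_combination T.n1 - T.n12

theorem ra : star T.r * (T.a + T.r * star T.r2) = T.r * (star T.a + T.r * star T.r2) := by
  have h := congrArg T.d0 T.n1
  simp only [dmul, T.d0s, T.r_0, T.r2_0, star_mul', star_sub, star_add, star_star] at h
  linear_combination -h + (star T.r - T.r) * T.n2 * -1 + star T.r * T.n1

theorem r2a : star T.r2 * (T.a + T.r * star T.r2) = T.r2 * (star T.a + T.r * star T.r2) := by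
  have h := congrArg T.d1 T.n1
  simp only [dmul, T.d1s, T.r_1, T.r2_1, star_mul'] at h
  linear_combination h - T.r2 * T.n1

/-- `C = ð' τ`. -/
def c : A := T.d3 T.t

theorem c_eq : T.c = T.a - (T.r * star T.r2 - T.t * star T.t - T.zi ^ 3) := T.t_3

theorem t2_2c : T.d2 T.t2 = T.c := by
  rw [T.t2_2, T.c_eq]; linear_combination T.n1

theorem r2_0a : T.d0 T.r2 = T.a := by
  rw [T.r2_0]; linear_combination T.n2

theorem tc : star T.t * (T.c + T.t * star T.t) = T.t2 * (star T.c + T.t * star T.t) := by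
  have h := congrArg T.d3 T.n2
  have hc : T.d3 T.t = T.c := rfl
  simp only [dmul, T.d3s, T.t_2, hc, T.t2_3, T.t2_2c, star_mul'] at h
  linear_combination h - T.t2 * T.n2

end TD
end Vale.Agent.P354NP
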