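import Vale.Agent.P354HI.Props
import Vale.Agent.P354YA.Nis
import Vale.Agent.P354YT.Tau

/-!
KCL: the functions of the scaffold as germs.
-/

open scoped ContDiff
open Set Filter Topology Complex

noncomputable section

namespace Vale.Agent.P354NP

open Vale.Agent.P354n (R4)
open Vale.Agent.P354RC (cv bs sum_bs)
open Vale.Agent.P354XG Vale.Agent.P354XD Vale.Agent.P354XR Vale.Agent.P354HI
open Vale.Agent.P354XE (Tw rd eT Lo dr)
open Vale.Agent.P354XA (rd_cont rd_fd rd_sq rd_nonneg dr_Lo)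
open Vale.Agent.P354YA (Ok2 dd ca cl cn cp rd_at Lo_at No_at ca_at cl_at cn_at cp_cd)
open Vale.Agent.P354YT (Pm No al_mid)

variable {J : Type} {G : Filter (J × E6)} [Loc G] {r0 : ℝ} {f : R4 → ℝ} {c : Pm} {p : R4}

theorem rd_t (p : R4) (t : ℝ) : rd (p + t • eT) = rd p := by simp [rd, P354XE.xs, eT]
theorem snd_t (p : R4) (t : ℝ) : (p + t • eT).2 = p.2 := by simp [eT]
theorem open_r (r : ℝ) : IsOpen {p | r < rd p} := isOpen_lt continuous_const rd_cont

theorem Lo_t (M a : ℝ) (p : R4) (t : ℝ) : Lo M a (p + t • eT) = Lo M a p := by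
  simp only [Lo, rd_t, snd_t, P354XE.Om]
theorem No_t (p : R4) (t : ℝ) : No (p + t • eT) = No p := by simp only [No, rd_t, snd_t]

theorem db_t (h : ∀ p (t : ℝ), f (p + t • eT) = f p) : db 0 f = fun _ => 0 := by
  funext p
  by_cases d : DifferentiableAt ℝ f p
  · have k : HasDerivAt (fun t : ℝ => p + t • eT) eT 0 := by
      simpa using ((hasDerivAt_id (0 : ℝ)).smul_const eT).const_add p
    have k1 := (show HasFDerivAt f (fderiv ℝ f p) (p + (0 : ℝ) • eT) by
      simpa using d.hasFDerivAt).comp_hasDerivAt 0 k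
    exact k1.unique ((hasDerivAt_const (0 : ℝ) (f p)).congr_of_eventuallyEq
      (.of_forall fun t => h p t))
  · simp [db, fderiv_zero_of_not_differentiableAt d]

theorem ks_of (h1 : ∀ p, r0 < rd p → ContDiffAt ℝ ∞ f p) (h2 : ∀ p (t : ℝ), f (p + t • eT) = f p) :
    kf G f ∈ KS G r0 := ⟨f, fun p k => (h1 p k).contDiffWithinAt, h2, rfl⟩

theorem bd_of (h1 : ContDiffOn ℝ ∞ f {p | r0 < rd p}) (h2 : ∀ p (t : ℝ), f (p + t • eT) = f p)
    {r1 : ℝ} (r2 : ℝ) (e : r0 < r1) : ∃ C, ∀ p, rd p ∈ Icc r1 r2 → ‖f p‖ ≤ C := by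
  have k : IsCompact {p : R4 | p.1 = 0 ∧ rd p ∈ Icc r1 r2} :=
    Metric.isCompact_of_isClosed_isBounded
      ((isClosed_eq continuous_fst continuous_const).inter (isClosed_Icc.preimage rd_cont))
      ((Metric.isBounded_closedBall (x := 0) (r := r2)).subset fun p hp =>
        mem_closedBall_zero_iff.2 ((P354XA.norm_le p).trans (by simpa [hp.1] using hp.2.2)))
  obtain ⟨C, hC⟩ := k.exists_bound_of_continuousOn
    (h1.continuousOn.mono fun p hp => e.trans_le hp.2.1)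
  exact ⟨C, fun p hp => h2 p (-p.1) ▸ hC _ ⟨by simp [eT], by rwa [rd_t]⟩⟩

section
variable (r : 0 ≤ r0) (h : ∀ᶠ p in G, r0 < p.2.2.1 ∧ p.2.2.2 ≠ 0)
include r h

omit [Loc G] in
theorem off_of : Off G := h.mono fun _ e => ⟨(r.trans_lt e.1).ne', e.2⟩

omit [Loc G] in
theorem rd_ev : ∀ᶠ p in G, rd (pj p.2) = p.2.2.1 := h.mono fun _ e => rd_pj (r.trans_lt e.1) e.2

omit [Loc G] in
theorem gt_ev : ∀ᶠ p in G, r0 < rd (pj p.2) :=
  (h.and (rd_ev r h)).mono fun _ e => e.2 ▸ e.1.1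

omit [Loc G] in
theorem smb_of (k : ContDiffOn ℝ ∞ f {p | r0 < rd p}) : SmB G fun _ => f :=
  (gt_ev r h).mono fun _ e => k.contDiffAt ((open_r r0).mem_nhds e)

theorem rs_kf (k : SmB G fun _ => f) :
    Rs (kf G f) fun p => (f (pj p.2) : ℂ) := rs_pb (off_of r h) k

omit [Loc G] in
theorem pos_ev : ∀ᶠ p in G, 0 < rd (pj p.2) := (gt_ev r h).mono fun _ e => r.trans_lt e

omit [Loc G] in
theorem sm_dd : SmB G fun _ => dd c :=
  (pos_ev r h).mono fun _ e => (rd_at e).sub contDiffAt_const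

theorem tb_of (o : Ok2 c) (k : c.k = 1) (n : ∀ᶠ p in G, |dd c (pj p.2)| < 1 / 4) : Tb G c := by
  have s : ∀ d p, c.R1 - 1 < rd p →
      ContDiffAt ℝ ∞ (fun p => cv d ((1 / 2 : ℝ) • (Lo c.M c.a p - No p))) p := fun d p e => by
    obtain ⟨e1, e2⟩ := o.out (p := p) (by rw [dd]; linarith)
    exact (cv d).contDiff.contDiffAt.comp p
      (((Lo_at o.1.sub e1 e2).sub (No_at e2)).const_smul _)
  have z := pos_ev r h
  have D := rs_kf r h (sm_dd r h (c := c))
  have R := fun d => rs_kf r h (f := fun p => cv d ((1 / 2 : ℝ) • (Lo c.M c.a p - No p)))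
    (n.mono fun p e => s d (pj p.2) (by
    have := (abs_lt.1 e).1
    rw [dd] at this
    linarith))
  have m : ∀ᶠ p in G, ca c (pj p.2) = 1 ∧ cl c (pj p.2) = dd c (pj p.2) / 2 ∧
      cn c (pj p.2) = -(dd c (pj p.2) / 2) := n.mono fun p e => by
    simpa only [ca, cl, cn, Pm.xi, k, one_mul, dd] using al_mid e.le
  refine ⟨fun d => ks_of (s d) fun p t => by rw [Lo_t, No_t], funext fun d => ?_, ?_,
    (rs_kf r h (z.mono fun _ => ca_at)).ext rs_one (m.mono fun p e => by simp [e.1]),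
    (rs_kf r h (z.mono fun _ => cl_at)).ext (rs_hf.mul D) (m.mono fun p e => ?_),
    (rs_kf r h (z.mono fun _ => cn_at)).ext (rs_hf.mul D).neg (m.mono fun p e => ?_)⟩
  · have e0 : Rs (Hp.e0 (Sm G) d) fun _ => (cv d eT : ℝ) := by
      fin_cases d
      exacts [rs_one.congr (by simp [cv, eT]), rs_zero.congr (by simp [cv, eT]),
        rs_zero.congr (by simp [cv, eT]), rs_zero.congr (by simp [cv, eT])]
    refine (rs_kf r h (f := fun p => cv d (c.X p))
      (z.mono fun p e => (cv d).contDiff.contDiffAt.comp _ (o.1.X_cd e))).ext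
      (e0.add (D.mul (R d))) (m.mono fun p e => ?_)
    simp only [P354YA.X_eq, e, map_add, map_smul, map_sub, smul_eq_mul]
    push_cast
    ring
  · have s := sm_dd r h (c := c)
    refine (Rs.sum _ fun d => (R d).mul (L_pb (off_of r h) s d ▸ rs_pb (off_of r h) (s.db d))).ext
      rs_one (z.mono fun p e => ?_)
    have f : fderiv ℝ (dd c) (pj p.2) = fderiv ℝ rd (pj p.2) := fderiv_sub_const _
    have l := P354YT.dr_lin (pj p.2)
    have v : fderiv ℝ rd (pj p.2) ((1 / 2 : ℝ) • (Lo c.M c.a (pj p.2) - No (pj p.2))) = 1 := by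
      rw [rd_fd e.ne', l.map_smul, l.map_sub, dr_Lo e.ne', No, ← one_div, ← neg_div,
        P354YT.dr_rad e.ne']
      norm_num
    rw [← sum_bs (_ • _), map_sum] at v
    simp only [db, f]
    exact_mod_cast (by simpa only [map_smul, smul_eq_mul] using v)
  · simp [e, Geo.hf]; ring
  · simp [e, Geo.hf]; ring

end

theorem kcl : KCL := by
  intro c o k K r0 r h
  have O := off_of r h
  have v : ∀ {f : R4 → ℝ}, (SmB (nb ⊤ K) fun _ => f) → ∀ p,
      ev K p (kf (nb ⊤ K) f) = f (pj p.1.2) := fun e p => ev_pz K (rs_kf r h e) p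
  have D : ∀ p, r0 < rd p → ContDiffAt ℝ ∞ (dd c) p := fun p e =>
    (rd_at (r.trans_lt e)).sub contDiffAt_const
  refine ⟨fun l r1 r2 e n => ⟨?_, ?_, ?_, ?_, ?_⟩, fun d => ?_, ?_,
    (rs_kf r h (sm_dd r h)).ext ((rs_z 1).sub (rs_alg _)) ((rd_ev r h).mono fun p e => ?_),
    v (sm_dd r h), tb_of r h o k⟩
  · rintro _ ⟨f, h1, h2, rfl⟩
    obtain ⟨C, hC⟩ := bd_of h1 h2 r2 e
    refine Asymptotics.IsBigO.of_bound C (n.mono fun p e => ?_)
    rw [v (smb_of r h h1), norm_real, norm_one, mul_one]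
    exact hC _ (by rwa [eventually_top.1 (ev_nb_on (rd_ev r h)) p.1.1 p.1.2 p.2])
  · rintro _ ⟨f, h1, h2, rfl⟩ d
    exact ⟨db d f, ((h1.fderiv_of_isOpen (open_r r0) (by simp)).clm_apply contDiffOn_const),
      fun p t => by simp only [db, ← fderiv_comp_add_right (t • eT), h2],
      L_pb O (smb_of r h h1) d⟩
  · rintro _ ⟨f, h1, -, rfl⟩
    exact H_pb O (smb_of r h h1)
  · rintro _ ⟨f, h1, -, rfl⟩
    simpa [kf, KC.V_ap, Hp.kc, (hp_is O).tco] using V_pb O (smb_of r h h1) 0 0 0 0 0 1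
  · rintro _ ⟨f, h1, h2, rfl⟩
    rw [kf, L_pb O (smb_of r h h1), db_t h2]
    exact (rs_pb O (.of_forall fun _ => contDiffAt_const)).ext rs_zero (by simp)
  · have s : ∀ p, r0 < rd p → ContDiffAt ℝ ∞ (fun p => cv d (c.X p)) p := fun p e =>
      (cv d).contDiff.contDiffAt.comp p (o.1.X_cd (r.trans_lt e))
    exact ⟨ks_of s fun p t => by simp only [Pm.X, P354YT.Xf, rd_t, Lo_t, No_t],
      cj_pb O (f := fun _ p => cv d (c.X p)) ((gt_ev r h).mono fun p e => s _ e)⟩
  · simp only [mem_insert_iff, mem_singleton_iff, forall_eq_or_imp, forall_eq]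
    exact ⟨ks_of D fun p t => by simp only [dd, rd_t],
      ks_of (fun p e => ca_at (r.trans_lt e)) fun p t => by simp only [ca, rd_t],
      ks_of (fun p e => cl_at (r.trans_lt e)) fun p t => by simp only [cl, rd_t],
      ks_of (fun p e => cn_at (r.trans_lt e)) fun p t => by simp only [cn, rd_t],
      ks_of (fun p e => cp_cd.contDiffAt.comp p (D p e)) fun p t => by simp only [dd, rd_t],
      ks_of (fun p e => cp_cd.contDiffAt.comp p (D p e).neg) fun p t => by simp only [dd, rd_t]⟩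
  · simp [dd, e, zc]

end Vale.Agent.P354NP
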