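import Vale.Agent.P354NP.Base2

set_option linter.unusedSimpArgs false

namespace Vale.Agent.P354NP

open Vale.Agent.P354XG Vale.Agent.P354XR

variable {A : Type} [CommRing A] [StarRing A] [Algebra ℂ A] {T : TD A} {K : KC A} {S : Ideal A}
  {ka : A} {ev : A →ₐ[ℂ] A}

/-- The PD structure is close to Kerr. -/
structure Cl (P : PX T) (K : KC A) (S : Ideal A) (ka : A) : Prop where
  al : vl S P.al = 0
  p : vl S P.p = vl S K.a * vl S K.x
  q : vl S P.q = vl S K.r
  ci : vl S P.ci = vl S ka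

namespace Cl
variable {P : PX T} (c : Cl P K S ka) (h : Near T K S ka)
include c h

omit h in
theorem oi : vl S P.oi = 1 := by
  have := congrArg (vl S) P.hoi
  simpa only [map_mul, map_sub, map_one, c.al, zero_mul, sub_zero, one_mul] using this

theorem cib : vl S (star P.ci) = vl S ka := by rw [n_star h c.ci, h.ska]

theorem m2 : vl S P.m2 = 4 * vl S K.M := by
  have := congrArg (vl S) h.ka3
  simp only [PX.m2, map_neg, map_add, map_mul, map_pow, map_ofNat, c.ci, c.cib h] at this ⊢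
  linear_combination -2 * this

theorem n2 : vl S P.n2 = 0 := by
  simp only [PX.n2, map_neg, map_sub, map_mul, map_pow, c.ci, c.cib h]; ring

theorem s0 : vl S (T.d0 P.q) = vl S K.N * vl S K.sg * vl S K.De := by
  rw [v_s0 h c.q, map_mul, map_mul]
theorem s2 : vl S (T.d1 P.q) = -vl S K.Ni := by rw [v_s2 h c.q, map_neg]
theorem pi : vl S (T.d2 P.p) = -(vl S K.a * vl S K.zb * vl S K.s) := by
  rw [v_pi h (c.p.trans (map_mul _ _ _).symm), map_neg, map_mul, map_mul]
theorem pb : vl S (T.d3 P.p) = -(vl S K.a * vl S K.z * vl S K.sb) := by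
  rw [v_pb h (c.p.trans (map_mul _ _ _).symm), map_neg, map_mul, map_mul]

theorem sv : vl S P.sv = -vl S K.N := by
  have a := congrArg (vl S) P.hsv
  have b := congrArg (vl S) h.is.hN
  simp only [map_mul, map_one, c.s2 h] at a b
  linear_combination -vl S K.N * a - vl S P.sv * b

theorem ke : vl S P.k = 2 * vl S K.a ^ 2 ∧ vl S P.ep = 2 := by
  have a := congrArg (vl S) P.vP
  have b := congrArg (vl S) P.vQ
  have g := congrArg (vl S) h.is.hg
  have s := congrArg (vl S) h.is.hs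
  have n := congrArg (vl S) h.is.hN
  have z := congrArg (vl S) (n_sg h)
  simp only [PX.eP, PX.eQ, KC.De, map_mul, map_add, map_sub, map_neg, map_pow, map_one, map_ofNat,
    c.al, c.p, c.q, c.oi, c.m2 h, c.n2 h, c.s0 h, c.s2 h, c.pi h, c.pb h] at a b g s n z
  have a' : vl S P.k - vl S P.ep * (vl S K.a * vl S K.x) ^ 2
      = 2 * vl S K.a ^ 2 - 2 * (vl S K.a * vl S K.x) ^ 2 := by
    linear_combination a + 2 * vl S K.a ^ 2 * (vl S K.s * vl S K.sb)
      * ((vl S K.a * vl S K.x) ^ 2 + vl S K.r ^ 2) * z + 2 * vl S K.a ^ 2 * (vl S K.s * vl S K.sb) * g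
      + 2 * vl S K.a ^ 2 * s
  have b' : vl S P.k + vl S P.ep * vl S K.r ^ 2 = 2 * vl S K.a ^ 2 + 2 * vl S K.r ^ 2 := by
    linear_combination b + 2 * (vl S K.r * vl S K.r - 2 * vl S K.M * vl S K.r + vl S K.a * vl S K.a)
      * (vl S K.N * vl S K.Ni * g + n)
  constructor
  · linear_combination vl S K.sg * (vl S K.r ^ 2 * a' + (vl S K.a * vl S K.x) ^ 2 * b')
      - (vl S P.k - 2 * vl S K.a ^ 2) * g
  · linear_combination vl S K.sg * (b' - a') - (vl S P.ep - 2) * g

theorem pole (e : Ev T K S ev) {b : A} (rb : RC ev b) (ub : IsUnit b) (hb : b ^ 2 = K.a ^ 2) :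
    ∃ x, RC ev x ∧ vl S x = vl S b ∧ P.PA x = 0 := by
  have hb' := congrArg (vl S) hb
  simp only [map_pow] at hb'
  have r1 : RC ev P.al := rc_of e P.kal P.sal
  have r2 : RC ev P.k := rc_of e P.kk P.sk
  have r3 : RC ev P.ep := rc_of e P.kep P.sep
  have r4 : RC ev P.m2 := rc_of e P.km2 P.sm2
  have r5 : RC ev P.n2 := rc_of e P.kn2 P.sn2
  have three : RC ev (3 : A) := ⟨map_ofNat ev 3, star_ofNat 3⟩
  have four : RC ev (4 : A) := ⟨map_ofNat ev 4, star_ofNat 4⟩
  have six : RC ev (6 : A) := ⟨map_ofNat ev 6, star_ofNat 6⟩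
  have u : IsUnit (P.dPA b) := n_unit' h ((PD.u2.mul PD.u2).mul ub).neg (by
    simp only [PX.dPA, map_mul, map_add, map_sub, map_neg, map_pow, map_ofNat, c.al, c.n2 h,
      (c.ke h).2]; ring)
  obtain ⟨j, hj⟩ := u.exists_right_inv
  have rd : RC ev (P.dPA b) := ((r5.sub ((RC.two.mul r3).mul rb)).add
    (((three.mul r1).mul r4).mul (rb.pow 2))).sub (((four.mul (r1.pow 2)).mul r2).mul (rb.pow 3))
  have rP : RC ev (P.PA b) := (((r2.add (r5.mul rb)).sub (r3.mul (rb.pow 2))).add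
    ((r1.mul r4).mul (rb.pow 3))).sub (((r1.pow 2).mul r2).mul (rb.pow 4))
  have rj := rd.inv hj
  obtain ⟨y, my, ry, ey⟩ := hens_rc h e (c0 := P.PA b * j)
    (c2 := (3 * P.al * P.m2 * b - P.ep - 6 * P.al ^ 2 * P.k * b ^ 2) * j)
    (c3 := (P.al * P.m2 - 4 * P.al ^ 2 * P.k * b) * j) (c4 := -(P.al ^ 2 * P.k) * j)
    (S.mul_mem_right _ (vl0.mp (by
      simp only [PX.PA, map_mul, map_add, map_sub, map_pow, c.al, c.n2 h, c.ke h, hb']; ring)))
    (rP.mul rj) ((((((three.mul r1).mul r4).mul rb).sub r3).sub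
      (((six.mul (r1.pow 2)).mul r2).mul (rb.pow 2))).mul rj)
    (((r1.mul r4).sub (((four.mul (r1.pow 2)).mul r2).mul rb)).mul rj)
    (((r1.pow 2).mul r2).neg.mul rj)
  refine ⟨b + y, rb.add ry, by rw [map_add, vl0.mpr my, add_zero], ?_⟩
  have f : P.PA (b + y) = P.PA b + P.dPA b * y
      + (3 * P.al * P.m2 * b - P.ep - 6 * P.al ^ 2 * P.k * b ^ 2) * y ^ 2
      + (P.al * P.m2 - 4 * P.al ^ 2 * P.k * b) * y ^ 3 - P.al ^ 2 * P.k * y ^ 4 := by
    simp only [PX.PA, PX.dPA]; ring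
  rw [f]
  linear_combination P.dPA b * ey - (P.PA b
    + (3 * P.al * P.m2 * b - P.ep - 6 * P.al ^ 2 * P.k * b ^ 2) * y ^ 2
    + (P.al * P.m2 - 4 * P.al ^ 2 * P.k * b) * y ^ 3 - P.al ^ 2 * P.k * y ^ 4) * hj

theorem poles (e : Ev T K S ev) : ∃ x y, P.Pole x y ∧ vl S x = vl S K.a ∧ vl S y = -vl S K.a := by
  obtain ⟨x, rx, vx, hx⟩ := c.pole h e (rc_a h e) h.ua rfl
  obtain ⟨y, ry, vy, hy⟩ := c.pole h e (rc_a h e).neg h.ua.neg (by ring)
  rw [map_neg] at vy
  exact ⟨x, y, ⟨rx.const e, ry.const e, hx, hy, n_unit' h (PD.u2.mul h.ua) (by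
    rw [map_sub, vx, vy, map_mul, map_ofNat]; ring)⟩, vx, vy⟩

theorem uP2 (x y : A) : IsUnit (P.P2 x y) :=
  n_unit' h PD.u2.neg (by
    simp only [PX.P2, PX.c0, PX.c1, PX.c2, map_mul, map_add, map_sub, map_neg, map_pow, map_ofNat,
      c.al, (c.ke h).2]; ring)

/-- The end of the argument. -/
theorem fin (e : Ev T K S ev) (ha : P.al = 0) (hn : P.n2 = 0) :
    ∃ K' : KC A, IsK T K' ∧ Cls S K' K := by
  have h2 := hhf (A := A)
  have v2 := congrArg (vl S) h2
  rw [map_mul, map_ofNat, map_one] at v2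
  have r2 : RC ev P.k := rc_of e P.kk P.sk
  have r3 : RC ev P.ep := rc_of e P.kep P.sep
  obtain ⟨ei, hei⟩ := (n_unit' h PD.u2 ((c.ke h).2.trans (map_ofNat _ 2).symm)).exists_right_inv
  have re := RC.two.mul (r3.inv hei)
  have ve := congrArg (vl S) hei
  rw [map_mul, (c.ke h).2, map_one] at ve
  obtain ⟨l, el, l2, vl1, sl⟩ := sqrt_e h e (u := 2 * ei) isUnit_one re.e (map_one ev)
    (by rw [map_mul, map_ofNat, ve, one_pow, map_one])
  have rl : RC ev l := ⟨el, sl re.s (star_one A)⟩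
  rw [map_one] at vl1
  obtain ⟨li, hl⟩ := (n_unit' h isUnit_one (vl1.trans (map_one _).symm)).exists_right_inv
  have vli : vl S li = 1 := by
    have := congrArg (vl S) hl
    rwa [map_mul, vl1, one_mul, map_one] at this
  have ru := RC.hf.mul ((rl.pow 4).mul r2)
  obtain ⟨a, -, a2, va, sa⟩ := sqrt_e h e (u := hf A * (l ^ 4 * P.k)) h.ua ru.e (rc_a h e).e (by
    simp only [map_mul, map_pow, vl1, (c.ke h).1]; linear_combination vl S K.a ^ 2 * v2)
  obtain ⟨ai, hai⟩ := (n_unit' h h.ua va).exists_right_inv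
  have vai := congrArg (vl S) hai
  rw [map_mul, va, map_one] at vai
  have zb := congrArg (vl S) (n_hzb h)
  simp only [map_mul, map_add, map_one] at zb
  refine ⟨(P.kx ha hn l li a ai hl (rl.const e) rl.s hai (sa ru.s (rc_a h e).s)
    (by rw [l2]; linear_combination 2 * hei) (by rw [a2]; linear_combination -(l ^ 4 * P.k) * h2)).K,
    KX.isK _ (n_hr h), ?_, ?_, ?_, ?_, ?_, ?_⟩ <;> apply vle.mp
  · show vl S (l * P.q) = _
    rw [map_mul, vl1, one_mul, c.q]
  · show vl S (l * P.p * ai) = _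
    simp only [map_mul, vl1, c.p]; linear_combination vl S K.x * vai
  · show vl S (-(T.d2 (l * P.p) * (l * P.q + iA A * (l * P.p)) * ai)) = _
    rw [dmul, (rl.const e).k2]
    simp only [map_neg, map_mul, map_add, map_zero, vl1, c.p, c.q, c.pi h]
    linear_combination vl S K.s * (vl S K.a * vl S ai) * zb + vl S K.s * vai
  · show vl S (-(li * P.sv)) = _
    rw [map_neg, map_mul, vli, c.sv h]; ring
  · exact va
  · show vl S (hf A * hf A * (l ^ 3 * P.m2)) = _
    simp only [map_mul, map_pow, vl1, c.m2 h]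
    linear_combination vl S K.M * (2 * vl S (hf A) + 1) * v2

end Cl

end Vale.Agent.P354NP
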