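import Vale.Agent.P354NP.Hen

set_option linter.unusedSimpArgs false

namespace Vale.Agent.P354NP

open Vale.Agent.P354XG Vale.Agent.P354XR

variable {A : Type} [CommRing A] [StarRing A] [Algebra ℂ A] {T : TD A} {K : KC A} {S : Ideal A}
  {ka : A} {ev : A →ₐ[ℂ] A} (h : Near T K S ka) (e : Ev T K S ev)
include h e

theorem im_re {w : A} (ew : ev w = w) (hu : IsUnit (w + star w)) (c : vl S w = vl S (star w)) :
    ∃ t ∈ S, RC ev t ∧ w - star w = iA A * t * (w + star w) := by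
  obtain ⟨j, hj⟩ := hu.exists_right_inv
  have es : ev (star w) = star w := by rw [e.st, ew]
  have rj : RC ev j := RC.inv ⟨by rw [map_add, ew, es], by rw [star_add, star_star, add_comm]⟩ hj
  refine ⟨-(iA A * j) * (w - star w), S.mul_mem_left _ (vle.mp c), ⟨?_, ?_⟩, ?_⟩
  · simp only [map_mul, map_neg, map_sub, m_i, rj.e, ew, es]
  · simp only [star_mul', star_neg, star_sub, star_star, n_si h, rj.s]; ring
  · linear_combination (w - star w) * j * (w + star w) * iA_sq (A := A) - (w - star w) * hj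

theorem rc_z : RC ev (ev K.z) := (rc_r h e).inv (ev_z h e)

theorem v_r2 : vl S (ev T.r2) = vl S (ev K.Ni * ev K.z) := by
  rw [← map_mul]; exact n_ev e (vle.mpr h.rh2)

theorem v_r2b : vl S (star (ev T.r2)) = vl S (ev K.Ni * ev K.z) := by
  rw [n_star h (v_r2 h e), star_mul', (rc_z h e).s, ← e.st, (n_st h).2.2.2.2.2.1]

theorem v_t : vl S (ev T.t) = vl S (-(iA A * K.a * ev K.z * ev K.z)) := by
  rw [n_ev e (vle.mpr h.ta)]
  simp only [KC.ta, ii_eq, ← n_sg h, map_neg, map_mul, m_i, (rc_a h e).e, ev_zb h e, e.s, map_one]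
  ring

theorem v_t2 : vl S (ev T.t2) = vl S (-(iA A * K.a * ev K.z * ev K.z)) := by
  rw [n_ev e (vle.mpr h.ta2)]
  simp only [KC.ta2, ii_eq, map_neg, map_mul, m_i, (rc_a h e).e, ev_sb h e, map_one]
  ring

theorem v_tb {x : A} (c : vl S x = vl S (-(iA A * K.a * ev K.z * ev K.z))) :
    vl S (star x) = vl S (iA A * K.a * ev K.z * ev K.z) := by
  rw [n_star h c]
  simp only [star_neg, star_mul', n_si h, (rc_a h e).s, (rc_z h e).s]
  congr 1; ring

theorem u_z0 : IsUnit (ev K.z) := IsUnit.of_mul_eq_one (ev K.r) (by rw [mul_comm, ev_z h e])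

/-- The constants at the base point. -/
theorem base_c : ∃ ph ∈ S, ∃ ah ∈ S, RC ev ph ∧ RC ev ah ∧
    (1 + iA A * ah * ph ^ 2) * ev T.r2 * (1 - iA A * ph)
      = (1 - iA A * ah * ph ^ 2) * star (ev T.r2) * (1 + iA A * ph) ∧
    ev T.t * ev T.t2 * ((ah + iA A) * (1 - iA A * ph)) ^ 2
      = star (ev T.t) * star (ev T.t2) * ((ah - iA A) * (1 + iA A * ph)) ^ 2 := by
  have uN : IsUnit (ev K.Ni) := (IsUnit.of_mul_eq_one K.N h.is.hN').map ev
  have hi := iA_sq (A := A)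
  obtain ⟨t2, m2, r2, e2⟩ := im_re h e (e.ee T.r2)
    (n_unit' h (PD.u2.mul (uN.mul (u_z0 h e))) (by
      rw [map_add, v_r2 h e, v_r2b h e, two_mul, map_add])) (by rw [v_r2 h e, v_r2b h e])
  have rw0 : RC ev (K.a * ev K.z * ev K.z) := ((rc_a h e).mul (rc_z h e)).mul (rc_z h e)
  have uw0 : IsUnit (K.a * ev K.z * ev K.z) := (h.ua.mul (u_z0 h e)).mul (u_z0 h e)
  obtain ⟨w, ew, w2, vw, -⟩ := sqrt_e h e (u := -(ev T.t * ev T.t2)) uw0
    (by simp only [map_neg, map_mul, e.ee]) rw0.e (by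
      have := congrArg (vl S) hi
      rw [map_neg, map_mul, v_t h e, v_t2 h e]
      simp only [map_neg, map_mul, map_pow, map_one] at this ⊢
      linear_combination -(vl S K.a * vl S (ev K.z) * vl S (ev K.z)) ^ 2 * this)
  have vwb : vl S (star w) = vl S (K.a * ev K.z * ev K.z) := by rw [n_star h vw, rw0.s]
  obtain ⟨t3, m3, r3, e3⟩ := im_re h e ew
    (n_unit' h (PD.u2.mul uw0) (by rw [map_add, vw, vwb, two_mul, map_add])) (by rw [vw, vwb])
  obtain ⟨j, hj⟩ := (h.inv (-(t2 * t3)) (S.neg_mem (S.mul_mem_left _ m3))).exists_right_inv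
  have rj : RC ev j := (RC.one.add (r2.mul r3).neg).inv hj
  obtain ⟨ph, mp, rp, ep⟩ := hens_rc h e (c0 := -(t2 * j)) (c2 := 0) (c3 := 1) (c4 := t2 * j)
    (S.neg_mem (S.mul_mem_right _ m2)) (r2.mul rj).neg RC.zero RC.one (r2.mul rj)
  have u3 := h.inv (t3 * ph) (S.mul_mem_left _ mp)
  obtain ⟨j3, hj3⟩ := u3.exists_right_inv
  have rj3 : RC ev j3 := (RC.one.add (r3.mul rp)).inv hj3
  have ea : (t3 - ph) * j3 * (1 + t3 * ph) = t3 - ph := by linear_combination (t3 - ph) * hj3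
  refine ⟨ph, mp, (t3 - ph) * j3, S.mul_mem_right _ (S.sub_mem m3 mp), rp, (r3.sub rp).mul rj3,
    ?_, ?_⟩
  · generalize (t3 - ph) * j3 = ah at ea
    have f : ah * ph ^ 2 - ph + t2 * (1 + ah * ph ^ 3) = 0 := by
      apply u3.mul_right_eq_zero.mp
      linear_combination (ph ^ 2 + t2 * ph ^ 3) * ea - (1 - t2 * t3) * ep
        + (t2 * ph ^ 4 - t2) * hj
    linear_combination (1 + ah * ph ^ 3) * e2 + iA A * (ev T.r2 + star (ev T.r2)) * f
      - ah * ph ^ 3 * (ev T.r2 - star (ev T.r2)) * hi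
  · generalize (t3 - ph) * j3 = ah at ea
    have f : w * ((1 - iA A * ah) * (1 - iA A * ph)) = star w * ((1 + iA A * ah) * (1 + iA A * ph)) := by
      linear_combination (1 - ah * ph) * e3 - iA A * (w + star w) * ea
        + ah * ph * (w - star w) * hi
    have w2b := congrArg star w2
    rw [star_pow, star_neg, star_mul'] at w2b
    linear_combination ((ah + iA A) * (1 - iA A * ph)) ^ 2 * w2
      - ((ah - iA A) * (1 + iA A * ph)) ^ 2 * w2b
      + (w * ((1 - iA A * ah) * (1 - iA A * ph)) + star w * ((1 + iA A * ah) * (1 + iA A * ph))) * f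
      - (w ^ 2 * (1 - iA A * ph) ^ 2 * (ah ^ 2 + 1)
        - star w ^ 2 * (1 + iA A * ph) ^ 2 * (ah ^ 2 + 1)) * hi

end Vale.Agent.P354NP
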