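import Vale.Agent.P354NP.Base

set_option linter.unusedSimpArgs false

namespace Vale.Agent.P354NP

open Vale.Agent.P354XG Vale.Agent.P354XR

variable {A : Type} [CommRing A] [StarRing A] [Algebra ℂ A] {T : TD A} {K : KC A} {S : Ideal A}
  {ka : A} {ev : A →ₐ[ℂ] A} (h : Near T K S ka)
include h

theorem v_s0 {q : A} (c : vl S q = vl S K.r) : vl S (T.d0 q) = vl S (K.N * K.sg * K.De) := by
  rw [show T.d0 q = T.D 0 q from rfl, n_D h 0 c]
  refine (vle.mpr (h.th K.r)).trans ?_
  simp only [KC.th, KC.V_ap, h.is.tab, mul_zero, add_zero, zero_add, mul_one]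

theorem v_s2 {q : A} (c : vl S q = vl S K.r) : vl S (T.d1 q) = vl S (-K.Ni) := by
  rw [show T.d1 q = T.D 1 q from rfl, n_D h 1 c]
  refine (vle.mpr (h.tp K.r)).trans ?_
  simp only [KC.tp, KC.V_ap, h.is.tab, mul_zero, add_zero, zero_add, mul_one]

theorem v_pi {p : A} (c : vl S p = vl S (K.a * K.x)) :
    vl S (T.d2 p) = vl S (-(K.a * K.zb * K.s)) := by
  rw [show T.d2 p = T.D 2 p from rfl, n_D h 2 c]
  refine (vle.mpr (h.et _)).trans ?_
  simp only [KC.et, KC.V_ap, dmul, h.is.tab, mul_zero, add_zero, zero_add, mul_one]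
  congr 1; ring

theorem v_pb {p : A} (c : vl S p = vl S (K.a * K.x)) :
    vl S (T.d3 p) = vl S (-(K.a * K.z * K.sb)) := by
  rw [show T.d3 p = T.D 3 p from rfl, n_D h 3 c]
  refine (vle.mpr (h.ep _)).trans ?_
  simp only [KC.ep, KC.V_ap, dmul, h.is.tab, mul_zero, add_zero, zero_add, mul_one]
  congr 1; ring

theorem v_ze : vl S (ka * T.ze) = vl S (K.r - iA A * K.a * K.x) := by
  have h1 := congrArg (vl S) T.zezi
  have h2 := congrArg (vl S) (n_hz h)
  have h3 : vl S T.zi = vl S (ka * K.z) := vle.mpr h.zi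
  rw [map_mul, h3] at h1
  simp only [map_mul, map_one] at h1 h2 ⊢
  linear_combination vl S (K.r - iA A * K.a * K.x) * h1 - vl S ka * vl S T.ze * h2

theorem ex_pd (e : Ev T K S ev) {ph ah : A} (mp : ph ∈ S) (ma : ah ∈ S) (rp : RC ev ph)
    (ra : RC ev ah) : ∃ P : PD T, P.al = ah * ev K.z ^ 2 ∧ ev P.p = ev K.r * ph ∧
      ev P.q = ev K.r ∧ vl S P.p = vl S (K.a * K.x) ∧ vl S P.q = vl S K.r ∧
      vl S P.ci = vl S ka := by
  have hi := iA_sq (A := A)
  have h2 := hhf (A := A)
  have hz := ev_z h e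
  have rR := rc_r h e
  have rz := rc_z h e
  obtain ⟨j1, hj1⟩ := (h.inv (-(ah * ph)) (S.neg_mem (S.mul_mem_left _ mp))).exists_right_inv
  have rj1 : RC ev j1 := (RC.one.add (ra.mul rp).neg).inv hj1
  obtain ⟨j2, hj2⟩ := (h.inv (-(iA A * ph)) (S.neg_mem (S.mul_mem_left _ mp))).exists_right_inv
  have zz : ev T.ze * ev T.zi = 1 := by rw [← map_mul, T.zezi, map_one]
  obtain ⟨ci, hci⟩ : ∃ ci, ci = ev T.zi * ev K.r * (1 - iA A * ph) * j1 := ⟨_, rfl⟩
  have eci : ev ci = ci := by
    simp only [hci, map_mul, map_sub, map_one, m_i, e.ee, rp.e, rj1.e]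
  have vci : vl S ci = vl S ka := by
    have a1 := n_ev e (vle.mpr h.zi)
    have a2 := congrArg (vl S) hj1
    have a3 := congrArg (vl S) hz
    rw [map_mul ev, e.const h.kka.D] at a1
    simp only [hci, map_mul, map_sub, map_add, map_neg, map_one, a1, vl0.mpr mp] at a2 a3 ⊢
    linear_combination vl S ka * vl S (ev K.z) * vl S (ev K.r) * a2 + vl S ka * a3
  obtain ⟨Z, hZ⟩ : ∃ Z, Z = ci * T.ze := ⟨_, rfl⟩
  have vZ : vl S Z = vl S (K.r - iA A * K.a * K.x) := by
    rw [hZ, map_mul, vci, ← map_mul, v_ze h]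
  have vZb : vl S (star Z) = vl S (K.r + iA A * K.a * K.x) := by
    rw [n_star h vZ]
    simp only [star_sub, star_mul', n_si h, n_st h]
    congr 1; ring
  have eZ : ev Z = ev K.r * (1 - iA A * ph) * j1 := by
    rw [hZ, map_mul, eci, hci]; linear_combination ev K.r * (1 - iA A * ph) * j1 * zz
  have eZb : ev (star Z) = ev K.r * (1 + iA A * ph) * j1 := by
    rw [e.st, eZ]
    simp only [star_sub, star_mul', star_one, n_si h, rR.s, rp.s, rj1.s]; ring
  obtain ⟨X, hX⟩ : ∃ X, X = hf A * (Z + star Z) := ⟨_, rfl⟩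
  obtain ⟨Y, hY⟩ : ∃ Y, Y = hf A * iA A * (Z - star Z) := ⟨_, rfl⟩
  have sX : star X = X := by simp only [hX, star_mul', star_add, star_star, shf]; ring
  have sY : star Y = Y := by simp only [hY, star_mul', star_sub, star_star, shf, n_si h]; ring
  have vX : vl S X = vl S K.r := by
    have a := congrArg (vl S) h2
    rw [hX, map_mul, map_add, vZ, vZb]
    simp only [map_mul, map_add, map_sub, map_ofNat, map_one] at a ⊢
    linear_combination vl S K.r * a
  have vY : vl S Y = vl S (K.a * K.x) := by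
    have a := congrArg (vl S) h2
    have b := congrArg (vl S) hi
    rw [hY, map_mul, map_sub, vZ, vZb]
    simp only [map_mul, map_add, map_sub, map_neg, map_ofNat, map_one] at a b ⊢
    linear_combination vl S K.a * vl S K.x * a - 2 * vl S (hf A) * vl S K.a * vl S K.x * b
  have eX : ev X = ev K.r * j1 := by
    rw [hX, map_mul, map_add, eZ, eZb, m_hf]; linear_combination ev K.r * j1 * h2
  have eY : ev Y = ev K.r * j1 * ph := by
    rw [hY, map_mul, map_mul, map_sub, eZ, eZb, m_hf, m_i]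
    linear_combination ev K.r * j1 * ph * h2 - 2 * hf A * ev K.r * j1 * ph * hi
  have ral : RC ev (ah * ev K.z ^ 2) := ra.mul (rz.pow 2)
  have mal : ah * ev K.z ^ 2 ∈ S := S.mul_mem_right _ ma
  obtain ⟨g, hg⟩ : ∃ g, g = ah * ev K.z ^ 2 * X * Y := ⟨_, rfl⟩
  have mg : g ∈ S := by rw [hg]; exact S.mul_mem_right _ (S.mul_mem_right _ mal)
  have sg : star g = g := by rw [hg, star_mul', star_mul', ral.s, sX, sY]
  have eg : ev g = ah * ph * j1 ^ 2 := by
    rw [hg, map_mul, map_mul, ral.e, eX, eY]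
    linear_combination ah * ph * j1 ^ 2 * (ev K.r * ev K.z + 1) * hz
  obtain ⟨j4, hj4⟩ := (h.inv (2 * g) (S.mul_mem_left _ mg)).exists_right_inv
  have sj4 : star j4 = j4 := sinv hj4 (by rw [star_add, star_one, star_mul', star_ofNat, sg])
  have s0 : star (g * j4) = g * j4 := by rw [star_mul', sg, sj4]
  obtain ⟨y, my, sy, ey⟩ := hens_r h (c3 := 0) (c4 := 0) (S.mul_mem_right j4 mg) s0 s0 (star_zero A)
    (star_zero A)
  have fy : g * (1 + y) ^ 2 + y = 0 := by linear_combination (1 + 2 * g) * ey - g * (1 + y ^ 2) * hj4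
  have evy : ev y = -(ah * ph) := by
    have a1 := congrArg ev ey
    have a2 := congrArg ev hj4
    simp only [map_add, map_mul, map_pow, map_zero, map_one, map_ofNat, eg] at a1 a2
    refine huniq h (e.S _ my) (S.neg_mem (S.mul_mem_left _ mp)) a1 ?_
    linear_combination ah * ph * a2 + ev j4 * ah * ph * ((1 + -(ah * ph)) * j1 + 1) * hj1
  have eO : 1 - ah * ev K.z ^ 2 * ((1 + y) * Y) * ((1 + y) * X) = 1 + y := by
    rw [hg] at fy; linear_combination -fy
  obtain ⟨oi, hoi⟩ := (h.inv y my).exists_right_inv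
  obtain ⟨oj, hoj⟩ := (h.inv (ah * ev K.z ^ 2 * ((1 + y) * Y) * ((1 + y) * X))
    (S.mul_mem_right _ (S.mul_mem_right _ mal))).exists_right_inv
  have vq : vl S ((1 + y) * X) = vl S K.r := by
    rw [map_mul, map_add, map_one, vl0.mpr my, add_zero, one_mul, vX]
  obtain ⟨sv, hsv⟩ := (n_unit' h (IsUnit.of_mul_eq_one K.N h.is.hN').neg
    (v_s2 h vq)).exists_right_inv
  refine ⟨{ c := ev T.ze * ev K.z * j2 * (1 - ah * ph)
            ci := ci
            al := ah * ev K.z ^ 2
            p := (1 + y) * Y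
            q := (1 + y) * X
            oi := oi
            oj := oj
            sv := sv
            si := n_si h
            cci := ?_
            kc := by rw [← eci]; exact e.k _
            kal := ral.const e
            sal := ral.s
            sp := by rw [star_mul', star_add, star_one, sy, sY]
            sq := by rw [star_mul', star_add, star_one, sy, sX]
            hZ := ?_
            hoi := by rw [eO, hoi]
            hoj := hoj
            hsv := hsv }, rfl, ?_, ?_, ?_, vq, vci⟩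
  · rw [hci]
    linear_combination (ev K.r * ev K.z) * ((1 - iA A * ph) * j2) * ((1 - ah * ph) * j1) * zz
      + ((1 - iA A * ph) * j2) * ((1 - ah * ph) * j1) * hz + ((1 - ah * ph) * j1) * hj2 + hj1
  · rw [eO, ← hZ, hX, hY]
    linear_combination (1 + y) * hf A * (Z - star Z) * hi - (1 + y) * Z * h2
  · show ev ((1 + y) * Y) = _
    rw [map_mul, map_add, map_one, evy, eY]; linear_combination ev K.r * ph * hj1
  · show ev ((1 + y) * X) = _
    rw [map_mul, map_add, map_one, evy, eX]; linear_combination ev K.r * hj1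
  · show vl S ((1 + y) * Y) = _
    rw [map_mul, map_add, map_one, vl0.mpr my, add_zero, one_mul, vY]

/-- The exact Plebanski-Demianski structure close to Kerr. -/
theorem ex_px (e : Ev T K S ev) : ∃ P : PX T, P.al ∈ S ∧ vl S P.p = vl S (K.a * K.x) ∧
    vl S P.q = vl S K.r ∧ vl S P.ci = vl S ka := by
  obtain ⟨ph, mp, ah, ma, rp, ra, e1, e2⟩ := base_c h e
  obtain ⟨P, hal, hp, hq, vp, vq, vci⟩ := ex_pd h e mp ma rp ra
  have hz := ev_z h e
  have hi := iA_sq (A := A)
  have eal : ev P.al = ah * ev K.z ^ 2 := by rw [hal]; exact (ra.mul ((rc_z h e).pow 2)).e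
  have uu : IsUnit (2 * K.a * ev K.z) := (PD.u2.mul h.ua).mul (u_z0 h e)
  have a1 := congrArg (vl S) hz
  have a2 := congrArg (vl S) hi
  have t1 := v_t h e
  have t2 := v_t2 h e
  have t3 := v_tb h e t1
  have t4 := v_tb h e t2
  simp only [map_mul, map_neg, map_one] at a1 a2 t1 t2 t3 t4
  have b := P.base (ev : A →+* A)
    (by
      simp only [RingHom.coe_coe, map_mul, map_add, map_sub, map_one, map_pow, m_i, eal, hp, hq, e.st]
      linear_combination ev K.r * e1 + iA A * ah * ph ^ 2 * ev K.r * (ev K.r * ev K.z + 1)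
        * (ev T.r2 * (1 - iA A * ph) + star (ev T.r2) * (1 + iA A * ph)) * hz)
    (by
      simp only [RingHom.coe_coe, map_mul, map_add, map_sub, map_one, map_pow, m_i, eal, hp, hq, e.st]
      have f : ah * ev K.z ^ 2 * ev K.r ^ 2 = ah := by
        linear_combination ah * (ev K.r * ev K.z + 1) * hz
      rw [f]
      linear_combination ev K.r ^ 2 * e2)
    (n_unit' h uu (by
      simp only [RingHom.coe_coe, map_mul, map_add, map_sub, map_one, map_pow, map_ofNat, m_i, eal,
        hp, hq, e.st, t2, t3, vl0.mpr mp, vl0.mpr ma]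
      linear_combination 2 * vl S K.a * vl S (ev K.z) * a1
        - 2 * vl S K.a * vl S (ev K.z) ^ 2 * vl S (ev K.r) * a2))
    (n_unit' h uu (by
      simp only [RingHom.coe_coe, map_mul, map_add, map_sub, map_one, map_pow, map_ofNat, m_i, eal,
        hp, hq, e.st, t1, t4, vl0.mpr mp, vl0.mpr ma]
      linear_combination 2 * vl S K.a * vl S (ev K.z) * a1
        - 2 * vl S K.a * vl S (ev K.z) ^ 2 * vl S (ev K.r) * a2))
    (n_unit' h (h.ua.mul (u_z0 h e)).neg (by
      rw [RingHom.coe_coe, n_ev e (v_pb h vp)]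
      simp only [map_neg, map_mul, (rc_a h e).e, ev_sb h e, map_one, mul_one]))
  have g := e.gron 4 P.df (fun a k => by
    obtain ⟨c0, c1, c2, c3, c4, c5⟩ := P.closure k
    fin_cases a
    exacts [c0, c1, c2, c3, c4, c5]) b
  exact ⟨{ toPD := P, x1 := g 0, x2 := g 1 }, by rw [hal]; exact S.mul_mem_right _ ma, vp, vq, vci⟩

end Vale.Agent.P354NP
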