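import Vale.Agent.P354NP.Root
import Vale.Agent.P354LF.Hj

/-!
BTJ: the jets on the initial slice.
-/

open scoped ContDiff Nat
open Set Filter Topology

noncomputable section

namespace Vale.Agent.P354NP

open Vale.Agent.P354n (R4)
open Vale.Agent.P354H (X3)
open Vale.Agent.P354XE (Tw pb)
open Vale.Agent.P354YQ (SA JB JD fderiv_ev)
open Vale.Agent.P354SA
open Vale.Agent.P354SG.Cq

section

variable {X F G : Type} [NormedAddCommGroup X] [NormedSpace ℝ X] [NormedAddCommGroup F]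
  [NormedSpace ℝ F] [NormedAddCommGroup G] [NormedSpace ℝ G] {n : ℕ} {c : ℝ} {x : X}

theorem jd_pr {f : X → F} (L : F →L[ℝ] G) (hL : ‖L‖ ≤ 1) (h : JD n f x c) (h0 : 0 ≤ c) :
    JD n (fun w => L (f w)) x c :=
  (h.clm L).mono (mul_le_of_le_one_left h0 hL)

theorem jd_fst {f : X → F × G} (h : JD n f x c) (h0 : 0 ≤ c) : JD n (fun w => (f w).1) x c :=
  jd_pr (.fst ℝ F G) (ContinuousLinearMap.norm_fst_le ℝ F G) h h0

theorem jd_snd {f : X → F × G} (h : JD n f x c) (h0 : 0 ≤ c) : JD n (fun w => (f w).2) x c :=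
  jd_pr (.snd ℝ F G) (ContinuousLinearMap.norm_snd_le ℝ F G) h h0

theorem jd_cmul {a : X → ℝ} (t : ℝ) (h : JD n a x c) (h0 : 0 ≤ c) :
    JD n (fun w => t * a w) x (|t| * c) :=
  (h.clm (ContinuousLinearMap.mul ℝ ℝ t)).mono
    (mul_le_mul_of_nonneg_right (ContinuousLinearMap.opNorm_mul_apply_le ℝ ℝ t) h0)

theorem jd_aff (a : X) {t : ℝ} (h : |t| ≤ c) : JD n (fun w : X => a + t • w) x c :=
  (((JD.const a).add (JD.lin (t • ContinuousLinearMap.id ℝ X))).mono (by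
    rw [zero_add, norm_smul]
    exact (mul_le_of_le_one_right (norm_nonneg _) ContinuousLinearMap.norm_id_le).trans h)).congr
    (.of_forall fun _ => rfl)

end

/-- All the derivatives gain, with one more order. -/
theorem gain {n : ℕ} {l k c d : ℝ} {f : R4 → ℝ} {z : R4} (s : SA f z)
    (h : JD (n + 1) (fun ξ => f (dl l 1 z ξ)) 0 c) (h' : Cl n l 1 (dv e0 f) z d) (h1 : 1 ≤ l)
    (k0 : 0 ≤ k) (k1 : k ≤ 1) :
    JD (n + 1) (fun ξ => f (dl l k z ξ)) 0 (2 ^ n * n ! * (l * d + k * c)) := by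
  have l0 : l ≠ 0 := by linarith
  have q : |l / l| ≤ 1 := by rw [div_self l0, abs_one]
  have c0 := h.fderiv.nonneg
  have d0 := h'.nonneg
  have a := ((cl_res h' l0 q (abs_le.2 ⟨by linarith, k1⟩) le_rfl).smul
    (JB.const (l • ContinuousLinearMap.fst ℝ ℝ (ℝ × ℝ × ℝ))))
  have b := (jb_dl (u := fderiv ℝ fun ξ => f (dl l 1 z ξ)) (z := 0) (ξ := 0)
    (by rw [dl_zero]; exact h.fderiv) q (abs_le.2 ⟨by linarith, k1⟩) le_rfl).ccomp
      (JB.const (k • sc 0 1))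
  refine (JD.of_fderiv (sa_dl s l k) ((a.add b).congr ?_)).mono ?_
  · filter_upwards [ev_dl s l k] with ξ m
    have e : dl l 1 z (dl (l / l) k 0 ξ) = dl l k z ξ := by
      rw [dl_dl, mul_div_cancel₀ _ l0, one_mul]
    rw [fd_dl m, fd_dl (by rwa [e]), e]
    refine ContinuousLinearMap.ext fun v => ?_
    simp only [ContinuousLinearMap.comp_apply, add_apply,
      smul_apply, map_smul, sc_sc, sc_split l k v, map_add, dv, smul_eq_mul,
      ContinuousLinearMap.coe_fst']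
    ring
  · have n1 : ‖l • ContinuousLinearMap.fst ℝ ℝ (ℝ × ℝ × ℝ)‖ ≤ l := by
      rw [norm_smul, Real.norm_of_nonneg (by linarith)]
      exact mul_le_of_le_one_right (by linarith) (ContinuousLinearMap.norm_fst_le ..)
    have n2 : ‖k • sc 0 1‖ ≤ k := by
      rw [norm_smul, Real.norm_of_nonneg k0]
      exact mul_le_of_le_one_right k0 (sc_le (by simp) (by simp))
    calc _ ≤ 2 ^ n * (n ! * d * 1 ^ n) * l + 2 ^ n * (n ! * c * 1 ^ n) * k := by gcongr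
      _ = _ := by ring

theorem fi_d {l T : ℝ} {f : ℝ → ℝ} {Y : R4 → E5} {w : R4} (s : SA Y w) (sF : SA f (Y w).1)
    (v : R4) : fderiv ℝ (fun w => fi l T f (Ph Y w)) w v =
      -l * v.1 + deriv f (Y w).1 * (fderiv ℝ (Ph Y) w v).2.1 := by
  have := ((hasFDerivAt_fst.const_sub T).const_mul l).add
    (sF.diff.hasDerivAt.comp_hasFDerivAt w s.diff.hasFDerivAt.fst)
  rw [P354LF.ph_fd s]
  refine (congrArg (· v) this.fderiv).trans ?_
  simp

/-- The transversality on the slice. -/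
theorem trv_eq {l T : ℝ} {f : ℝ → ℝ} {g : Tw} {Y : R4 → E5} {S : X3 → ℝ} {x : X3} (hS : SA S x)
    (s : SA Y (S x, x)) (sF : SA f (Y (S x, x)).1)
    (h : ∀ᶠ y in 𝓝 x, fi l T f (Ph Y (S y, y)) = 0)
    (e : fderiv ℝ (Ph Y) (S x, x) e0 = Wv g (pq Y (S x, x)))
    (n0 : l - deriv f (Y (S x, x)).1 * (Wv g (pq Y (S x, x))).2.1 ≠ 0) :
    trv S (pb (Ph Y) g) (S x, x) = deriv f (Y (S x, x)).1 * lr g Y (S x, x) *
      (l - deriv f (Y (S x, x)).1 * (Wv g (pq Y (S x, x))).2.1)⁻¹ - a0 (pb (Ph Y) g) (S x, x) := by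
  have sG : SA (fun w => fi l T f (Ph Y w)) (S x, x) :=
    (SA.of (f := fun w : R4 => l * (T - w.1)) (by fun_prop)).add
      (sF.comp (f := fun w => (Y w).1) (s.clm (.fst ℝ ℝ _)))
  have a := imp_d hS sG h (lh (pb (Ph Y) g) (S x, x)).2
  have q : ((0, (lh (pb (Ph Y) g) (S x, x)).2) : R4) =
      lh (pb (Ph Y) g) (S x, x) - a0 (pb (Ph Y) g) (S x, x) • e0 := by simp [lh, e0]
  rw [fi_d s sF, fi_d s sF, e] at a
  conv at a => enter [1, 2, 2]; rw [q, map_sub, map_smul, e]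
  unfold trv lr
  simp only [e0, Prod.snd_sub, Prod.fst_sub, Prod.smul_snd, Prod.smul_fst, smul_eq_mul] at a
  field_simp
  linarith

def uu (Y : R4 → E5) (r : ℝ) (w : R4) : ℝ := (Y w).1 / r - 1
def psi (f : ℝ → ℝ) (r t : ℝ) : ℝ := r⁻¹ * f (r + r * t)
def ta (S : X3 → ℝ) (x : X3) (L k : ℝ) (ξ : X3) : ℝ := L⁻¹ * (S (x + k • ξ) - S x)

section

variable {n : ℕ} {K T L l k r c : ℝ} {f : ℝ → ℝ} {g : Tw} {Y : R4 → E5} {S : X3 → ℝ} {x : X3}
  {z : R4}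

theorem ru (r0 : 0 < r) (w : R4) : r + r * uu Y r w = (Y w).1 := by
  unfold uu
  field_simp
  ring

theorem psi_jd (r0 : 0 < r) (K0 : 0 ≤ K) (hf : JD n (fun ξ => f (r + r * ξ)) 0 (K * r)) :
    JD n (psi f r) 0 K :=
  (jd_cmul r⁻¹ hf (by positivity)).mono (by
    rw [abs_of_pos (inv_pos.2 r0), mul_comm K, inv_mul_cancel_left₀ r0.ne'])

theorem psi_d (r0 : 0 < r) (w : R4) : fderiv ℝ (psi f r) (uu Y r w) 1 = deriv f (Y w).1 := by
  rw [fderiv_apply_one_eq_deriv, ← ru r0]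
  unfold psi
  rw [deriv_const_mul_field, deriv_comp_mul_left r fun s => f (r + s), deriv_comp_const_add]
  simp [r0.ne']

theorem f_sa (r0 : 0 < r) (hf : SA (fun ξ => f (r + r * ξ)) 0) : SA f r :=
  (SA.comp (u := fun ξ => f (r + r * ξ)) (f := fun t => t / r - 1) (z := r)
    (by simpa [r0.ne'] using hf) (SA.of (by fun_prop))).congr
    (.of_forall fun t => congrArg f (by field_simp; ring))

theorem uu_gain (K0 : 0 ≤ K) (L1 : 1 ≤ L) (k0 : 0 < k) (k1 : k ≤ 1) (kT : k * T = L) (r0 : 0 < r)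
    (hr : T / 2 ≤ r) (eW : ∀ᶠ w in 𝓝 z, SA Y w ∧ fderiv ℝ (Ph Y) w e0 = Wv g (pq Y w))
    (ju : JD (n + 1) (fun ξ => uu Y r (dl L 1 z ξ)) 0 K)
    (wr : Cl n L 1 (fun w => (Wv g (pq Y w)).2.1) z K) :
    JD (n + 1) (fun ξ => uu Y r (dl L k z ξ)) 0 (2 ^ n * n ! * (3 * K) * k) := by
  have su : SA (uu Y r) z := (eW.self_of_nhds.1.clm (.fst ℝ ℝ _)).mono
    fun w a => (a.div_const r).sub contDiffAt_const
  have du : Cl n L 1 (dv e0 (uu Y r)) z (|r⁻¹| * K) := by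
    refine (jb_cmul r⁻¹ wr).congr ((dl_cd L 1 _).continuous.continuousAt.eventually
      (p := fun w => dv e0 (uu Y r) w = r⁻¹ * (Wv g (pq Y w)).2.1) ?_)
    rw [dl_zero]
    filter_upwards [eW] with w a
    have := (a.1.diff.hasFDerivAt.fst.mul_const r⁻¹).sub_const 1
    rw [← a.2, P354LF.ph_fd a.1]
    refine (congrArg (· e0) this.fderiv).trans ?_
    simp
  refine (gain su ju du L1 k0.le k1).mono ?_
  have : L * r⁻¹ ≤ 2 * k := by
    rw [← kT, ← div_eq_mul_inv, div_le_iff₀ r0]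
    nlinarith
  rw [abs_of_pos (inv_pos.2 r0), mul_assoc _ (3 * K)]
  refine mul_le_mul_of_nonneg_left ?_ (by positivity)
  nlinarith

theorem fi_jd (K0 : 0 ≤ K) (c1 : 1 ≤ c) (L0 : 0 < L) (k0 : 0 < k) (k1 : k ≤ 1) (r0 : 0 < r)
    (rk : r * k ≤ 2 * L) (l2 : |l| ≤ 2) (u0 : uu Y r z = 0) (hψ : JD (n + 1) (psi f r) 0 K)
    (gu : JD (n + 1) (fun ξ => uu Y r (dl L k z ξ)) 0 (c * k)) :
    JD (n + 1) (fun ξ => L⁻¹ * fi l T f (Ph Y (dl L k z ξ))) 0
      (3 + 2 * (2 ^ n * (n ! * K * c ^ n) * c)) := by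
  have gu' := (gu.mono (mul_le_of_le_one_right (by linarith) k1)).ord n.le_succ
  have hψ' : JD (n + 1) (psi f r) ((fun ξ => uu Y r (dl L k z ξ)) 0) K := by
    simp only [dl_zero, u0, hψ]
  have jψ : JD (n + 1) (fun ξ => psi f r (uu Y r (dl L k z ξ))) 0 _ :=
    JD.of_fderiv (SA.comp (f := fun ξ => uu Y r (dl L k z ξ)) hψ'.sm gu.sm)
      (((JB.comp (f := fun ξ => uu Y r (dl L k z ξ)) hψ'.fderiv gu' c1).ccomp gu.fderiv).congr
        (fderiv_ev (f := fun ξ => uu Y r (dl L k z ξ)) hψ'.sm gu.sm))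
  rw [← mul_assoc] at jψ
  have c00 : 0 ≤ 2 ^ n * (n ! * K * c ^ n) * c := by positivity
  generalize 2 ^ n * (n ! * K * c ^ n) * c = c0 at *
  have a := ((JD.const (L⁻¹ * (l * (T - z.1)))).sub (jd_cmul l
    (jd_fst (n := n + 1) (JD.id (z := (0 : R4))) zero_le_one) zero_le_one)).add (jd_cmul (r / L) jψ (by positivity))
  refine (a.congr (.of_forall fun ξ => ?_)).mono ?_
  · simp only [psi, ru r0, fi, Ph]
    simp only [dl, Prod.fst_add]
    field_simp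
    ring
  · rw [abs_of_pos (div_pos r0 L0), div_mul_eq_mul_div]
    have : r * (c0 * k) / L ≤ 2 * c0 := by
      rw [div_le_iff₀ L0]
      nlinarith
    linarith

theorem fi_d0 (L0 : 0 < L) (s : SA Y z) (sF : SA f (Y z).1) :
    fderiv ℝ (fun ξ => L⁻¹ * fi l T f (Ph Y (dl L k z ξ))) 0 e0 =
      -l + deriv f (Y z).1 * (fderiv ℝ (Ph Y) z e0).2.1 := by
  have sG : SA (fun w => fi l T f (Ph Y w)) (dl L k z 0) := by
    rw [dl_zero]
    exact (SA.of (f := fun w : R4 => l * (T - w.1)) (by fun_prop)).add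
      (sF.comp (f := fun w => (Y w).1) (s.clm (.fst ℝ ℝ _)))
  have d := ((sG.diff.hasFDerivAt.comp 0 (dl_fd L k _ 0)).const_mul L⁻¹).fderiv
  have s0 : sc L k e0 = L • e0 := by simp [sc_ap, e0]
  refine (congrArg (· e0) d).trans ?_
  simp only [smul_apply, ContinuousLinearMap.comp_apply, s0, map_smul,
    smul_smul, inv_mul_cancel₀ L0.ne', one_smul, dl_zero]
  rw [fi_d s sF]
  simp [e0]

theorem ta_zero : ta S x L k 0 = 0 := by simp [ta]

theorem dl_ta (L0 : 0 < L) (ξ : X3) :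
    dl L k (S x, x) (ta S x L k ξ, ξ) = (S (x + k • ξ), x + k • ξ) := by simp [dl, ta, L0.ne']

theorem dl_ta' (L0 : 0 < L) (ξ : X3) :
    dl L 1 (S x, x) (ta S x L k ξ, 0 + k • ξ) = (S (x + k • ξ), x + k • ξ) := by
  simp [dl, ta, L0.ne']

theorem den_mem {a w : ℝ} (hl : |l - 1| ≤ 1 / 50) (ha : |a - 1| ≤ 1 / 50)
    (hw : |w - 1 / 2| ≤ 1 / 50) : l - a * w ∈ Icc (1 / 3) a ∧ |l| ≤ 2 := by
  obtain ⟨w1, w2⟩ := abs_le.1 hw
  obtain ⟨f1, f2⟩ := abs_le.1 ha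
  obtain ⟨l3, l4⟩ := abs_le.1 hl
  exact ⟨⟨by nlinarith, by nlinarith⟩, abs_le.2 ⟨by linarith, by linarith⟩⟩

theorem low_num {C a d κ Λ A : ℝ} (K1 : 1 ≤ K) (h : 4 * K ^ 2 ≤ C) (CT : C ≤ T)
    (den : d ∈ Icc (1 / 3) a) (h1 : K⁻¹ ≤ κ) (h2 : |Λ - κ| ≤ K / T) (h3 : |A| ≤ K / T) :
    C⁻¹ ≤ a * Λ * d⁻¹ - A := by
  have a1 : K / T ≤ (4 * K)⁻¹ := by
    rw [div_le_iff₀ (by nlinarith), inv_mul_eq_div, le_div_iff₀ (by linarith)]
    nlinarith
  have a2 : C⁻¹ ≤ (2 * K)⁻¹ := inv_anti₀ (by linarith) (by nlinarith)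
  have a3 : (2 * K)⁻¹ = K⁻¹ / 2 ∧ (4 * K)⁻¹ = K⁻¹ / 4 := ⟨by ring, by ring⟩
  have a4 : 0 < K⁻¹ := inv_pos.2 (by linarith)
  have a5 := abs_le.1 h2
  have a6 := abs_le.1 h3
  have a8 : Λ ≤ a * Λ * d⁻¹ := by
    rw [← div_eq_mul_inv, le_div_iff₀ (by linarith [den.1]), mul_comm]
    exact mul_le_mul_of_nonneg_right den.2 (by linarith)
  linarith

theorem unscale {V : Type} [NormedAddCommGroup V] [NormedSpace ℝ V] {h : X3 → V} {C : ℝ}
    (L1 : 1 ≤ L) (k0 : 0 < k) (k1 : k ≤ 1) (kT : k * T = L) (c0 : 0 ≤ c) (C1 : 1 ≤ C)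
    (hC : n ! * c ≤ C) (b : JD n (fun ξ => h (x + k • ξ)) 0 (c * L)) : JD n h x ((C * T) ^ n) := by
  have k2 : 1 ≤ k⁻¹ := (one_le_inv₀ k0).2 k1
  have d := JD.comp (u := fun ξ => h (x + k • ξ)) (f := fun y : X3 => -(k⁻¹ • x) + k⁻¹ • y) (z := x)
    (by rw [neg_add_cancel]; exact b) (jd_aff _ (abs_of_pos (inv_pos.2 k0)).le) k2 (by positivity)
  have e : ∀ y : X3, x + k • (-(k⁻¹ • x) + k⁻¹ • y) = y := fun y => by simp [k0.ne']
  simp only [e] at d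
  cases n with
  | zero => exact JD.zero d.sm
  | succ n =>
    refine d.mono ?_
    have a2 : L * k⁻¹ = T := by rw [← kT]; field_simp
    have a1 : k⁻¹ ≤ T := a2 ▸ le_mul_of_one_le_left (by linarith) L1
    have a3 : ((n + 1)! : ℝ) * c ≤ C ^ (n + 1) := hC.trans (le_self_pow₀ C1 n.succ_ne_zero)
    have T0 : 0 ≤ T := by linarith
    calc _ = (n + 1)! * c * (k⁻¹ ^ n * (L * k⁻¹)) := by ring
      _ ≤ C ^ (n + 1) * (T ^ n * T) := by rw [a2]; gcongr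
      _ = _ := by ring

end

/-- **BTJ.** -/
theorem btj : BTJ := fun n K K1 => by
  have K0 : 0 ≤ K := by linarith
  have n1 : (1 : ℝ) ≤ n ! := Nat.one_le_cast.2 n.factorial_pos
  have p1 : (1 : ℝ) ≤ 2 ^ n := one_le_pow₀ one_le_two
  obtain ⟨c1, hc1⟩ : ∃ c : ℝ, c = 2 ^ n * n ! * (3 * K) := ⟨_, rfl⟩
  have Kc : K ≤ c1 := hc1 ▸ (by linarith : K ≤ 3 * K).trans
    (le_mul_of_one_le_left (by linarith) (one_le_mul_of_one_le_of_one_le p1 n1))
  have c11 := K1.trans Kc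
  obtain ⟨c0, hc0⟩ : ∃ c : ℝ, c = 2 ^ n * (n ! * K * c1 ^ n) * c1 := ⟨_, rfl⟩
  have c00 : 3 ≤ 3 + 2 * c0 := le_add_of_nonneg_right (by rw [hc0]; positivity)
  obtain ⟨C1, h1, hI⟩ := impj (n + 1) (3 + 2 * c0)
  have C10 : 0 ≤ C1 := by linarith
  have q1 : 1 ≤ C1 ^ n := one_le_pow₀ h1
  obtain ⟨c2, hc2⟩ : ∃ c : ℝ, c = n ! * K * C1 ^ n := ⟨_, rfl⟩
  have c21 : 1 ≤ c2 :=
    hc2 ▸ one_le_mul_of_one_le_of_one_le (one_le_mul_of_one_le_of_one_le n1 K1) q1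
  obtain ⟨c3, hc3⟩ : ∃ c : ℝ, c = n ! * K * c2 ^ n := ⟨_, rfl⟩
  have c30 : 0 ≤ c3 := by rw [hc3]; positivity
  obtain ⟨K2, K20, hR⟩ := jb_rcp n (2 + 2 ^ n * c3 * c2) 3
  obtain ⟨c5, hc5⟩ : ∃ c : ℝ, c = 2 ^ n * (2 ^ n * c3 * c2) * K2 + c2 := ⟨_, rfl⟩
  have c50 : 0 ≤ c5 := by rw [hc5]; positivity
  obtain ⟨c4, hc4⟩ : ∃ c : ℝ, c = n ! * c1 * C1 ^ n := ⟨_, rfl⟩
  have c24 : c2 ≤ c4 := by rw [hc2, hc4]; gcongr
  have c40 : 0 ≤ c4 := by linarith
  obtain ⟨C, a1, a2, a3, a4⟩ : ∃ C, C1 ≤ C ∧ c5 ≤ C ∧ 4 * K ^ 2 ≤ C ∧ n ! * (2 * c4) ≤ C :=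
    ⟨max (max C1 c5) (max _ _), le_max_of_le_left (le_max_left ..),
      le_max_of_le_left (le_max_right ..), le_max_of_le_right (le_max_left ..),
      le_max_of_le_right (le_max_right ..)⟩
  refine ⟨C, h1.trans a1, fun T L l m f g D Y S x L1 LT CT hL hJ hQ hr hf hl hf' hW hS h0 => ?_⟩
  have L0 : 0 < L := zero_lt_one.trans_le L1
  have T0 : 0 < T := (pow_pos L0 2).trans_le LT
  have k0 : 0 < L / T := div_pos L0 T0
  have k1 : L / T ≤ 1 := div_le_one_of_le₀ ((le_self_pow₀ L1 two_ne_zero).trans LT) T0.le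
  have kT : L / T * T = L := div_mul_cancel₀ _ T0.ne'
  generalize L / T = k at k0 k1 kT ⊢
  have sY := hL.sol.self_of_nhds.1.sm
  have eW : ∀ᶠ w in 𝓝 (S x, x), SA Y w ∧ fderiv ℝ (Ph Y) w e0 = Wv g (pq Y w) :=
    hL.sol.mono fun w a => ⟨a.1.sm, ((P354LF.ray g D Y hL.met.1 hL.met.2).1 w a.1 a.2.1).1⟩
  have r0 : 0 < (Y (S x, x)).1 := zero_lt_one.trans_le hL.par.1
  have u0 : uu Y (Y (S x, x)).1 (S x, x) = 0 := by rw [uu, div_self r0.ne', sub_self]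
  have hψ := psi_jd r0 K0 hf
  have sF := f_sa r0 hf.sm
  have ju : JD (n + 1) (fun ξ => uu Y (Y (S x, x)).1 (dl L 1 (S x, x) ξ)) 0 K :=
    ((jd_fst (jd_fst hJ K0) K0).sub (JD.const (1 : ℝ))).mono (add_zero K).le
  have j2 := jd_fst (jd_snd (jd_fst hJ K0) K0) K0
  have jη : JD (n + 1) (fun ξ => (Y (dl L 1 (S x, x) ξ)).2.1) 0 K := j2
  have wr := hQ.wr
  rw [mul_inv_cancel_right₀ T0.ne'] at wr
  have gu := uu_gain K0 L1 k0 k1 kT r0 hr.1 eW ju wr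
  rw [← hc1] at gu
  have rk : (Y (S x, x)).1 * k ≤ 2 * L :=
    (mul_le_mul_of_nonneg_right hr.2 k0.le).trans_eq (by rw [← kT]; ring)
  obtain ⟨den, l2⟩ := den_mem hl hf' hW
  have dn := (by norm_num : (0 : ℝ) < 1 / 3).trans_le den.1
  have tx : Tendsto (fun ξ : X3 => x + k • ξ) (𝓝 0) (𝓝 x) :=
    Continuous.tendsto' (by fun_prop) _ _ (by simp)
  have sS : SA (fun ξ : X3 => S (x + k • ξ)) 0 :=
    SA.comp (u := S) (by simpa using hS) (SA.of (by fun_prop))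
  have jτ : JD (n + 1) (ta S x L k) 0 C1 := by
    refine hI (fun ξ => L⁻¹ * fi l T f (Ph Y (dl L k (S x, x) ξ))) _ 0
      (sS.mono fun _ a => contDiffAt_const.mul (a.sub contDiffAt_const))
      ((tx.eventually h0).mono fun ξ a => by rw [dl_ta L0, a, mul_zero])
      (by rw [ta_zero, hc0]; exact fi_jd K0 c11 L0 k0 k1 r0 rk l2 u0 hψ gu)
      (zero_lt_three.trans_le c00) ?_
    rw [ta_zero, Prod.mk_zero_zero, fi_d0 L0 sY sF, eW.self_of_nhds.2]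
    exact (inv_anti₀ zero_lt_three c00).trans (le_abs.2 (.inr (by linarith only [den.1])))
  have jP : JD n (fun ξ => ((ta S x L k ξ, 0 + k • ξ) : R4)) 0 C1 :=
    (jτ.ord n.le_succ).prod (jd_aff 0 ((abs_of_pos k0).le.trans (k1.trans h1)))
  have P0 : ((ta S x L k 0, 0 + k • (0 : X3)) : R4) = 0 := by simp [ta_zero]
  have cb : ∀ {h : R4 → ℝ}, Cl n L 1 h (S x, x) K →
      JB n (fun ξ => h (S (x + k • ξ), x + k • ξ)) 0 c2 := fun {h} a => by
    have := JB.comp (u := fun ξ => h (dl L 1 (S x, x) ξ)) (by rw [P0]; exact a) jP h1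
    simpa only [dl_ta' L0, hc2] using this
  have cd : ∀ {V : Type} [NormedAddCommGroup V] [NormedSpace ℝ V] (h : R4 → V),
      JD (n + 1) (fun ξ => h (dl L 1 (S x, x) ξ)) 0 K →
      JD n (fun ξ => h (S (x + k • ξ), x + k • ξ)) 0 c2 := fun {V} _ _ h a => by
    have := JD.comp (u := fun ξ => h (dl L 1 (S x, x) ξ)) (by rw [P0]; exact a.ord n.le_succ) jP h1
      K0
    simpa only [dl_ta' L0, hc2] using this
  have jf : JB n (fun ξ => deriv f (Y (S (x + k • ξ), x + k • ξ)).1) 0 c3 := by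
    have := JB.comp (u := fun t => fderiv ℝ (psi f (Y (S x, x)).1) t 1) (by
      simp only [smul_zero, add_zero, u0]
      exact P354SG.jb_dv (hψ.sub_const K0) norm_one.le |>.congr (.of_forall fun t => by
        simp only [fderiv_sub_const])) (cd _ ju) c21
    simpa only [psi_d r0, hc3] using this
  have jt : JB n (fun ξ => trv S (pb (Ph Y) g) (S (x + k • ξ), x + k • ξ)) 0 c5 := by
    have a := ((JB.const l).mono l2).sub (jb_mul jf (cb wr))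
    have b := hR _ _ _ a zero_lt_three (le_abs.2 (.inl (by simpa using den.1)))
    rw [hc5]
    refine ((jb_mul (jb_mul jf (cb hQ.lr.1)) b).sub (cb hQ.one.2.1)).congr ?_
    have tz : Tendsto (fun ξ : X3 => (S (x + k • ξ), x + k • ξ)) (𝓝 0) (𝓝 (S x, x)) :=
      (hS.cont.tendsto.comp tx).prodMk_nhds tx
    filter_upwards [tx.eventually hS.ev, tz.eventually eW,
      tz.eventually ((sY.clm (.fst ℝ ℝ _)).cont.eventually sF.ev),
      tx.eventually h0.eventually_nhds, a.sm.cont.eventually_ne (y := 0) (by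
        simpa only [smul_zero, add_zero] using dn.ne')] with ξ a1 a2 a3 a4 a5
    exact trv_eq a1 a2.1 a3 a4 a2.2 a5
  refine ⟨?_, jt.mono a2, ⟨?_, ?_⟩, unscale L1 k0 k1 kT (by positivity) (h1.trans a1) a4 ?_⟩
  · refine JD.of_sub (S x) (((jd_cmul L jτ C10).congr (.of_forall fun ξ => ?_)).mono ?_)
    · simp [ta, L0.ne']
    · rw [abs_of_pos L0, mul_comm]
      exact mul_le_mul_of_nonneg_right a1 L0.le
  · rw [trv_eq hS sY sF h0 eW.self_of_nhds.2 dn.ne']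
    exact low_num K1 a3 CT den hL.kap.1 hQ.lr.2.1 hQ.lr.2.2
  · have := jt.zero
    simp only [smul_zero, add_zero] at this
    exact ((le_abs_self _).trans this).trans a2
  · have a := JD.comp (u := fun ξ => uu Y (Y (S x, x)).1 (dl L k (S x, x) ξ))
      (f := fun ξ => ((ta S x L k ξ, ξ) : R4)) (z := 0) (by rw [ta_zero]; exact gu.ord n.le_succ)
      ((jτ.ord n.le_succ).prod (JD.id.mono h1)) h1 (by positivity)
    refine JD.prod ((((JD.const _).add (jd_cmul _ a (by positivity))).congr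
      (.of_forall fun ξ => by simp only [dl_ta L0]; exact (ru r0 _).symm)).mono ?_)
      ((cd (fun w => (Y w).2.1) jη).mono (by nlinarith only [c24, c40, L1]))
    rw [abs_of_pos r0]
    calc _ = c4 * ((Y (S x, x)).1 * k) := by rw [hc4]; ring
      _ ≤ c4 * (2 * L) := mul_le_mul_of_nonneg_left rk c40
      _ = _ := by ring

end Vale.Agent.P354NP
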