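import Vale.Agent.P354NP.PD

namespace Vale.Agent.P354NP

variable {A : Type*} [CommRing A] [StarRing A] [Algebra ℂ A]

omit [StarRing A] in
theorem d_span (D : Derivation ℂ A A) {S : Set A} {J : Ideal A} (hS : ∀ x ∈ S, x ∈ J)
    (hD : ∀ x ∈ S, D x ∈ J) {x : A} (hx : x ∈ Ideal.span S) : x ∈ J ∧ D x ∈ J := by
  induction hx using Submodule.span_induction with
  | mem x h => exact ⟨hS x h, hD x h⟩
  | zero => exact ⟨J.zero_mem, by rw [map_zero]; exact J.zero_mem⟩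
  | add x y _ _ hx hy => exact ⟨J.add_mem hx.1 hy.1, by rw [map_add]; exact J.add_mem hx.2 hy.2⟩
  | smul a x _ hx =>
    refine ⟨J.mul_mem_left a hx.1, ?_⟩
    rw [smul_eq_mul, dmul]
    exact J.add_mem (J.mul_mem_left a hx.2) (J.mul_mem_right _ hx.1)

namespace PD
variable {T : TD A} (P : PD T) {B : Type*} [CommRing B] {φ : A →+* B}

theorem Kill.bar {P : PD T} (K : P.Kill φ) : P.Kill (φ.comp (starRingEnd A)) where
  h1 := by simp only [RingHom.comp_apply, starRingEnd_apply, T.s1, P.sp, K.h1]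
  h2 := by simp only [RingHom.comp_apply, starRingEnd_apply, T.s2, P.sq, K.h3]
  h3 := by simp only [RingHom.comp_apply, starRingEnd_apply, T.s3, P.sq, K.h2]

theorem dYb0 (K : P.Kill φ) : φ (T.d0 (T.d3 P.q)) = 0 := by
  simpa only [RingHom.comp_apply, starRingEnd_apply, T.s0, T.s2, P.sq] using P.dY0 K.bar
theorem dYb1 (K : P.Kill φ) : φ (T.d1 (T.d3 P.q)) = 0 := by
  simpa only [RingHom.comp_apply, starRingEnd_apply, T.s1, T.s2, P.sq] using P.dY1 K.bar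
theorem dYb3 (K : P.Kill φ) : φ (T.d3 (T.d3 P.q)) = 0 := by
  simpa only [RingHom.comp_apply, starRingEnd_apply, T.s2, P.sq] using P.dY2 K.bar

theorem dRb (K : P.Kill φ) : φ (T.d2 (T.d3 P.q) - T.d3 (T.d2 P.q)) = 0 := by
  have h := congrArg φ (T.c23 P.q)
  obtain ⟨E0, E0b, E1, E1b, -⟩ := P.rel K
  have hu := ((P.uz.mul P.uO).mul (P.uzb.mul P.uO)).map φ
  rw [h]
  apply hu.mul_right_eq_zero.mp
  simp only [map_mul, map_add, map_sub, map_one, P.Hq, P.Hbq, map_zero]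
  linear_combination
    (φ P.q - φ (iA A) * φ P.p) * (1 - φ P.al * φ P.p * φ P.q)
      * (φ (T.d0 P.q) * E1b - φ (T.d1 P.q) * E0b)
    + (φ P.q + φ (iA A) * φ P.p) * (1 - φ P.al * φ P.p * φ P.q)
      * (φ (T.d1 P.q) * E0 - φ (T.d0 P.q) * E1)

/-- At a point off the axis the second order defect vanishes with the first order ones. -/
theorem base_R (K : P.Kill φ) (hu : IsUnit (φ (T.d3 P.p))) : φ (T.d3 (T.d2 P.q)) = 0 := by
  have h := congrArg (fun x => φ (T.d3 x)) P.sY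
  simp only [dmul, map_add, map_mul, K.h2, K.h3, P.dYb3 K] at h
  apply hu.mul_right_eq_zero.mp
  linear_combination h

/-- The defects `þ'p, ðq, ð'q, ð'ðq`. -/
def df : Fin 4 → A := ![T.d1 P.p, T.d2 P.q, T.d3 P.q, T.d3 (T.d2 P.q)]

/-- The ideal of first order defects. -/
def J0 : Ideal A := Ideal.span {T.d1 P.p, T.d2 P.q, T.d3 P.q}

/-- The ideal of all defects. -/
def J : Ideal A := Ideal.span (Set.range P.df)

theorem kill0 : P.Kill (Ideal.Quotient.mk P.J0) where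
  h1 := Ideal.Quotient.eq_zero_iff_mem.mpr (Ideal.subset_span (by simp))
  h2 := Ideal.Quotient.eq_zero_iff_mem.mpr (Ideal.subset_span (by simp))
  h3 := Ideal.Quotient.eq_zero_iff_mem.mpr (Ideal.subset_span (by simp))

theorem mX : T.d1 P.p ∈ P.J := Ideal.subset_span ⟨0, rfl⟩
theorem mY : T.d2 P.q ∈ P.J := Ideal.subset_span ⟨1, rfl⟩
theorem mYb : T.d3 P.q ∈ P.J := Ideal.subset_span ⟨2, rfl⟩
theorem mR : T.d3 (T.d2 P.q) ∈ P.J := Ideal.subset_span ⟨3, rfl⟩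

theorem gen {S : A → Prop} (h1 : S (T.d1 P.p)) (h2 : S (T.d2 P.q)) (h3 : S (T.d3 P.q)) :
    ∀ x ∈ ({T.d1 P.p, T.d2 P.q, T.d3 P.q} : Set A), S x := by
  intro x hx
  simp only [Set.mem_insert_iff, Set.mem_singleton_iff] at hx
  rcases hx with h | h | h <;> rw [h] <;> assumption

theorem J0J {x : A} (h : Ideal.Quotient.mk P.J0 x = 0) : x ∈ P.J :=
  (Ideal.span_le.mpr (P.gen (S := fun x => x ∈ P.J) P.mX P.mY P.mYb))
    (Ideal.Quotient.eq_zero_iff_mem.mp h)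

theorem mRb : T.d2 (T.d3 P.q) ∈ P.J := by
  have h := P.J.add_mem (P.J0J (P.dRb P.kill0)) P.mR
  rwa [sub_add_cancel] at h

theorem d3J {x : A} (h : Ideal.Quotient.mk P.J0 x = 0) : T.d3 x ∈ P.J :=
  (d_span T.d3 (P.gen (S := fun x => x ∈ P.J) P.mX P.mY P.mYb)
    (P.gen (S := fun x => T.d3 x ∈ P.J) (P.J0J (P.dX3 P.kill0)) P.mR (P.J0J (P.dYb3 P.kill0)))
    (Ideal.Quotient.eq_zero_iff_mem.mp h)).2

theorem d2J {x : A} (h : Ideal.Quotient.mk P.J0 x = 0) : T.d2 x ∈ P.J :=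
  (d_span T.d2 (P.gen (S := fun x => x ∈ P.J) P.mX P.mY P.mYb)
    (P.gen (S := fun x => T.d2 x ∈ P.J) (P.J0J (P.dX2 P.kill0)) (P.J0J (P.dY2 P.kill0)) P.mRb)
    (Ideal.Quotient.eq_zero_iff_mem.mp h)).2

theorem HY : T.H (T.d2 P.q) = T.d2 P.q := by rw [T.H2, P.Hq, map_zero, zero_add]
theorem HbY : T.Hb (T.d2 P.q) = -T.d2 P.q := by rw [T.Hb2, P.Hbq, map_zero, zero_sub]
theorem HYb : T.H (T.d3 P.q) = -T.d3 P.q := by rw [T.H3, P.Hq, map_zero, zero_sub]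
theorem HbYb : T.Hb (T.d3 P.q) = T.d3 P.q := by rw [T.Hb3, P.Hbq, map_zero, zero_add]

theorem dR0 : T.d0 (T.d3 (T.d2 P.q)) ∈ P.J := by
  have h := T.c03 (T.d2 P.q)
  rw [P.HY, sub_eq_iff_eq_add] at h
  rw [h]
  exact P.J.add_mem (P.J.add_mem (P.J.sub_mem (P.J.mul_mem_left _ P.mR)
    (P.J.mul_mem_left _ (P.J0J (P.dY0 P.kill0)))) (P.J.mul_mem_left _ P.mY)) (P.d3J (P.dY0 P.kill0))

theorem dR1 : T.d1 (T.d3 (T.d2 P.q)) ∈ P.J := by
  have h := T.c13 (T.d2 P.q)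
  rw [P.HbY, sub_eq_iff_eq_add] at h
  rw [h]
  exact P.J.add_mem (P.J.sub_mem (P.J.sub_mem (P.J.mul_mem_left _ P.mR)
    (P.J.mul_mem_left _ (P.J0J (P.dY1 P.kill0)))) (P.J.mul_mem_left _ (P.J.neg_mem P.mY)))
    (P.d3J (P.dY1 P.kill0))

theorem dR2 : T.d2 (T.d3 (T.d2 P.q)) ∈ P.J := by
  have h := T.c23 (T.d2 P.q)
  rw [P.HY, P.HbY, sub_eq_iff_eq_add] at h
  rw [h]
  exact P.J.add_mem (P.J.sub_mem (P.J.add_mem (P.J.add_mem
    (P.J.mul_mem_left _ (P.J0J (P.dY0 P.kill0))) (P.J.mul_mem_left _ (P.J0J (P.dY1 P.kill0))))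
    (P.J.mul_mem_left _ P.mY)) (P.J.mul_mem_left _ (P.J.neg_mem P.mY))) (P.d3J (P.dY2 P.kill0))

theorem dR3 : T.d3 (T.d3 (T.d2 P.q)) ∈ P.J := by
  have h := T.c23 (T.d3 P.q)
  rw [P.HYb, P.HbYb] at h
  have h1 : T.d3 (T.d2 (T.d3 P.q)) ∈ P.J := by
    have e : T.d3 (T.d2 (T.d3 P.q)) = T.d2 (T.d3 (T.d3 P.q)) - (T.d2 (T.d3 (T.d3 P.q))
      - T.d3 (T.d2 (T.d3 P.q))) := by ring
    rw [e, h]
    exact P.J.sub_mem (P.d2J (P.dYb3 P.kill0)) (P.J.sub_mem (P.J.add_mem (P.J.add_mem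
      (P.J.mul_mem_left _ (P.J0J (P.dYb0 P.kill0))) (P.J.mul_mem_left _ (P.J0J (P.dYb1 P.kill0))))
      (P.J.mul_mem_left _ (P.J.neg_mem P.mYb))) (P.J.mul_mem_left _ P.mYb))
  have h2 := P.J.sub_mem h1 (P.d3J (P.dRb P.kill0))
  rwa [map_sub, sub_sub_cancel] at h2

/-- CLOSURE: the four defects satisfy a closed linear first order system. -/
theorem closure (k : Fin 4) : T.d0 (P.df k) ∈ P.J ∧ T.d1 (P.df k) ∈ P.J ∧ T.d2 (P.df k) ∈ P.J ∧
    T.d3 (P.df k) ∈ P.J ∧ T.H (P.df k) ∈ P.J ∧ T.Hb (P.df k) ∈ P.J := by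
  fin_cases k
  · refine ⟨P.J0J (P.dX0 P.kill0), P.J0J (P.dX1 P.kill0), P.J0J (P.dX2 P.kill0),
      P.J0J (P.dX3 P.kill0), ?_, ?_⟩
    · show T.H (T.d1 P.p) ∈ P.J
      rw [T.H1, P.Hp, map_zero, zero_sub]; exact P.J.neg_mem P.mX
    · show T.Hb (T.d1 P.p) ∈ P.J
      rw [T.Hb1, P.Hbp, map_zero, zero_sub]; exact P.J.neg_mem P.mX
  · refine ⟨P.J0J (P.dY0 P.kill0), P.J0J (P.dY1 P.kill0), P.J0J (P.dY2 P.kill0), P.mR, ?_, ?_⟩
    · show T.H (T.d2 P.q) ∈ P.J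
      rw [P.HY]; exact P.mY
    · show T.Hb (T.d2 P.q) ∈ P.J
      rw [P.HbY]; exact P.J.neg_mem P.mY
  · refine ⟨P.J0J (P.dYb0 P.kill0), P.J0J (P.dYb1 P.kill0), P.mRb, P.J0J (P.dYb3 P.kill0), ?_, ?_⟩
    · show T.H (T.d3 P.q) ∈ P.J
      rw [P.HYb]; exact P.J.neg_mem P.mYb
    · show T.Hb (T.d3 P.q) ∈ P.J
      rw [P.HbYb]; exact P.mYb
  · refine ⟨P.dR0, P.dR1, P.dR2, P.dR3, ?_, ?_⟩
    · show T.H (T.d3 (T.d2 P.q)) ∈ P.J
      rw [T.H3, P.HY, sub_self]; exact P.J.zero_mem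
    · show T.Hb (T.d3 (T.d2 P.q)) ∈ P.J
      rw [T.Hb3, P.HbY, map_neg, neg_add_cancel]; exact P.J.zero_mem

/-- BASE POINT: two phase conditions kill all four defects. -/
theorem base (φ : A →+* B)
    (h1 : φ ((1 + iA A * P.al * P.p ^ 2) * T.r2 * (P.q - iA A * P.p))
      = φ ((1 - iA A * P.al * P.p ^ 2) * star T.r2 * (P.q + iA A * P.p)))
    (h2 : φ (T.t * T.t2 * ((P.al * P.q ^ 2 + iA A) * (P.q - iA A * P.p)) ^ 2)
      = φ (star T.t * star T.t2 * ((P.al * P.q ^ 2 - iA A) * (P.q + iA A * P.p)) ^ 2))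
    (u1 : IsUnit (φ ((P.al * P.q ^ 2 + iA A) * T.t2 * (P.q - iA A * P.p)
      + (P.al * P.q ^ 2 - iA A) * star T.t * (P.q + iA A * P.p))))
    (u2 : IsUnit (φ ((P.al * P.q ^ 2 + iA A) * T.t * (P.q - iA A * P.p)
      + (P.al * P.q ^ 2 - iA A) * star T.t2 * (P.q + iA A * P.p))))
    (u3 : IsUnit (φ (T.d3 P.p))) (k : Fin 4) : φ (P.df k) = 0 := by
  have uD := P.uD.map φ
  have e1 := congrArg φ P.E1
  have e1b := congrArg φ P.E1b
  have e2 := congrArg φ P.E2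
  have e2b := congrArg φ P.E2b
  have e3 := congrArg φ P.E3
  have e3b := congrArg φ P.E3b
  have n2 := congrArg φ T.n2
  simp only [map_mul, map_add, map_sub, map_neg, map_pow, map_one] at uD e1 e1b e2 e2b e3 e3b n2
  simp only [map_mul, map_add, map_sub, map_pow, map_one] at h1 h2 u1 u2
  have K : P.Kill φ := by
    refine ⟨?_, ?_, ?_⟩
    · apply uD.mul_right_eq_zero.mp
      linear_combination (1 + φ (iA A) * φ P.al * φ P.p ^ 2) * e1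
        - (1 - φ (iA A) * φ P.al * φ P.p ^ 2) * e1b - (1 - φ P.al * φ P.p * φ P.q) * h1
    · apply uD.mul_right_eq_zero.mp
      apply u1.mul_right_eq_zero.mp
      linear_combination
        ((φ P.al * φ P.q ^ 2 + φ (iA A)) * φ T.t2 * (φ P.q - φ (iA A) * φ P.p)
          + (φ P.al * φ P.q ^ 2 - φ (iA A)) * φ (star T.t) * (φ P.q + φ (iA A) * φ P.p))
        * (-(φ P.al * φ P.q ^ 2 + φ (iA A)) * e2 + (φ P.al * φ P.q ^ 2 - φ (iA A)) * e2b)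
        + (1 - φ P.al * φ P.p * φ P.q) * ((φ P.al * φ P.q ^ 2 + φ (iA A))
          * (φ P.al * φ P.q ^ 2 - φ (iA A)) * (φ P.q - φ (iA A) * φ P.p)
          * (φ P.q + φ (iA A) * φ P.p) * n2) + (1 - φ P.al * φ P.p * φ P.q) * h2
    · apply uD.mul_right_eq_zero.mp
      apply u2.mul_right_eq_zero.mp
      linear_combination
        ((φ P.al * φ P.q ^ 2 + φ (iA A)) * φ T.t * (φ P.q - φ (iA A) * φ P.p)
          + (φ P.al * φ P.q ^ 2 - φ (iA A)) * φ (star T.t2) * (φ P.q + φ (iA A) * φ P.p))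
        * (-(φ P.al * φ P.q ^ 2 + φ (iA A)) * e3 + (φ P.al * φ P.q ^ 2 - φ (iA A)) * e3b)
        - (1 - φ P.al * φ P.p * φ P.q) * ((φ P.al * φ P.q ^ 2 + φ (iA A))
          * (φ P.al * φ P.q ^ 2 - φ (iA A)) * (φ P.q - φ (iA A) * φ P.p)
          * (φ P.q + φ (iA A) * φ P.p) * n2) + (1 - φ P.al * φ P.p * φ P.q) * h2
  fin_cases k
  · exact K.h1
  · exact K.h2
  · exact K.h3
  · exact P.base_R K u3

end PD
end Vale.Agent.P354NP
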