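import Vale.Agent.P354NP.PX

set_option linter.unusedSimpArgs false

namespace Vale.Agent.P354NP

variable {A : Type*} [CommRing A] [StarRing A] [Algebra ℂ A]

omit [StarRing A] in
theorem d4n (D : Derivation ℂ A A) : D (4 : A) = 0 := by
  have := D.map_natCast 4
  simpa using this

namespace PX
open PD
variable {T : TD A} (P : PX T)

theorem dPp (D : Derivation ℂ A A) (ha : D P.al = 0) (hm : D P.m2 = 0) (hn : D P.n2 = 0) :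
    D P.Pp = P.dP * D P.p + ((1 - P.al ^ 2 * P.p ^ 4) * D P.k - P.p ^ 2 * D P.ep) := by
  simp only [Pp, dP, map_add, map_sub, dmul, dsq, dcu, dqu, ha, hm, hn]; ring

theorem dQx (D : Derivation ℂ A A) (ha : D P.al = 0) (hm : D P.m2 = 0) (hn : D P.n2 = 0) :
    D P.Qx = P.dQ * D P.q + ((1 - P.al ^ 2 * P.q ^ 4) * D P.k + P.q ^ 2 * D P.ep) := by
  simp only [Qx, dQ, map_add, map_sub, dmul, dsq, dcu, dqu, ha, hm, hn]; ring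

theorem K1_0 : (1 - P.al ^ 2 * P.p ^ 4) * T.d0 P.k - P.p ^ 2 * T.d0 P.ep = 0 := by
  have h := congrArg T.d0 P.vpp
  simp only [dmul, dsq, d2n, map_add, map_sub, map_neg, Derivation.map_one_eq_zero, P.kal.k0, P.x0, P.x1,
    P.x2, P.x3, P.u_0, P.ub_0, P.pi_0, P.pb_0, P.dPp T.d0 P.kal.k0 P.km2.k0 P.kn2.k0] at h
  apply P.clr 0 0 0 0
  linear_combination
    1 * ((-(P.q - iA A * P.p) * (P.q + iA A * P.p) * P.oi ^ 2) * h + (-2 * (P.q - iA A * P.p) * (P.q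
    + iA A * P.p) * P.al * P.oi ^ 3 * P.p * T.d0 P.q - (P.q - iA A * P.p) * (P.q + iA A * P.p) * P.oi ^ 2
    * T.d0 P.q * P.u - (P.q - iA A * P.p) * (P.q + iA A * P.p) * P.oi ^ 2 * T.d0 P.q * P.ub) * P.vpp
    + (-((1 - P.al ^ 2 * P.p ^ 4) * T.d0 P.k - P.p ^ 2 * T.d0 P.ep) * (1 - P.al * P.p * P.q) ^ 2
    * (P.q + iA A * P.p) * P.oi ^ 2 * P.ub + 2 * (1 - P.al * P.p * P.q) * P.Pp * (P.q + iA A * P.p)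
    * P.al * P.oi ^ 2 * P.p * T.d0 P.q * P.ub - 2 * (1 - P.al * P.p * P.q) ^ 2 * P.Pp * (P.q + iA A
    * P.p) * P.al * P.oi ^ 3 * P.p * T.d0 P.q * P.ub) * P.hu + (-((1 - P.al ^ 2 * P.p ^ 4) * T.d0 P.k
    - P.p ^ 2 * T.d0 P.ep) * (1 - P.al * P.p * P.q) ^ 2 * P.oi ^ 2 + 2 * (1 - P.al * P.p * P.q) * P.Pp
    * P.al * P.oi ^ 2 * P.p * T.d0 P.q - 2 * (1 - P.al * P.p * P.q) ^ 2 * P.Pp * P.al * P.oi ^ 3
    * P.p * T.d0 P.q) * P.hub + (-((1 - P.al ^ 2 * P.p ^ 4) * T.d0 P.k - P.p ^ 2 * T.d0 P.ep) - ((1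
    - P.al ^ 2 * P.p ^ 4) * T.d0 P.k - P.p ^ 2 * T.d0 P.ep) * (1 - P.al * P.p * P.q) * P.oi - 2 * (1
    - P.al * P.p * P.q) * P.Pp * P.al * P.oi ^ 2 * P.p * T.d0 P.q) * P.hoi)

theorem K2_0 : (1 - P.al ^ 2 * P.q ^ 4) * T.d0 P.k + P.q ^ 2 * T.d0 P.ep = 0 := by
  have h := congrArg T.d0 P.vss
  simp only [dmul, dsq, d2n, map_add, map_sub, map_neg, Derivation.map_one_eq_zero, P.kal.k0, P.x0, P.x1,
    P.x2, P.x3, P.u_0, P.ub_0, P.s_0, P.s2_0, P.dQx T.d0 P.kal.k0 P.km2.k0 P.kn2.k0, Gs] at h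
  apply P.clr 1 1 0 0
  linear_combination
    (P.q - iA A * P.p) * (P.q + iA A * P.p) * (((P.q - iA A * P.p) * (P.q + iA A * P.p) * P.oi ^ 2)
    * h + (2 * (P.q - iA A * P.p) * (P.q + iA A * P.p) * P.al * P.oi ^ 3 * P.p * T.d0 P.q + 2 * (P.q
    - iA A * P.p) * (P.q + iA A * P.p) * P.oi ^ 2 * P.q * T.d0 P.q * P.u * P.ub) * P.vss + (P.dQ
    * (1 - P.al * P.p * P.q) ^ 2 * (P.q - iA A * P.p) * (P.q + iA A * P.p) * P.oi ^ 2 * T.d0 P.q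
    * P.u * P.ub) * hhf (A := A) + (-((1 - P.al ^ 2 * P.q ^ 4) * T.d0 P.k + P.q ^ 2 * T.d0 P.ep)
    * (1 - P.al * P.p * P.q) ^ 2 * (P.q + iA A * P.p) * P.oi ^ 2 * P.ub + 2 * (1 - P.al * P.p * P.q)
    * P.Qx * (P.q + iA A * P.p) * P.al * P.oi ^ 2 * P.p * T.d0 P.q * P.ub - 2 * (1 - P.al * P.p * P.q) ^ 2
    * P.Qx * (P.q + iA A * P.p) * P.al * P.oi ^ 3 * P.p * T.d0 P.q * P.ub - 2 * (1 - P.al * P.p * P.q) ^ 2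
    * P.Qx * (P.q + iA A * P.p) * P.oi ^ 2 * P.q * T.d0 P.q * P.u * P.ub ^ 2 + (1 - P.al * P.p * P.q) ^ 2
    * P.Qx * (P.q + iA A * P.p) * P.oi ^ 2 * T.d0 P.q * P.u * P.ub + (1 - P.al * P.p * P.q) ^ 2 * P.Qx
    * (P.q + iA A * P.p) * P.oi ^ 2 * T.d0 P.q * P.ub ^ 2) * P.hu + (-((1 - P.al ^ 2 * P.q ^ 4) * T.d0 P.k
    + P.q ^ 2 * T.d0 P.ep) * (1 - P.al * P.p * P.q) ^ 2 * P.oi ^ 2 + 2 * (1 - P.al * P.p * P.q) * P.Qx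
    * P.al * P.oi ^ 2 * P.p * T.d0 P.q - 2 * (1 - P.al * P.p * P.q) ^ 2 * P.Qx * P.al * P.oi ^ 3
    * P.p * T.d0 P.q - 2 * (1 - P.al * P.p * P.q) ^ 2 * P.Qx * P.oi ^ 2 * P.q * T.d0 P.q * P.u * P.ub
    + (1 - P.al * P.p * P.q) ^ 2 * P.Qx * P.oi ^ 2 * T.d0 P.q * P.u + (1 - P.al * P.p * P.q) ^ 2
    * P.Qx * P.oi ^ 2 * T.d0 P.q * P.ub) * P.hub + (-((1 - P.al ^ 2 * P.q ^ 4) * T.d0 P.k + P.q ^ 2
    * T.d0 P.ep) - ((1 - P.al ^ 2 * P.q ^ 4) * T.d0 P.k + P.q ^ 2 * T.d0 P.ep) * (1 - P.al * P.p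
    * P.q) * P.oi - 2 * (1 - P.al * P.p * P.q) * P.Qx * P.al * P.oi ^ 2 * P.p * T.d0 P.q - 2 * (1
    - P.al * P.p * P.q) * P.Qx * P.oi * P.q * T.d0 P.q * P.u * P.ub + (1 - P.al * P.p * P.q) * P.Qx
    * P.oi * T.d0 P.q * P.u + (1 - P.al * P.p * P.q) * P.Qx * P.oi * T.d0 P.q * P.ub - 2 * P.Qx * P.q
    * T.d0 P.q * P.u * P.ub + P.Qx * T.d0 P.q * P.u + P.Qx * T.d0 P.q * P.ub) * P.hoi) + (-2 * P.Qx
    * (P.q + iA A * P.p) * P.q * T.d0 P.q * P.ub + P.Qx * (P.q + iA A * P.p) * T.d0 P.q) * P.hu + (P.Qx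
    * (P.q - iA A * P.p) * T.d0 P.q - 2 * P.Qx * P.q * T.d0 P.q) * P.hub

theorem K1_1 : (1 - P.al ^ 2 * P.p ^ 4) * T.d1 P.k - P.p ^ 2 * T.d1 P.ep = 0 := by
  have h := congrArg T.d1 P.vpp
  simp only [dmul, dsq, d2n, map_add, map_sub, map_neg, Derivation.map_one_eq_zero, P.kal.k1, P.x0, P.x1,
    P.x2, P.x3, P.u_1, P.ub_1, P.pi_1, P.pb_1, P.dPp T.d1 P.kal.k1 P.km2.k1 P.kn2.k1] at h
  apply P.clr 0 0 0 0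
  linear_combination
    1 * ((-(P.q - iA A * P.p) * (P.q + iA A * P.p) * P.oi ^ 2) * h + (-2 * (P.q - iA A * P.p) * (P.q
    + iA A * P.p) * P.al * P.oi ^ 3 * P.p * T.d1 P.q - (P.q - iA A * P.p) * (P.q + iA A * P.p) * P.oi ^ 2
    * T.d1 P.q * P.u - (P.q - iA A * P.p) * (P.q + iA A * P.p) * P.oi ^ 2 * T.d1 P.q * P.ub) * P.vpp
    + (-((1 - P.al ^ 2 * P.p ^ 4) * T.d1 P.k - P.p ^ 2 * T.d1 P.ep) * (1 - P.al * P.p * P.q) ^ 2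
    * (P.q + iA A * P.p) * P.oi ^ 2 * P.ub + 2 * (1 - P.al * P.p * P.q) * P.Pp * (P.q + iA A * P.p)
    * P.al * P.oi ^ 2 * P.p * T.d1 P.q * P.ub - 2 * (1 - P.al * P.p * P.q) ^ 2 * P.Pp * (P.q + iA A
    * P.p) * P.al * P.oi ^ 3 * P.p * T.d1 P.q * P.ub) * P.hu + (-((1 - P.al ^ 2 * P.p ^ 4) * T.d1 P.k
    - P.p ^ 2 * T.d1 P.ep) * (1 - P.al * P.p * P.q) ^ 2 * P.oi ^ 2 + 2 * (1 - P.al * P.p * P.q) * P.Pp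
    * P.al * P.oi ^ 2 * P.p * T.d1 P.q - 2 * (1 - P.al * P.p * P.q) ^ 2 * P.Pp * P.al * P.oi ^ 3
    * P.p * T.d1 P.q) * P.hub + (-((1 - P.al ^ 2 * P.p ^ 4) * T.d1 P.k - P.p ^ 2 * T.d1 P.ep) - ((1
    - P.al ^ 2 * P.p ^ 4) * T.d1 P.k - P.p ^ 2 * T.d1 P.ep) * (1 - P.al * P.p * P.q) * P.oi - 2 * (1
    - P.al * P.p * P.q) * P.Pp * P.al * P.oi ^ 2 * P.p * T.d1 P.q) * P.hoi)

theorem K2_1 : (1 - P.al ^ 2 * P.q ^ 4) * T.d1 P.k + P.q ^ 2 * T.d1 P.ep = 0 := by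
  have h := congrArg T.d1 P.vss
  simp only [dmul, dsq, d2n, map_add, map_sub, map_neg, Derivation.map_one_eq_zero, P.kal.k1, P.x0, P.x1,
    P.x2, P.x3, P.u_1, P.ub_1, P.s_1, P.s2_1, P.dQx T.d1 P.kal.k1 P.km2.k1 P.kn2.k1, Gs] at h
  apply P.clr 1 1 0 0
  linear_combination
    (P.q - iA A * P.p) * (P.q + iA A * P.p) * (((P.q - iA A * P.p) * (P.q + iA A * P.p) * P.oi ^ 2)
    * h + (2 * (P.q - iA A * P.p) * (P.q + iA A * P.p) * P.al * P.oi ^ 3 * P.p * T.d1 P.q + 2 * (P.q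
    - iA A * P.p) * (P.q + iA A * P.p) * P.oi ^ 2 * P.q * T.d1 P.q * P.u * P.ub) * P.vss + (P.dQ
    * (1 - P.al * P.p * P.q) ^ 2 * (P.q - iA A * P.p) * (P.q + iA A * P.p) * P.oi ^ 2 * T.d1 P.q
    * P.u * P.ub) * hhf (A := A) + (-((1 - P.al ^ 2 * P.q ^ 4) * T.d1 P.k + P.q ^ 2 * T.d1 P.ep)
    * (1 - P.al * P.p * P.q) ^ 2 * (P.q + iA A * P.p) * P.oi ^ 2 * P.ub + 2 * (1 - P.al * P.p * P.q)
    * P.Qx * (P.q + iA A * P.p) * P.al * P.oi ^ 2 * P.p * T.d1 P.q * P.ub - 2 * (1 - P.al * P.p * P.q) ^ 2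
    * P.Qx * (P.q + iA A * P.p) * P.al * P.oi ^ 3 * P.p * T.d1 P.q * P.ub - 2 * (1 - P.al * P.p * P.q) ^ 2
    * P.Qx * (P.q + iA A * P.p) * P.oi ^ 2 * P.q * T.d1 P.q * P.u * P.ub ^ 2 + (1 - P.al * P.p * P.q) ^ 2
    * P.Qx * (P.q + iA A * P.p) * P.oi ^ 2 * T.d1 P.q * P.u * P.ub + (1 - P.al * P.p * P.q) ^ 2 * P.Qx
    * (P.q + iA A * P.p) * P.oi ^ 2 * T.d1 P.q * P.ub ^ 2) * P.hu + (-((1 - P.al ^ 2 * P.q ^ 4) * T.d1 P.k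
    + P.q ^ 2 * T.d1 P.ep) * (1 - P.al * P.p * P.q) ^ 2 * P.oi ^ 2 + 2 * (1 - P.al * P.p * P.q) * P.Qx
    * P.al * P.oi ^ 2 * P.p * T.d1 P.q - 2 * (1 - P.al * P.p * P.q) ^ 2 * P.Qx * P.al * P.oi ^ 3
    * P.p * T.d1 P.q - 2 * (1 - P.al * P.p * P.q) ^ 2 * P.Qx * P.oi ^ 2 * P.q * T.d1 P.q * P.u * P.ub
    + (1 - P.al * P.p * P.q) ^ 2 * P.Qx * P.oi ^ 2 * T.d1 P.q * P.u + (1 - P.al * P.p * P.q) ^ 2
    * P.Qx * P.oi ^ 2 * T.d1 P.q * P.ub) * P.hub + (-((1 - P.al ^ 2 * P.q ^ 4) * T.d1 P.k + P.q ^ 2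
    * T.d1 P.ep) - ((1 - P.al ^ 2 * P.q ^ 4) * T.d1 P.k + P.q ^ 2 * T.d1 P.ep) * (1 - P.al * P.p
    * P.q) * P.oi - 2 * (1 - P.al * P.p * P.q) * P.Qx * P.al * P.oi ^ 2 * P.p * T.d1 P.q - 2 * (1
    - P.al * P.p * P.q) * P.Qx * P.oi * P.q * T.d1 P.q * P.u * P.ub + (1 - P.al * P.p * P.q) * P.Qx
    * P.oi * T.d1 P.q * P.u + (1 - P.al * P.p * P.q) * P.Qx * P.oi * T.d1 P.q * P.ub - 2 * P.Qx * P.q
    * T.d1 P.q * P.u * P.ub + P.Qx * T.d1 P.q * P.u + P.Qx * T.d1 P.q * P.ub) * P.hoi) + (-2 * P.Qx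
    * (P.q + iA A * P.p) * P.q * T.d1 P.q * P.ub + P.Qx * (P.q + iA A * P.p) * T.d1 P.q) * P.hu + (P.Qx
    * (P.q - iA A * P.p) * T.d1 P.q - 2 * P.Qx * P.q * T.d1 P.q) * P.hub

theorem K1_2 : (1 - P.al ^ 2 * P.p ^ 4) * T.d2 P.k - P.p ^ 2 * T.d2 P.ep = 0 := by
  have h := congrArg T.d2 P.vpp
  simp only [dmul, dsq, d2n, map_add, map_sub, map_neg, Derivation.map_one_eq_zero, P.kal.k2, P.x0, P.x1,
    P.x2, P.x3, P.u_2, P.ub_2, P.pi_2, P.pb_2, P.dPp T.d2 P.kal.k2 P.km2.k2 P.kn2.k2, Hs] at h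
  apply P.clr 1 1 0 0
  linear_combination
    (P.q - iA A * P.p) * (P.q + iA A * P.p) * ((-(P.q - iA A * P.p) * (P.q + iA A * P.p) * P.oi ^ 2)
    * h + (-2 * (P.q - iA A * P.p) * (P.q + iA A * P.p) * P.al * P.oi ^ 3 * T.d2 P.p * P.q - 2 * (P.q
    - iA A * P.p) * (P.q + iA A * P.p) * P.oi ^ 2 * P.p * T.d2 P.p * P.u * P.ub) * P.vpp + (P.dP
    * (1 - P.al * P.p * P.q) ^ 2 * (P.q - iA A * P.p) * (P.q + iA A * P.p) * P.oi ^ 2 * T.d2 P.p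
    * P.u * P.ub) * hhf (A := A) + (-((1 - P.al ^ 2 * P.p ^ 4) * T.d2 P.k - P.p ^ 2 * T.d2 P.ep)
    * (1 - P.al * P.p * P.q) ^ 2 * (P.q + iA A * P.p) * P.oi ^ 2 * P.ub + 2 * (1 - P.al * P.p * P.q)
    * P.Pp * (P.q + iA A * P.p) * P.al * P.oi ^ 2 * T.d2 P.p * P.q * P.ub - 2 * (1 - P.al * P.p * P.q) ^ 2
    * P.Pp * (P.q + iA A * P.p) * P.al * P.oi ^ 3 * T.d2 P.p * P.q * P.ub - (1 - P.al * P.p * P.q) ^ 2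
    * P.Pp * (P.q + iA A * P.p) * iA A * P.oi ^ 2 * T.d2 P.p * P.u * P.ub + (1 - P.al * P.p * P.q) ^ 2
    * P.Pp * (P.q + iA A * P.p) * iA A * P.oi ^ 2 * T.d2 P.p * P.ub ^ 2 - 2 * (1 - P.al * P.p * P.q) ^ 2
    * P.Pp * (P.q + iA A * P.p) * P.oi ^ 2 * P.p * T.d2 P.p * P.u * P.ub ^ 2) * P.hu + (-((1 - P.al ^ 2
    * P.p ^ 4) * T.d2 P.k - P.p ^ 2 * T.d2 P.ep) * (1 - P.al * P.p * P.q) ^ 2 * P.oi ^ 2 + 2 * (1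
    - P.al * P.p * P.q) * P.Pp * P.al * P.oi ^ 2 * T.d2 P.p * P.q - 2 * (1 - P.al * P.p * P.q) ^ 2
    * P.Pp * P.al * P.oi ^ 3 * T.d2 P.p * P.q - (1 - P.al * P.p * P.q) ^ 2 * P.Pp * iA A * P.oi ^ 2
    * T.d2 P.p * P.u + (1 - P.al * P.p * P.q) ^ 2 * P.Pp * iA A * P.oi ^ 2 * T.d2 P.p * P.ub - 2
    * (1 - P.al * P.p * P.q) ^ 2 * P.Pp * P.oi ^ 2 * P.p * T.d2 P.p * P.u * P.ub) * P.hub + (-((1
    - P.al ^ 2 * P.p ^ 4) * T.d2 P.k - P.p ^ 2 * T.d2 P.ep) - ((1 - P.al ^ 2 * P.p ^ 4) * T.d2 P.k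
    - P.p ^ 2 * T.d2 P.ep) * (1 - P.al * P.p * P.q) * P.oi - 2 * (1 - P.al * P.p * P.q) * P.Pp * P.al
    * P.oi ^ 2 * T.d2 P.p * P.q - (1 - P.al * P.p * P.q) * P.Pp * iA A * P.oi * T.d2 P.p * P.u + (1
    - P.al * P.p * P.q) * P.Pp * iA A * P.oi * T.d2 P.p * P.ub - 2 * (1 - P.al * P.p * P.q) * P.Pp
    * P.oi * P.p * T.d2 P.p * P.u * P.ub - P.Pp * iA A * T.d2 P.p * P.u + P.Pp * iA A * T.d2 P.p
    * P.ub - 2 * P.Pp * P.p * T.d2 P.p * P.u * P.ub) * P.hoi) + (-P.Pp * (P.q + iA A * P.p) * iA A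
    * T.d2 P.p - 2 * P.Pp * (P.q + iA A * P.p) * P.p * T.d2 P.p * P.ub) * P.hu + (P.Pp * (P.q - iA A
    * P.p) * iA A * T.d2 P.p - 2 * P.Pp * P.p * T.d2 P.p) * P.hub + (-2 * P.Pp * P.p * T.d2 P.p)
    * iA_sq (A := A)

theorem K2_2 : (1 - P.al ^ 2 * P.q ^ 4) * T.d2 P.k + P.q ^ 2 * T.d2 P.ep = 0 := by
  have h := congrArg T.d2 P.vss
  simp only [dmul, dsq, d2n, map_add, map_sub, map_neg, Derivation.map_one_eq_zero, P.kal.k2, P.x0, P.x1,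
    P.x2, P.x3, P.u_2, P.ub_2, P.s_2, P.s2_2, P.dQx T.d2 P.kal.k2 P.km2.k2 P.kn2.k2] at h
  apply P.clr 0 0 0 0
  linear_combination
    1 * (((P.q - iA A * P.p) * (P.q + iA A * P.p) * P.oi ^ 2) * h + (2 * (P.q - iA A * P.p) * (P.q
    + iA A * P.p) * P.al * P.oi ^ 3 * T.d2 P.p * P.q - (P.q - iA A * P.p) * (P.q + iA A * P.p) * iA A
    * P.oi ^ 2 * T.d2 P.p * P.u + (P.q - iA A * P.p) * (P.q + iA A * P.p) * iA A * P.oi ^ 2 * T.d2 P.p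
    * P.ub) * P.vss + (-((1 - P.al ^ 2 * P.q ^ 4) * T.d2 P.k + P.q ^ 2 * T.d2 P.ep) * (1 - P.al * P.p
    * P.q) ^ 2 * (P.q + iA A * P.p) * P.oi ^ 2 * P.ub + 2 * (1 - P.al * P.p * P.q) * P.Qx * (P.q
    + iA A * P.p) * P.al * P.oi ^ 2 * T.d2 P.p * P.q * P.ub - 2 * (1 - P.al * P.p * P.q) ^ 2 * P.Qx
    * (P.q + iA A * P.p) * P.al * P.oi ^ 3 * T.d2 P.p * P.q * P.ub) * P.hu + (-((1 - P.al ^ 2 * P.q ^ 4)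
    * T.d2 P.k + P.q ^ 2 * T.d2 P.ep) * (1 - P.al * P.p * P.q) ^ 2 * P.oi ^ 2 + 2 * (1 - P.al * P.p
    * P.q) * P.Qx * P.al * P.oi ^ 2 * T.d2 P.p * P.q - 2 * (1 - P.al * P.p * P.q) ^ 2 * P.Qx * P.al
    * P.oi ^ 3 * T.d2 P.p * P.q) * P.hub + (-((1 - P.al ^ 2 * P.q ^ 4) * T.d2 P.k + P.q ^ 2 * T.d2 P.ep)
    - ((1 - P.al ^ 2 * P.q ^ 4) * T.d2 P.k + P.q ^ 2 * T.d2 P.ep) * (1 - P.al * P.p * P.q) * P.oi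
    - 2 * (1 - P.al * P.p * P.q) * P.Qx * P.al * P.oi ^ 2 * T.d2 P.p * P.q) * P.hoi)

theorem K1_3 : (1 - P.al ^ 2 * P.p ^ 4) * T.d3 P.k - P.p ^ 2 * T.d3 P.ep = 0 := by
  have h := congrArg T.d3 P.vpp
  simp only [dmul, dsq, d2n, map_add, map_sub, map_neg, Derivation.map_one_eq_zero, P.kal.k3, P.x0, P.x1,
    P.x2, P.x3, P.u_3, P.ub_3, P.pi_3, P.pb_3, P.dPp T.d3 P.kal.k3 P.km2.k3 P.kn2.k3, Hs] at h
  apply P.clr 1 1 0 0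
  linear_combination
    (P.q - iA A * P.p) * (P.q + iA A * P.p) * ((-(P.q - iA A * P.p) * (P.q + iA A * P.p) * P.oi ^ 2)
    * h + (-2 * (P.q - iA A * P.p) * (P.q + iA A * P.p) * P.al * P.oi ^ 3 * T.d3 P.p * P.q - 2 * (P.q
    - iA A * P.p) * (P.q + iA A * P.p) * P.oi ^ 2 * P.p * T.d3 P.p * P.u * P.ub) * P.vpp + (P.dP
    * (1 - P.al * P.p * P.q) ^ 2 * (P.q - iA A * P.p) * (P.q + iA A * P.p) * P.oi ^ 2 * T.d3 P.p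
    * P.u * P.ub) * hhf (A := A) + (-((1 - P.al ^ 2 * P.p ^ 4) * T.d3 P.k - P.p ^ 2 * T.d3 P.ep)
    * (1 - P.al * P.p * P.q) ^ 2 * (P.q + iA A * P.p) * P.oi ^ 2 * P.ub + 2 * (1 - P.al * P.p * P.q)
    * P.Pp * (P.q + iA A * P.p) * P.al * P.oi ^ 2 * T.d3 P.p * P.q * P.ub - 2 * (1 - P.al * P.p * P.q) ^ 2
    * P.Pp * (P.q + iA A * P.p) * P.al * P.oi ^ 3 * T.d3 P.p * P.q * P.ub - (1 - P.al * P.p * P.q) ^ 2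
    * P.Pp * (P.q + iA A * P.p) * iA A * P.oi ^ 2 * T.d3 P.p * P.u * P.ub + (1 - P.al * P.p * P.q) ^ 2
    * P.Pp * (P.q + iA A * P.p) * iA A * P.oi ^ 2 * T.d3 P.p * P.ub ^ 2 - 2 * (1 - P.al * P.p * P.q) ^ 2
    * P.Pp * (P.q + iA A * P.p) * P.oi ^ 2 * P.p * T.d3 P.p * P.u * P.ub ^ 2) * P.hu + (-((1 - P.al ^ 2
    * P.p ^ 4) * T.d3 P.k - P.p ^ 2 * T.d3 P.ep) * (1 - P.al * P.p * P.q) ^ 2 * P.oi ^ 2 + 2 * (1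
    - P.al * P.p * P.q) * P.Pp * P.al * P.oi ^ 2 * T.d3 P.p * P.q - 2 * (1 - P.al * P.p * P.q) ^ 2
    * P.Pp * P.al * P.oi ^ 3 * T.d3 P.p * P.q - (1 - P.al * P.p * P.q) ^ 2 * P.Pp * iA A * P.oi ^ 2
    * T.d3 P.p * P.u + (1 - P.al * P.p * P.q) ^ 2 * P.Pp * iA A * P.oi ^ 2 * T.d3 P.p * P.ub - 2
    * (1 - P.al * P.p * P.q) ^ 2 * P.Pp * P.oi ^ 2 * P.p * T.d3 P.p * P.u * P.ub) * P.hub + (-((1
    - P.al ^ 2 * P.p ^ 4) * T.d3 P.k - P.p ^ 2 * T.d3 P.ep) - ((1 - P.al ^ 2 * P.p ^ 4) * T.d3 P.k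
    - P.p ^ 2 * T.d3 P.ep) * (1 - P.al * P.p * P.q) * P.oi - 2 * (1 - P.al * P.p * P.q) * P.Pp * P.al
    * P.oi ^ 2 * T.d3 P.p * P.q - (1 - P.al * P.p * P.q) * P.Pp * iA A * P.oi * T.d3 P.p * P.u + (1
    - P.al * P.p * P.q) * P.Pp * iA A * P.oi * T.d3 P.p * P.ub - 2 * (1 - P.al * P.p * P.q) * P.Pp
    * P.oi * P.p * T.d3 P.p * P.u * P.ub - P.Pp * iA A * T.d3 P.p * P.u + P.Pp * iA A * T.d3 P.p
    * P.ub - 2 * P.Pp * P.p * T.d3 P.p * P.u * P.ub) * P.hoi) + (-P.Pp * (P.q + iA A * P.p) * iA A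
    * T.d3 P.p - 2 * P.Pp * (P.q + iA A * P.p) * P.p * T.d3 P.p * P.ub) * P.hu + (P.Pp * (P.q - iA A
    * P.p) * iA A * T.d3 P.p - 2 * P.Pp * P.p * T.d3 P.p) * P.hub + (-2 * P.Pp * P.p * T.d3 P.p)
    * iA_sq (A := A)

theorem K2_3 : (1 - P.al ^ 2 * P.q ^ 4) * T.d3 P.k + P.q ^ 2 * T.d3 P.ep = 0 := by
  have h := congrArg T.d3 P.vss
  simp only [dmul, dsq, d2n, map_add, map_sub, map_neg, Derivation.map_one_eq_zero, P.kal.k3, P.x0, P.x1,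
    P.x2, P.x3, P.u_3, P.ub_3, P.s_3, P.s2_3, P.dQx T.d3 P.kal.k3 P.km2.k3 P.kn2.k3] at h
  apply P.clr 0 0 0 0
  linear_combination
    1 * (((P.q - iA A * P.p) * (P.q + iA A * P.p) * P.oi ^ 2) * h + (2 * (P.q - iA A * P.p) * (P.q
    + iA A * P.p) * P.al * P.oi ^ 3 * T.d3 P.p * P.q - (P.q - iA A * P.p) * (P.q + iA A * P.p) * iA A
    * P.oi ^ 2 * T.d3 P.p * P.u + (P.q - iA A * P.p) * (P.q + iA A * P.p) * iA A * P.oi ^ 2 * T.d3 P.p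
    * P.ub) * P.vss + (-((1 - P.al ^ 2 * P.q ^ 4) * T.d3 P.k + P.q ^ 2 * T.d3 P.ep) * (1 - P.al * P.p
    * P.q) ^ 2 * (P.q + iA A * P.p) * P.oi ^ 2 * P.ub + 2 * (1 - P.al * P.p * P.q) * P.Qx * (P.q
    + iA A * P.p) * P.al * P.oi ^ 2 * T.d3 P.p * P.q * P.ub - 2 * (1 - P.al * P.p * P.q) ^ 2 * P.Qx
    * (P.q + iA A * P.p) * P.al * P.oi ^ 3 * T.d3 P.p * P.q * P.ub) * P.hu + (-((1 - P.al ^ 2 * P.q ^ 4)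
    * T.d3 P.k + P.q ^ 2 * T.d3 P.ep) * (1 - P.al * P.p * P.q) ^ 2 * P.oi ^ 2 + 2 * (1 - P.al * P.p
    * P.q) * P.Qx * P.al * P.oi ^ 2 * T.d3 P.p * P.q - 2 * (1 - P.al * P.p * P.q) ^ 2 * P.Qx * P.al
    * P.oi ^ 3 * T.d3 P.p * P.q) * P.hub + (-((1 - P.al ^ 2 * P.q ^ 4) * T.d3 P.k + P.q ^ 2 * T.d3 P.ep)
    - ((1 - P.al ^ 2 * P.q ^ 4) * T.d3 P.k + P.q ^ 2 * T.d3 P.ep) * (1 - P.al * P.p * P.q) * P.oi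
    - 2 * (1 - P.al * P.p * P.q) * P.Qx * P.al * P.oi ^ 2 * T.d3 P.p * P.q) * P.hoi)

theorem KK {x y : A} (h1 : (1 - P.al ^ 2 * P.p ^ 4) * x - P.p ^ 2 * y = 0)
    (h2 : (1 - P.al ^ 2 * P.q ^ 4) * x + P.q ^ 2 * y = 0) : x = 0 ∧ y = 0 := by
  constructor
  · linear_combination (P.u * P.ub * P.oi * P.oj) * (P.q ^ 2 * h1 + P.p ^ 2 * h2) - x * P.hSS
  · linear_combination (P.u * P.ub * P.oi * P.oj) * ((1 - P.al ^ 2 * P.p ^ 4) * h2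
      - (1 - P.al ^ 2 * P.q ^ 4) * h1) - y * P.hSS

theorem Hs0 : T.H (T.d0 P.q) = T.d0 P.q := by rw [T.H0, P.Hq, map_zero, zero_add]
theorem Hs2 : T.H (T.d1 P.q) = -T.d1 P.q := by rw [T.H1, P.Hq, map_zero, zero_sub]
theorem Hpi : T.H (T.d2 P.p) = T.d2 P.p := by rw [T.H2, P.Hp, map_zero, zero_add]
theorem Hpb : T.H (T.d3 P.p) = -T.d3 P.p := by rw [T.H3, P.Hp, map_zero, zero_sub]
theorem Hbs0 : T.Hb (T.d0 P.q) = T.d0 P.q := by rw [T.Hb0, P.Hbq, map_zero, zero_add]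
theorem Hbs2 : T.Hb (T.d1 P.q) = -T.d1 P.q := by rw [T.Hb1, P.Hbq, map_zero, zero_sub]
theorem Hbpi : T.Hb (T.d2 P.p) = -T.d2 P.p := by rw [T.Hb2, P.Hbp, map_zero, zero_sub]
theorem Hbpb : T.Hb (T.d3 P.p) = T.d3 P.p := by rw [T.Hb3, P.Hbp, map_zero, zero_add]
theorem Hu : T.H P.u = 0 := by rw [P.du, P.Hp, P.Hq]; ring
theorem Hub : T.H P.ub = 0 := by rw [P.dub, P.Hp, P.Hq]; ring
theorem Hoi : T.H P.oi = 0 := by rw [P.doi _ P.kal.kH, P.Hp, P.Hq]; ring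
theorem Hbu : T.Hb P.u = 0 := by rw [P.du, P.Hbp, P.Hbq]; ring
theorem Hbub : T.Hb P.ub = 0 := by rw [P.dub, P.Hbp, P.Hbq]; ring
theorem Hboi : T.Hb P.oi = 0 := by rw [P.doi _ P.kal.kHb, P.Hbp, P.Hbq]; ring
theorem Hsv : T.H P.sv = P.sv := by
  rw [dinv T.H P.hsv, P.Hs2]; linear_combination P.sv * P.hsv
theorem Hbsv : T.Hb P.sv = P.sv := by
  rw [dinv T.Hb P.hsv, P.Hbs2]; linear_combination P.sv * P.hsv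

theorem HPp : T.H P.Pp = 0 := by
  rw [P.vP]; simp only [dmul, dsq, d2n, map_add, P.Hpi, P.Hpb, P.Hp, P.Hq, P.Hoi]; ring
theorem HQx : T.H P.Qx = 0 := by
  rw [P.vQ]; simp only [dmul, dsq, d2n, map_add, map_neg, P.Hs0, P.Hs2, P.Hp, P.Hq, P.Hoi]; ring

theorem KH : T.H P.k = 0 ∧ T.H P.ep = 0 := by
  have h1 := P.dPp T.H P.kal.kH P.km2.kH P.kn2.kH
  have h2 := P.dQx T.H P.kal.kH P.km2.kH P.kn2.kH
  rw [P.HPp, P.Hp] at h1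
  rw [P.HQx, P.Hq] at h2
  exact P.KK (by linear_combination -h1) (by linear_combination -h2)

/-- `k` is a first integral. -/
theorem kk : T.Const P.k where
  k0 := (P.KK P.K1_0 P.K2_0).1
  k1 := (P.KK P.K1_1 P.K2_1).1
  k2 := (P.KK P.K1_2 P.K2_2).1
  k3 := (P.KK P.K1_3 P.K2_3).1
  kH := P.KH.1
  kHb := by rw [← P.sk, T.Hbs, P.KH.1, star_zero]

/-- `ε` is a first integral. -/
theorem kep : T.Const P.ep where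
  k0 := (P.KK P.K1_0 P.K2_0).2
  k1 := (P.KK P.K1_1 P.K2_1).2
  k2 := (P.KK P.K1_2 P.K2_2).2
  k3 := (P.KK P.K1_3 P.K2_3).2
  kH := P.KH.2
  kHb := by rw [← P.sep, T.Hbs, P.KH.2, star_zero]

end PX
end Vale.Agent.P354NP
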