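import Vale.Agent.P354NP.TD

namespace Vale.Agent.P354NP

variable {A : Type*} [CommRing A] [StarRing A] [Algebra ℂ A]

namespace TD
variable (T : TD A)

/-- The six derivations. -/
def D : Fin 6 → Derivation ℂ A A := ![T.d0, T.d1, T.d2, T.d3, T.H, T.Hb]

theorem D_v : T.D 0 = T.d0 ∧ T.D 1 = T.d1 ∧ T.D 2 = T.d2 ∧ T.D 3 = T.d3 ∧ T.D 4 = T.H ∧
    T.D 5 = T.Hb := ⟨rfl, rfl, rfl, rfl, rfl, rfl⟩

/-- Structure functions above the diagonal. -/
def up : Fin 6 → Fin 6 → Fin 6 → A :=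
  ![![0, ![0, 0, star T.t - T.t2, T.t - star T.t2, -(T.zi ^ 3 - T.t * T.t2),
      -(star T.zi ^ 3 - star T.t * star T.t2)],
    ![-star T.t2, 0, star T.r, 0, 0, star T.r * star T.t2],
    ![-T.t2, 0, 0, T.r, T.r * T.t2, 0],
    ![-1, 0, 0, 0, 0, 0],
    ![-1, 0, 0, 0, 0, 0]],
  ![0, 0, ![0, -T.t, T.r2, 0, -(T.r2 * T.t), 0],
    ![0, -star T.t, 0, star T.r2, 0, -(star T.r2 * star T.t)],
    ![0, 1, 0, 0, 0, 0],
    ![0, 1, 0, 0, 0, 0]],
  ![0, 0, 0, ![star T.r2 - T.r2, T.r - star T.r, 0, 0, T.r * T.r2 + T.zi ^ 3,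
      -(star T.r * star T.r2 + star T.zi ^ 3)],
    ![0, 0, -1, 0, 0, 0],
    ![0, 0, 1, 0, 0, 0]],
  ![0, 0, 0, 0, ![0, 0, 0, 1, 0, 0],
    ![0, 0, 0, -1, 0, 0]],
  ![0, 0, 0, 0, 0, ![0, 0, 0, 0, 0, 0]],
  ![0, 0, 0, 0, 0, 0]]

/-- Structure functions of the frame. -/
def cc (a b k : Fin 6) : A := T.up a b k - T.up b a k

/-- The exterior derivative of a one form given by its values on the frame. -/
def ext (m : Fin 6 → A) (a b : Fin 6) : A :=
  T.D a (m b) - T.D b (m a) - ∑ k, T.cc a b k * m k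

theorem ext_anti (m : Fin 6 → A) (a b : Fin 6) : T.ext m b a = -T.ext m a b := by
  simp only [ext, cc, Fin.sum_univ_six]; ring

theorem ext01 (m : Fin 6 → A) : T.ext m 0 1 = T.d0 (m 1) - T.d1 (m 0)
    - ((star T.t - T.t2) * m 2 + (T.t - star T.t2) * m 3
      + (-(T.zi ^ 3 - T.t * T.t2)) * m 4
      + (-(star T.zi ^ 3 - star T.t * star T.t2)) * m 5) := by
  simp [ext, cc, up, D, Fin.sum_univ_six]
theorem ext02 (m : Fin 6 → A) : T.ext m 0 2 = T.d0 (m 2) - T.d2 (m 0)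
    - ((-star T.t2) * m 0 + (star T.r) * m 2 + (star T.r * star T.t2) * m 5) := by
  simp [ext, cc, up, D, Fin.sum_univ_six]
theorem ext03 (m : Fin 6 → A) : T.ext m 0 3 = T.d0 (m 3) - T.d3 (m 0)
    - ((-T.t2) * m 0 + (T.r) * m 3 + (T.r * T.t2) * m 4) := by
  simp [ext, cc, up, D, Fin.sum_univ_six]
theorem ext04 (m : Fin 6 → A) : T.ext m 0 4 = T.d0 (m 4) - T.H (m 0)
    - ((-1) * m 0) := by
  simp [ext, cc, up, D, Fin.sum_univ_six]
theorem ext05 (m : Fin 6 → A) : T.ext m 0 5 = T.d0 (m 5) - T.Hb (m 0)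
    - ((-1) * m 0) := by
  simp [ext, cc, up, D, Fin.sum_univ_six]
theorem ext12 (m : Fin 6 → A) : T.ext m 1 2 = T.d1 (m 2) - T.d2 (m 1)
    - ((-T.t) * m 1 + (T.r2) * m 2 + (-(T.r2 * T.t)) * m 4) := by
  simp [ext, cc, up, D, Fin.sum_univ_six]
theorem ext13 (m : Fin 6 → A) : T.ext m 1 3 = T.d1 (m 3) - T.d3 (m 1)
    - ((-star T.t) * m 1 + (star T.r2) * m 3 + (-(star T.r2 * star T.t)) * m 5) := by
  simp [ext, cc, up, D, Fin.sum_univ_six]
theorem ext14 (m : Fin 6 → A) : T.ext m 1 4 = T.d1 (m 4) - T.H (m 1)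
    - ((1) * m 1) := by
  simp [ext, cc, up, D, Fin.sum_univ_six]
theorem ext15 (m : Fin 6 → A) : T.ext m 1 5 = T.d1 (m 5) - T.Hb (m 1)
    - ((1) * m 1) := by
  simp [ext, cc, up, D, Fin.sum_univ_six]
theorem ext23 (m : Fin 6 → A) : T.ext m 2 3 = T.d2 (m 3) - T.d3 (m 2)
    - ((star T.r2 - T.r2) * m 0 + (T.r - star T.r) * m 1
      + (T.r * T.r2 + T.zi ^ 3) * m 4 + (-(star T.r * star T.r2 + star T.zi ^ 3)) * m 5) := by
  simp [ext, cc, up, D, Fin.sum_univ_six]
theorem ext24 (m : Fin 6 → A) : T.ext m 2 4 = T.d2 (m 4) - T.H (m 2)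
    - ((-1) * m 2) := by
  simp [ext, cc, up, D, Fin.sum_univ_six]
theorem ext25 (m : Fin 6 → A) : T.ext m 2 5 = T.d2 (m 5) - T.Hb (m 2)
    - ((1) * m 2) := by
  simp [ext, cc, up, D, Fin.sum_univ_six]
theorem ext34 (m : Fin 6 → A) : T.ext m 3 4 = T.d3 (m 4) - T.H (m 3)
    - ((1) * m 3) := by
  simp [ext, cc, up, D, Fin.sum_univ_six]
theorem ext35 (m : Fin 6 → A) : T.ext m 3 5 = T.d3 (m 5) - T.Hb (m 3)
    - ((-1) * m 3) := by
  simp [ext, cc, up, D, Fin.sum_univ_six]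
theorem ext45 (m : Fin 6 → A) : T.ext m 4 5 = T.H (m 5) - T.Hb (m 4)
    - (0) := by
  simp [ext, cc, up, D, Fin.sum_univ_six]

theorem ext_eq (m : Fin 6 → A) (g : A) (v : Fin 6 → Fin 6 → A)
    (h01 : T.ext m 0 1 = g * (v 0 1 - v 1 0))
    (h02 : T.ext m 0 2 = g * (v 0 2 - v 2 0))
    (h03 : T.ext m 0 3 = g * (v 0 3 - v 3 0))
    (h04 : T.ext m 0 4 = g * (v 0 4 - v 4 0))
    (h05 : T.ext m 0 5 = g * (v 0 5 - v 5 0))
    (h12 : T.ext m 1 2 = g * (v 1 2 - v 2 1))
    (h13 : T.ext m 1 3 = g * (v 1 3 - v 3 1))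
    (h14 : T.ext m 1 4 = g * (v 1 4 - v 4 1))
    (h15 : T.ext m 1 5 = g * (v 1 5 - v 5 1))
    (h23 : T.ext m 2 3 = g * (v 2 3 - v 3 2))
    (h24 : T.ext m 2 4 = g * (v 2 4 - v 4 2))
    (h25 : T.ext m 2 5 = g * (v 2 5 - v 5 2))
    (h34 : T.ext m 3 4 = g * (v 3 4 - v 4 3))
    (h35 : T.ext m 3 5 = g * (v 3 5 - v 5 3))
    (h45 : T.ext m 4 5 = g * (v 4 5 - v 5 4))
    (a b : Fin 6) : T.ext m a b = g * (v a b - v b a) := by
  have key : ∀ a b : Fin 6, T.ext m a b = g * (v a b - v b a) →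
      T.ext m b a = g * (v b a - v a b) := fun a b h => by rw [T.ext_anti, h]; ring
  have dg : ∀ a : Fin 6, T.ext m a a = g * (v a a - v a a) := fun a => by
    simp only [ext, cc, sub_self, zero_mul, Finset.sum_const_zero, mul_zero]
  fin_cases a <;> fin_cases b
  · exact dg 0
  · exact h01
  · exact h02
  · exact h03
  · exact h04
  · exact h05
  · exact key _ _ h01
  · exact dg 1
  · exact h12
  · exact h13
  · exact h14
  · exact h15
  · exact key _ _ h02
  · exact key _ _ h12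
  · exact dg 2
  · exact h23
  · exact h24
  · exact h25
  · exact key _ _ h03
  · exact key _ _ h13
  · exact key _ _ h23
  · exact dg 3
  · exact h34
  · exact h35
  · exact key _ _ h04
  · exact key _ _ h14
  · exact key _ _ h24
  · exact key _ _ h34
  · exact dg 4
  · exact h45
  · exact key _ _ h05
  · exact key _ _ h15
  · exact key _ _ h25
  · exact key _ _ h35
  · exact key _ _ h45
  · exact dg 5

/-- Exact forms are closed. -/
theorem ext_d (f : A) (a b : Fin 6) : T.ext (fun k => T.D k f) a b = 0 := by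
  have h := T.ext_eq (fun k => T.D k f) 0 0
    (by simp only [T.ext01, T.D_v]; linear_combination T.c01 f)
    (by simp only [T.ext02, T.D_v]; linear_combination T.c02 f)
    (by simp only [T.ext03, T.D_v]; linear_combination T.c03 f)
    (by simp only [T.ext04, T.D_v]; linear_combination -T.H0 f)
    (by simp only [T.ext05, T.D_v]; linear_combination -T.Hb0 f)
    (by simp only [T.ext12, T.D_v]; linear_combination T.c12 f)
    (by simp only [T.ext13, T.D_v]; linear_combination T.c13 f)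
    (by simp only [T.ext14, T.D_v]; linear_combination -T.H1 f)
    (by simp only [T.ext15, T.D_v]; linear_combination -T.Hb1 f)
    (by simp only [T.ext23, T.D_v]; linear_combination T.c23 f)
    (by simp only [T.ext24, T.D_v]; linear_combination -T.H2 f)
    (by simp only [T.ext25, T.D_v]; linear_combination -T.Hb2 f)
    (by simp only [T.ext34, T.D_v]; linear_combination -T.H3 f)
    (by simp only [T.ext35, T.D_v]; linear_combination -T.Hb3 f)
    (by simp only [T.ext45, T.D_v]; linear_combination T.HH f)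
    a b
  rwa [zero_mul] at h

theorem comm (a b : Fin 6) (f : A) :
    T.D a (T.D b f) - T.D b (T.D a f) = ∑ k, T.cc a b k * T.D k f :=
  sub_eq_zero.mp (T.ext_d f a b)

theorem ext_add (m n : Fin 6 → A) (a b : Fin 6) :
    T.ext (m + n) a b = T.ext m a b + T.ext n a b := by
  simp only [ext, Pi.add_apply, map_add, Fin.sum_univ_six]; ring

theorem ext_smul (g : A) (m : Fin 6 → A) (a b : Fin 6) :
    T.ext (g • m) a b = g * T.ext m a b + (T.D a g * m b - T.D b g * m a) := by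
  simp only [ext, Pi.smul_apply, smul_eq_mul, dmul, Fin.sum_univ_six]; ring

/-- The field with given components. -/
def V (x : Fin 6 → A) : Derivation ℂ A A := ∑ k, x k • T.D k

theorem V_ap (x : Fin 6 → A) (f : A) : T.V x f = ∑ k, x k * T.D k f := by
  simp only [V, Fin.sum_univ_six, Derivation.add_apply, Derivation.smul_apply, smul_eq_mul]

/-- The bracket of two fields, in components. -/
def br (x y : Fin 6 → A) (k : Fin 6) : A :=
  T.V x (y k) - T.V y (x k) + ∑ a, ∑ b, x a * y b * T.cc a b k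

/-- The exterior derivative is tensorial. -/
theorem ext_V (m x y : Fin 6 → A) :
    T.V x (∑ k, y k * m k) - T.V y (∑ k, x k * m k) - ∑ k, T.br x y k * m k
      = ∑ a, ∑ b, x a * y b * T.ext m a b := by
  simp only [br, ext, V_ap, Fin.sum_univ_six, map_add, dmul]; ring

theorem V_comm (x y : Fin 6 → A) (f : A) :
    T.V x (T.V y f) - T.V y (T.V x f) = T.V (T.br x y) f := by
  have h := T.ext_V (fun k => T.D k f) x y
  simp only [T.ext_d, mul_zero, Finset.sum_const_zero] at h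
  rw [T.V_ap y f, T.V_ap x f, T.V_ap (T.br x y) f]
  exact sub_eq_zero.mp h

end TD
end Vale.Agent.P354NP
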