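import Vale.Agent.P354NP.Cst
import Vale.Agent.P354NP.Ext

set_option linter.unusedSimpArgs false

namespace Vale.Agent.P354NP

variable {A : Type*} [CommRing A] [StarRing A] [Algebra ℂ A]

namespace PX
open PD
variable {T : TD A} (P : PX T)

theorem vpsb : 2 * star T.zi ^ 3 = -(P.m2 + iA A * P.n2) * ((1 - P.al * P.p * P.q) * P.ub) ^ 3 := by
  have h := congrArg star P.vps
  simp only [star_mul', star_sub, star_neg, star_pow, star_one, star_ofNat, P.si, P.sp, P.sq, P.sal,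
    P.su, P.sm2, P.sn2] at h
  linear_combination h

theorem ddPp (D : Derivation ℂ A A) (ha : D P.al = 0) (hm : D P.m2 = 0) (hn : D P.n2 = 0)
    (hk : D P.k = 0) (he : D P.ep = 0) : D P.dP = P.ddP * D P.p := by
  simp only [ddP, dP, map_add, map_sub, dmul, dsq, dcu, d2n, d3n, d4n, ha, hm, hn, hk, he]; ring

theorem tab0 :
    T.d0 P.al = 0 ∧
    T.d0 P.p = 0 ∧
    T.d0 P.u = -T.d0 P.q * P.u ^ 2 ∧
    T.d0 P.ub = -T.d0 P.q * P.ub ^ 2 ∧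
    T.d0 P.oi = P.al * P.oi ^ 2 * P.p * T.d0 P.q ∧
    T.d0 (T.d0 P.q) = -2 * P.al * P.oi * P.p * T.d0 P.q ^ 2 ∧
    T.d0 (T.d1 P.q) = P.Gs ∧
    T.d0 (T.d2 P.p) = -P.al * P.oi * P.p * T.d2 P.p * T.d0 P.q - T.d2 P.p * T.d0 P.q * P.ub ∧
    T.d0 (T.d3 P.p) = -P.al * P.oi * P.p * T.d3 P.p * T.d0 P.q - T.d3 P.p * T.d0 P.q * P.u ∧
    T.d0 P.sv = -P.Gs * P.sv ^ 2 ∧
    T.d0 P.Pp = 0 ∧
    T.d0 P.dP = 0 :=
  ⟨P.kal.k0,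
    P.x0,
    P.u_0,
    P.ub_0,
    P.oi_0,
    P.s_0,
    P.s2_0,
    P.pi_0,
    P.pb_0,
    (by rw [dinv T.d0 P.hsv, P.s2_0]; ring),
    (by rw [P.dPp T.d0 P.kal.k0 P.km2.k0 P.kn2.k0, P.K1_0, P.x0]; ring),
    (by rw [P.ddPp T.d0 P.kal.k0 P.km2.k0 P.kn2.k0 P.kk.k0 P.kep.k0, P.x0]; ring)⟩

theorem tab1 :
    T.d1 P.al = 0 ∧
    T.d1 P.p = 0 ∧
    T.d1 P.u = -T.d1 P.q * P.u ^ 2 ∧
    T.d1 P.ub = -T.d1 P.q * P.ub ^ 2 ∧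
    T.d1 P.oi = P.al * P.oi ^ 2 * P.p * T.d1 P.q ∧
    T.d1 (T.d0 P.q) = P.Gs ∧
    T.d1 (T.d1 P.q) = -2 * P.al * P.oi * P.p * T.d1 P.q ^ 2 ∧
    T.d1 (T.d2 P.p) = -P.al * P.oi * P.p * T.d2 P.p * T.d1 P.q - T.d2 P.p * T.d1 P.q * P.u ∧
    T.d1 (T.d3 P.p) = -P.al * P.oi * P.p * T.d3 P.p * T.d1 P.q - T.d3 P.p * T.d1 P.q * P.ub ∧
    T.d1 P.sv = 2 * P.al * P.oi * P.p * T.d1 P.q ^ 2 * P.sv ^ 2 ∧
    T.d1 P.Pp = 0 ∧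
    T.d1 P.dP = 0 :=
  ⟨P.kal.k1,
    P.x1,
    P.u_1,
    P.ub_1,
    P.oi_1,
    P.s_1,
    P.s2_1,
    P.pi_1,
    P.pb_1,
    (by rw [dinv T.d1 P.hsv, P.s2_1]; ring),
    (by rw [P.dPp T.d1 P.kal.k1 P.km2.k1 P.kn2.k1, P.K1_1, P.x1]; ring),
    (by rw [P.ddPp T.d1 P.kal.k1 P.km2.k1 P.kn2.k1 P.kk.k1 P.kep.k1, P.x1]; ring)⟩

theorem tab2 :
    T.d2 P.al = 0 ∧
    T.d2 P.q = 0 ∧
    T.d2 P.u = iA A * T.d2 P.p * P.u ^ 2 ∧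
    T.d2 P.ub = -iA A * T.d2 P.p * P.ub ^ 2 ∧
    T.d2 P.oi = P.al * P.oi ^ 2 * T.d2 P.p * P.q ∧
    T.d2 (T.d0 P.q) = -P.al * P.oi * T.d2 P.p * P.q * T.d0 P.q - iA A * T.d2 P.p * T.d0 P.q * P.ub ∧
    T.d2 (T.d1 P.q) = -P.al * P.oi * T.d2 P.p * P.q * T.d1 P.q + iA A * T.d2 P.p * T.d1 P.q * P.u ∧
    T.d2 (T.d2 P.p) = -2 * P.al * P.oi * T.d2 P.p ^ 2 * P.q ∧
    T.d2 (T.d3 P.p) = P.Hs ∧
    T.d2 P.sv = P.al * P.oi * T.d2 P.p * P.q * T.d1 P.q * P.sv ^ 2 - iA A * T.d2 P.p * T.d1 P.q * P.sv ^ 2 * P.u ∧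
    T.d2 P.Pp = P.dP * T.d2 P.p ∧
    T.d2 P.dP = P.ddP * T.d2 P.p :=
  ⟨P.kal.k2,
    P.x2,
    P.u_2,
    P.ub_2,
    P.oi_2,
    P.s_2,
    P.s2_2,
    P.pi_2,
    P.pb_2,
    (by rw [dinv T.d2 P.hsv, P.s2_2]; ring),
    (by rw [P.dPp T.d2 P.kal.k2 P.km2.k2 P.kn2.k2, P.K1_2]; ring),
    (by rw [P.ddPp T.d2 P.kal.k2 P.km2.k2 P.kn2.k2 P.kk.k2 P.kep.k2])⟩

theorem tab3 :
    T.d3 P.al = 0 ∧
    T.d3 P.q = 0 ∧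
    T.d3 P.u = iA A * T.d3 P.p * P.u ^ 2 ∧
    T.d3 P.ub = -iA A * T.d3 P.p * P.ub ^ 2 ∧
    T.d3 P.oi = P.al * P.oi ^ 2 * T.d3 P.p * P.q ∧
    T.d3 (T.d0 P.q) = -P.al * P.oi * T.d3 P.p * P.q * T.d0 P.q + iA A * T.d3 P.p * T.d0 P.q * P.u ∧
    T.d3 (T.d1 P.q) = -P.al * P.oi * T.d3 P.p * P.q * T.d1 P.q - iA A * T.d3 P.p * T.d1 P.q * P.ub ∧
    T.d3 (T.d2 P.p) = P.Hs ∧
    T.d3 (T.d3 P.p) = -2 * P.al * P.oi * T.d3 P.p ^ 2 * P.q ∧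
    T.d3 P.sv = P.al * P.oi * T.d3 P.p * P.q * T.d1 P.q * P.sv ^ 2 + iA A * T.d3 P.p * T.d1 P.q * P.sv ^ 2 * P.ub ∧
    T.d3 P.Pp = P.dP * T.d3 P.p ∧
    T.d3 P.dP = P.ddP * T.d3 P.p :=
  ⟨P.kal.k3,
    P.x3,
    P.u_3,
    P.ub_3,
    P.oi_3,
    P.s_3,
    P.s2_3,
    P.pi_3,
    P.pb_3,
    (by rw [dinv T.d3 P.hsv, P.s2_3]; ring),
    (by rw [P.dPp T.d3 P.kal.k3 P.km2.k3 P.kn2.k3, P.K1_3]; ring),
    (by rw [P.ddPp T.d3 P.kal.k3 P.km2.k3 P.kn2.k3 P.kk.k3 P.kep.k3])⟩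

theorem tabH :
    T.H P.al = 0 ∧
    T.H P.p = 0 ∧
    T.H P.q = 0 ∧
    T.H P.u = 0 ∧
    T.H P.ub = 0 ∧
    T.H P.oi = 0 ∧
    T.H (T.d0 P.q) = T.d0 P.q ∧
    T.H (T.d1 P.q) = -T.d1 P.q ∧
    T.H (T.d2 P.p) = T.d2 P.p ∧
    T.H (T.d3 P.p) = -T.d3 P.p ∧
    T.H P.sv = P.sv ∧
    T.H P.Pp = 0 ∧
    T.H P.dP = 0 :=
  ⟨P.kal.kH,
    P.Hp,
    P.Hq,
    P.Hu,
    P.Hub,
    P.Hoi,
    (by rw [P.Hs0]),
    (by rw [P.Hs2]),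
    (by rw [P.Hpi]),
    (by rw [P.Hpb]),
    P.Hsv,
    (by rw [P.dPp T.H P.kal.kH P.km2.kH P.kn2.kH, P.kk.kH, P.kep.kH, P.Hp]; ring),
    (by rw [P.ddPp T.H P.kal.kH P.km2.kH P.kn2.kH P.kk.kH P.kep.kH, P.Hp]; ring)⟩

theorem tabB :
    T.Hb P.al = 0 ∧
    T.Hb P.p = 0 ∧
    T.Hb P.q = 0 ∧
    T.Hb P.u = 0 ∧
    T.Hb P.ub = 0 ∧
    T.Hb P.oi = 0 ∧
    T.Hb (T.d0 P.q) = T.d0 P.q ∧
    T.Hb (T.d1 P.q) = -T.d1 P.q ∧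
    T.Hb (T.d2 P.p) = -T.d2 P.p ∧
    T.Hb (T.d3 P.p) = T.d3 P.p ∧
    T.Hb P.sv = P.sv ∧
    T.Hb P.Pp = 0 ∧
    T.Hb P.dP = 0 :=
  ⟨P.kal.kHb,
    P.Hbp,
    P.Hbq,
    P.Hbu,
    P.Hbub,
    P.Hboi,
    (by rw [P.Hbs0]),
    (by rw [P.Hbs2]),
    (by rw [P.Hbpi]),
    (by rw [P.Hbpb]),
    P.Hbsv,
    (by rw [P.dPp T.Hb P.kal.kHb P.km2.kHb P.kn2.kHb, P.kk.kHb, P.kep.kHb, P.Hbp]; ring),
    (by rw [P.ddPp T.Hb P.kal.kHb P.km2.kHb P.kn2.kHb P.kk.kHb P.kep.kHb, P.Hbp]; ring)⟩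

/-- The form `dv - p² dψ`. -/
def lam : Fin 6 → A := ![-(1 - P.al * P.p * P.q) ^ 2 * P.sv, 0, 0, 0, 0, 0]

/-- The form `P dψ`. -/
noncomputable def nu : Fin 6 → A :=
  ![(1 - P.al * P.p * P.q) ^ 2 * P.Pp * P.sv * P.u * P.ub, 0, iA A * T.d2 P.p, -iA A * T.d3 P.p, 0, 0]

/-- The regular part of the phase of `ð p`. -/
noncomputable def be : Fin 6 → A :=
  ![-P.dP * (1 - P.al * P.p * P.q) ^ 2 * hf A * P.sv * P.u * P.ub + P.p * T.d0 P.q * P.u * P.ub,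
    -P.p * T.d1 P.q * P.u * P.ub,
    P.al * iA A * P.oi * T.d2 P.p * P.q - iA A * P.p * T.d2 P.p * P.u * P.ub,
    -P.al * iA A * P.oi * T.d3 P.p * P.q + iA A * P.p * T.d3 P.p * P.u * P.ub, -iA A, iA A]

/-- Components of `dp ∧ dψ` above the diagonal. -/
noncomputable def wu : Fin 6 → Fin 6 → A :=
  ![![0, 0, -(1 - P.al * P.p * P.q) ^ 2 * T.d2 P.p * P.sv * P.u * P.ub,
      -(1 - P.al * P.p * P.q) ^ 2 * T.d3 P.p * P.sv * P.u * P.ub, 0, 0], 0,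
    ![0, 0, 0, -(1 - P.al * P.p * P.q) ^ 2 * iA A * P.u * P.ub, 0, 0], 0, 0, 0]

/-- The two form `dp ∧ dψ`. -/
noncomputable abbrev w (a b : Fin 6) : A := P.wu a b - P.wu b a

theorem lam_v : P.lam 0 = -(1 - P.al * P.p * P.q) ^ 2 * P.sv ∧ P.lam 1 = 0 ∧ P.lam 2 = 0 ∧
    P.lam 3 = 0 ∧ P.lam 4 = 0 ∧ P.lam 5 = 0 := ⟨rfl, rfl, rfl, rfl, rfl, rfl⟩

theorem nu_v : P.nu 0 = (1 - P.al * P.p * P.q) ^ 2 * P.Pp * P.sv * P.u * P.ub ∧ P.nu 1 = 0 ∧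
    P.nu 2 = iA A * T.d2 P.p ∧ P.nu 3 = -iA A * T.d3 P.p ∧ P.nu 4 = 0 ∧ P.nu 5 = 0 :=
  ⟨rfl, rfl, rfl, rfl, rfl, rfl⟩

theorem be_v :
    P.be 0 = -P.dP * (1 - P.al * P.p * P.q) ^ 2 * hf A * P.sv * P.u * P.ub
      + P.p * T.d0 P.q * P.u * P.ub ∧ P.be 1 = -P.p * T.d1 P.q * P.u * P.ub ∧
    P.be 2 = P.al * iA A * P.oi * T.d2 P.p * P.q - iA A * P.p * T.d2 P.p * P.u * P.ub ∧
    P.be 3 = -P.al * iA A * P.oi * T.d3 P.p * P.q + iA A * P.p * T.d3 P.p * P.u * P.ub ∧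
    P.be 4 = -iA A ∧ P.be 5 = iA A := ⟨rfl, rfl, rfl, rfl, rfl, rfl⟩

theorem w_v :
    P.w 0 1 = 0 ∧
    P.w 0 2 = -(1 - P.al * P.p * P.q) ^ 2 * T.d2 P.p * P.sv * P.u * P.ub ∧
    P.w 0 3 = -(1 - P.al * P.p * P.q) ^ 2 * T.d3 P.p * P.sv * P.u * P.ub ∧
    P.w 0 4 = 0 ∧
    P.w 0 5 = 0 ∧
    P.w 1 2 = 0 ∧
    P.w 1 3 = 0 ∧
    P.w 1 4 = 0 ∧
    P.w 1 5 = 0 ∧
    P.w 2 3 = -(1 - P.al * P.p * P.q) ^ 2 * iA A * P.u * P.ub ∧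
    P.w 2 4 = 0 ∧
    P.w 2 5 = 0 ∧
    P.w 3 4 = 0 ∧
    P.w 3 5 = 0 ∧
    P.w 4 5 = 0 := by
  simp [w, wu]

theorem lam_01 : T.ext P.lam 0 1 = -2 * P.p * P.w 0 1 := by
  simp only [T.ext01, P.lam_v, P.w_v, dmul, dsq, d2n, d_iA, d_hf, map_add, map_sub, map_neg, map_zero,
    Derivation.map_one_eq_zero, P.tab0, P.tab1, Gs, Hs, P.vrb, P.vr2b, P.vtb, P.vt2b]
  try simp only [P.vr, P.vr2, P.vt, P.vt2]
  apply P.clr 0 0 0 0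
  linear_combination
    1 * ((-2 * (1 - P.al * P.p * P.q) * P.al * P.p + 2 * (1 - P.al * P.p * P.q) ^ 2 * P.al * P.oi
    * P.p + 2 * (1 - P.al * P.p * P.q) ^ 2 * P.al * P.oi * P.p * T.d1 P.q * P.sv) * P.hsv + (2 * (1
    - P.al * P.p * P.q) * P.al * P.p) * P.hoi)

theorem lam_02 : T.ext P.lam 0 2 = -2 * P.p * P.w 0 2 := by
  simp only [T.ext02, P.lam_v, P.w_v, dmul, dsq, d2n, d_iA, d_hf, map_add, map_sub, map_neg, map_zero,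
    Derivation.map_one_eq_zero, P.tab0, P.tab2, Gs, Hs, P.vrb, P.vr2b, P.vtb, P.vt2b]
  try simp only [P.vr, P.vr2, P.vt, P.vt2]
  apply P.clr 1 1 0 0
  linear_combination
    (P.q - iA A * P.p) * (P.q + iA A * P.p) * (((1 - P.al * P.p * P.q) ^ 2 * P.al * P.oi * T.d2 P.p
    * P.q * P.sv - (1 - P.al * P.p * P.q) ^ 2 * iA A * T.d2 P.p * P.sv * P.u) * P.hsv + (2 * (1 - P.al
    * P.p * P.q) * P.al * T.d2 P.p * P.q * P.sv) * P.hoi) + (-(1 - P.al * P.p * P.q) ^ 2 * (P.q + iA A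
    * P.p) * iA A * T.d2 P.p * P.sv - 2 * (1 - P.al * P.p * P.q) ^ 2 * (P.q + iA A * P.p) * P.p * T.d2 P.p
    * P.sv * P.ub) * P.hu + ((1 - P.al * P.p * P.q) ^ 2 * (P.q - iA A * P.p) * iA A * T.d2 P.p * P.sv
    - 2 * (1 - P.al * P.p * P.q) ^ 2 * P.p * T.d2 P.p * P.sv) * P.hub + (4 * P.al * P.p ^ 2 * T.d2 P.p
    * P.q * P.sv - 2 * P.al ^ 2 * P.p ^ 3 * T.d2 P.p * P.q ^ 2 * P.sv - 2 * P.p * T.d2 P.p * P.sv)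
    * iA_sq (A := A)

theorem lam_03 : T.ext P.lam 0 3 = -2 * P.p * P.w 0 3 := by
  simp only [T.ext03, P.lam_v, P.w_v, dmul, dsq, d2n, d_iA, d_hf, map_add, map_sub, map_neg, map_zero,
    Derivation.map_one_eq_zero, P.tab0, P.tab3, Gs, Hs, P.vrb, P.vr2b, P.vtb, P.vt2b]
  try simp only [P.vr, P.vr2, P.vt, P.vt2]
  apply P.clr 1 1 0 0
  linear_combination
    (P.q - iA A * P.p) * (P.q + iA A * P.p) * (((1 - P.al * P.p * P.q) ^ 2 * P.al * P.oi * T.d3 P.p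
    * P.q * P.sv + (1 - P.al * P.p * P.q) ^ 2 * iA A * T.d3 P.p * P.sv * P.ub) * P.hsv + (2 * (1
    - P.al * P.p * P.q) * P.al * T.d3 P.p * P.q * P.sv) * P.hoi) + (-(1 - P.al * P.p * P.q) ^ 2 * (P.q
    + iA A * P.p) * iA A * T.d3 P.p * P.sv - 2 * (1 - P.al * P.p * P.q) ^ 2 * (P.q + iA A * P.p)
    * P.p * T.d3 P.p * P.sv * P.ub) * P.hu + ((1 - P.al * P.p * P.q) ^ 2 * (P.q - iA A * P.p) * iA A
    * T.d3 P.p * P.sv - 2 * (1 - P.al * P.p * P.q) ^ 2 * P.p * T.d3 P.p * P.sv) * P.hub + (4 * P.al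
    * P.p ^ 2 * T.d3 P.p * P.q * P.sv - 2 * P.al ^ 2 * P.p ^ 3 * T.d3 P.p * P.q ^ 2 * P.sv - 2 * P.p
    * T.d3 P.p * P.sv) * iA_sq (A := A)

theorem lam_04 : T.ext P.lam 0 4 = -2 * P.p * P.w 0 4 := by
  simp only [T.ext04, P.lam_v, P.w_v, dmul, dsq, d2n, d_iA, d_hf, map_add, map_sub, map_neg, map_zero,
    Derivation.map_one_eq_zero, P.tab0, P.tabH]
  all_goals ring

theorem lam_05 : T.ext P.lam 0 5 = -2 * P.p * P.w 0 5 := by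
  simp only [T.ext05, P.lam_v, P.w_v, dmul, dsq, d2n, d_iA, d_hf, map_add, map_sub, map_neg, map_zero,
    Derivation.map_one_eq_zero, P.tab0, P.tabB]
  all_goals ring

theorem lam_12 : T.ext P.lam 1 2 = -2 * P.p * P.w 1 2 := by
  simp only [T.ext12, P.lam_v, P.w_v, dmul, dsq, d2n, d_iA, d_hf, map_add, map_sub, map_neg, map_zero,
    Derivation.map_one_eq_zero, P.tab1, P.tab2, Gs, Hs, P.vrb, P.vr2b, P.vtb, P.vt2b]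
  try simp only [P.vr, P.vr2, P.vt, P.vt2]
  all_goals ring

theorem lam_13 : T.ext P.lam 1 3 = -2 * P.p * P.w 1 3 := by
  simp only [T.ext13, P.lam_v, P.w_v, dmul, dsq, d2n, d_iA, d_hf, map_add, map_sub, map_neg, map_zero,
    Derivation.map_one_eq_zero, P.tab1, P.tab3, Gs, Hs, P.vrb, P.vr2b, P.vtb, P.vt2b]
  try simp only [P.vr, P.vr2, P.vt, P.vt2]
  all_goals ring

theorem lam_14 : T.ext P.lam 1 4 = -2 * P.p * P.w 1 4 := by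
  simp only [T.ext14, P.lam_v, P.w_v, dmul, dsq, d2n, d_iA, d_hf, map_add, map_sub, map_neg, map_zero,
    Derivation.map_one_eq_zero, P.tab1, P.tabH]
  all_goals ring

theorem lam_15 : T.ext P.lam 1 5 = -2 * P.p * P.w 1 5 := by
  simp only [T.ext15, P.lam_v, P.w_v, dmul, dsq, d2n, d_iA, d_hf, map_add, map_sub, map_neg, map_zero,
    Derivation.map_one_eq_zero, P.tab1, P.tabB]
  all_goals ring

theorem lam_23 : T.ext P.lam 2 3 = -2 * P.p * P.w 2 3 := by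
  simp only [T.ext23, P.lam_v, P.w_v, dmul, dsq, d2n, d_iA, d_hf, map_add, map_sub, map_neg, map_zero,
    Derivation.map_one_eq_zero, P.tab2, P.tab3, Gs, Hs, P.vrb, P.vr2b, P.vtb, P.vt2b]
  try simp only [P.vr, P.vr2, P.vt, P.vt2]
  apply P.clr 1 1 0 0
  linear_combination
    (P.q - iA A * P.p) * (P.q + iA A * P.p) * (((1 - P.al * P.p * P.q) ^ 2 * P.u - (1 - P.al * P.p
    * P.q) ^ 2 * P.ub) * P.hsv) + ((1 - P.al * P.p * P.q) ^ 2 * (P.q + iA A * P.p) - 2 * (1 - P.al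
    * P.p * P.q) ^ 2 * (P.q + iA A * P.p) * iA A * P.p * P.ub) * P.hu + (-(1 - P.al * P.p * P.q) ^ 2
    * (P.q - iA A * P.p) - 2 * (1 - P.al * P.p * P.q) ^ 2 * iA A * P.p) * P.hub

theorem lam_24 : T.ext P.lam 2 4 = -2 * P.p * P.w 2 4 := by
  simp only [T.ext24, P.lam_v, P.w_v, dmul, dsq, d2n, d_iA, d_hf, map_add, map_sub, map_neg, map_zero,
    Derivation.map_one_eq_zero, P.tab2, P.tabH]
  all_goals ring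

theorem lam_25 : T.ext P.lam 2 5 = -2 * P.p * P.w 2 5 := by
  simp only [T.ext25, P.lam_v, P.w_v, dmul, dsq, d2n, d_iA, d_hf, map_add, map_sub, map_neg, map_zero,
    Derivation.map_one_eq_zero, P.tab2, P.tabB]
  all_goals ring

theorem lam_34 : T.ext P.lam 3 4 = -2 * P.p * P.w 3 4 := by
  simp only [T.ext34, P.lam_v, P.w_v, dmul, dsq, d2n, d_iA, d_hf, map_add, map_sub, map_neg, map_zero,
    Derivation.map_one_eq_zero, P.tab3, P.tabH]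
  all_goals ring

theorem lam_35 : T.ext P.lam 3 5 = -2 * P.p * P.w 3 5 := by
  simp only [T.ext35, P.lam_v, P.w_v, dmul, dsq, d2n, d_iA, d_hf, map_add, map_sub, map_neg, map_zero,
    Derivation.map_one_eq_zero, P.tab3, P.tabB]
  all_goals ring

theorem lam_45 : T.ext P.lam 4 5 = -2 * P.p * P.w 4 5 := by
  simp only [T.ext45, P.lam_v, P.w_v, dmul, dsq, d2n, d_iA, d_hf, map_add, map_sub, map_neg, map_zero,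
    Derivation.map_one_eq_zero, P.tabH, P.tabB]
  all_goals ring

theorem ext_lam (a b : Fin 6) : T.ext P.lam a b = -2 * P.p * P.w a b :=
  T.ext_eq P.lam _ P.wu
    P.lam_01 P.lam_02 P.lam_03 P.lam_04 P.lam_05 P.lam_12 P.lam_13 P.lam_14
    P.lam_15 P.lam_23 P.lam_24 P.lam_25 P.lam_34 P.lam_35 P.lam_45 a b

theorem nu_01 : T.ext P.nu 0 1 = P.dP * P.w 0 1 := by
  simp only [T.ext01, P.nu_v, P.w_v, dmul, dsq, d2n, d_iA, d_hf, map_add, map_sub, map_neg, map_zero,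
    Derivation.map_one_eq_zero, P.tab0, P.tab1, Gs, Hs, P.vrb, P.vr2b, P.vtb, P.vt2b]
  try simp only [P.vr, P.vr2, P.vt, P.vt2]
  apply P.clr 2 2 0 0
  linear_combination
    (P.q - iA A * P.p) ^ 2 * (P.q + iA A * P.p) ^ 2 * ((iA A ^ 2 * P.u + iA A ^ 2 * P.ub) * P.vpp
    + (2 * (1 - P.al * P.p * P.q) * P.Pp * P.al * P.p * P.u * P.ub - 2 * (1 - P.al * P.p * P.q) ^ 2
    * P.Pp * P.al * P.oi * P.p * T.d1 P.q * P.sv * P.u * P.ub - 2 * (1 - P.al * P.p * P.q) ^ 2 * P.Pp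
    * P.al * P.oi * P.p * P.u * P.ub + (1 - P.al * P.p * P.q) ^ 2 * P.Pp * P.u * P.ub ^ 2 + (1 - P.al
    * P.p * P.q) ^ 2 * P.Pp * P.u ^ 2 * P.ub) * P.hsv + (-2 * (1 - P.al * P.p * P.q) * P.Pp * P.al
    * P.p * P.u * P.ub) * P.hoi) + ((1 - P.al * P.p * P.q) ^ 2 * P.Pp * (P.q - iA A * P.p) * (P.q
    + iA A * P.p) ^ 2 * iA A ^ 2 * P.u * P.ub + (1 - P.al * P.p * P.q) ^ 2 * P.Pp * (P.q - iA A * P.p)
    * (P.q + iA A * P.p) ^ 2 * iA A ^ 2 * P.ub ^ 2 + (1 - P.al * P.p * P.q) ^ 2 * P.Pp * (P.q - iA A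
    * P.p) * (P.q + iA A * P.p) ^ 2 * P.u * P.ub + (1 - P.al * P.p * P.q) ^ 2 * P.Pp * (P.q - iA A
    * P.p) * (P.q + iA A * P.p) ^ 2 * P.ub ^ 2 + (1 - P.al * P.p * P.q) ^ 2 * P.Pp * (P.q + iA A
    * P.p) ^ 2 * iA A ^ 2 * P.ub + (1 - P.al * P.p * P.q) ^ 2 * P.Pp * (P.q + iA A * P.p) ^ 2 * P.ub)
    * P.hu + ((1 - P.al * P.p * P.q) ^ 2 * P.Pp * (P.q - iA A * P.p) + (1 - P.al * P.p * P.q) ^ 2
    * P.Pp * (P.q - iA A * P.p) * (P.q + iA A * P.p) * iA A ^ 2 * P.ub + (1 - P.al * P.p * P.q) ^ 2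
    * P.Pp * (P.q - iA A * P.p) * (P.q + iA A * P.p) * P.ub + (1 - P.al * P.p * P.q) ^ 2 * P.Pp * (P.q
    - iA A * P.p) * iA A ^ 2 + (1 - P.al * P.p * P.q) ^ 2 * P.Pp * (P.q + iA A * P.p) + (1 - P.al
    * P.p * P.q) ^ 2 * P.Pp * (P.q + iA A * P.p) * iA A ^ 2) * P.hub + (-4 * P.Pp * P.al * P.p * P.q ^ 2
    + 2 * P.Pp * P.al ^ 2 * P.p ^ 2 * P.q ^ 3 + 2 * P.Pp * P.q) * iA_sq (A := A)

theorem nu_02 : T.ext P.nu 0 2 = P.dP * P.w 0 2 := by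
  simp only [T.ext02, P.nu_v, P.w_v, dmul, dsq, d2n, d_iA, d_hf, map_add, map_sub, map_neg, map_zero,
    Derivation.map_one_eq_zero, P.tab0, P.tab2, Gs, Hs, P.vrb, P.vr2b, P.vtb, P.vt2b]
  try simp only [P.vr, P.vr2, P.vt, P.vt2]
  apply P.clr 0 0 0 0
  linear_combination
    1 * ((-(1 - P.al * P.p * P.q) ^ 2 * P.Pp * P.al * P.oi * T.d2 P.p * P.q * P.sv * P.u * P.ub + (1
    - P.al * P.p * P.q) ^ 2 * P.Pp * iA A * T.d2 P.p * P.sv * P.u ^ 2 * P.ub) * P.hsv + (-2 * (1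
    - P.al * P.p * P.q) * P.Pp * P.al * T.d2 P.p * P.q * P.sv * P.u * P.ub) * P.hoi)

theorem nu_03 : T.ext P.nu 0 3 = P.dP * P.w 0 3 := by
  simp only [T.ext03, P.nu_v, P.w_v, dmul, dsq, d2n, d_iA, d_hf, map_add, map_sub, map_neg, map_zero,
    Derivation.map_one_eq_zero, P.tab0, P.tab3, Gs, Hs, P.vrb, P.vr2b, P.vtb, P.vt2b]
  try simp only [P.vr, P.vr2, P.vt, P.vt2]
  apply P.clr 0 0 0 0
  linear_combination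
    1 * ((-(1 - P.al * P.p * P.q) ^ 2 * P.Pp * P.al * P.oi * T.d3 P.p * P.q * P.sv * P.u * P.ub - (1
    - P.al * P.p * P.q) ^ 2 * P.Pp * iA A * T.d3 P.p * P.sv * P.u * P.ub ^ 2) * P.hsv + (-2 * (1
    - P.al * P.p * P.q) * P.Pp * P.al * T.d3 P.p * P.q * P.sv * P.u * P.ub) * P.hoi)

theorem nu_04 : T.ext P.nu 0 4 = P.dP * P.w 0 4 := by
  simp only [T.ext04, P.nu_v, P.w_v, dmul, dsq, d2n, d_iA, d_hf, map_add, map_sub, map_neg, map_zero,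
    Derivation.map_one_eq_zero, P.tab0, P.tabH]
  all_goals ring

theorem nu_05 : T.ext P.nu 0 5 = P.dP * P.w 0 5 := by
  simp only [T.ext05, P.nu_v, P.w_v, dmul, dsq, d2n, d_iA, d_hf, map_add, map_sub, map_neg, map_zero,
    Derivation.map_one_eq_zero, P.tab0, P.tabB]
  all_goals ring

theorem nu_12 : T.ext P.nu 1 2 = P.dP * P.w 1 2 := by
  simp only [T.ext12, P.nu_v, P.w_v, dmul, dsq, d2n, d_iA, d_hf, map_add, map_sub, map_neg, map_zero,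
    Derivation.map_one_eq_zero, P.tab1, P.tab2, Gs, Hs, P.vrb, P.vr2b, P.vtb, P.vt2b]
  try simp only [P.vr, P.vr2, P.vt, P.vt2]
  all_goals ring

theorem nu_13 : T.ext P.nu 1 3 = P.dP * P.w 1 3 := by
  simp only [T.ext13, P.nu_v, P.w_v, dmul, dsq, d2n, d_iA, d_hf, map_add, map_sub, map_neg, map_zero,
    Derivation.map_one_eq_zero, P.tab1, P.tab3, Gs, Hs, P.vrb, P.vr2b, P.vtb, P.vt2b]
  try simp only [P.vr, P.vr2, P.vt, P.vt2]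
  all_goals ring

theorem nu_14 : T.ext P.nu 1 4 = P.dP * P.w 1 4 := by
  simp only [T.ext14, P.nu_v, P.w_v, dmul, dsq, d2n, d_iA, d_hf, map_add, map_sub, map_neg, map_zero,
    Derivation.map_one_eq_zero, P.tab1, P.tabH]
  all_goals ring

theorem nu_15 : T.ext P.nu 1 5 = P.dP * P.w 1 5 := by
  simp only [T.ext15, P.nu_v, P.w_v, dmul, dsq, d2n, d_iA, d_hf, map_add, map_sub, map_neg, map_zero,
    Derivation.map_one_eq_zero, P.tab1, P.tabB]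
  all_goals ring

theorem nu_23 : T.ext P.nu 2 3 = P.dP * P.w 2 3 := by
  simp only [T.ext23, P.nu_v, P.w_v, dmul, dsq, d2n, d_iA, d_hf, map_add, map_sub, map_neg, map_zero,
    Derivation.map_one_eq_zero, P.tab2, P.tab3, Gs, Hs, P.vrb, P.vr2b, P.vtb, P.vt2b]
  try simp only [P.vr, P.vr2, P.vt, P.vt2]
  apply P.clr 2 2 0 0
  linear_combination
    (P.q - iA A * P.p) ^ 2 * (P.q + iA A * P.p) ^ 2 * ((2 * iA A * P.p * P.u * P.ub) * P.vpp + ((1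
    - P.al * P.p * P.q) ^ 2 * P.Pp * P.u * P.ub ^ 2 - (1 - P.al * P.p * P.q) ^ 2 * P.Pp * P.u ^ 2
    * P.ub) * P.hsv + (-P.dP * (1 - P.al * P.p * P.q) ^ 2 * iA A * P.u * P.ub) * hhf (A := A)) + (2
    * (1 - P.al * P.p * P.q) ^ 2 * P.Pp * (P.q - iA A * P.p) * (P.q + iA A * P.p) ^ 2 * iA A * P.p
    * P.u * P.ub ^ 2 - (1 - P.al * P.p * P.q) ^ 2 * P.Pp * (P.q - iA A * P.p) * (P.q + iA A * P.p) ^ 2
    * P.u * P.ub + (1 - P.al * P.p * P.q) ^ 2 * P.Pp * (P.q - iA A * P.p) * (P.q + iA A * P.p) ^ 2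
    * P.ub ^ 2 + 2 * (1 - P.al * P.p * P.q) ^ 2 * P.Pp * (P.q + iA A * P.p) ^ 2 * iA A * P.p * P.ub ^ 2
    - (1 - P.al * P.p * P.q) ^ 2 * P.Pp * (P.q + iA A * P.p) ^ 2 * P.ub) * P.hu + ((1 - P.al * P.p
    * P.q) ^ 2 * P.Pp * (P.q - iA A * P.p) + (1 - P.al * P.p * P.q) ^ 2 * P.Pp * (P.q - iA A * P.p)
    * (P.q + iA A * P.p) * P.ub - (1 - P.al * P.p * P.q) ^ 2 * P.Pp * (P.q + iA A * P.p) + 2 * (1
    - P.al * P.p * P.q) ^ 2 * P.Pp * (P.q + iA A * P.p) * iA A * P.p * P.ub + 2 * (1 - P.al * P.p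
    * P.q) ^ 2 * P.Pp * iA A * P.p) * P.hub

theorem nu_24 : T.ext P.nu 2 4 = P.dP * P.w 2 4 := by
  simp only [T.ext24, P.nu_v, P.w_v, dmul, dsq, d2n, d_iA, d_hf, map_add, map_sub, map_neg, map_zero,
    Derivation.map_one_eq_zero, P.tab2, P.tabH]
  all_goals ring

theorem nu_25 : T.ext P.nu 2 5 = P.dP * P.w 2 5 := by
  simp only [T.ext25, P.nu_v, P.w_v, dmul, dsq, d2n, d_iA, d_hf, map_add, map_sub, map_neg, map_zero,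
    Derivation.map_one_eq_zero, P.tab2, P.tabB]
  all_goals ring

theorem nu_34 : T.ext P.nu 3 4 = P.dP * P.w 3 4 := by
  simp only [T.ext34, P.nu_v, P.w_v, dmul, dsq, d2n, d_iA, d_hf, map_add, map_sub, map_neg, map_zero,
    Derivation.map_one_eq_zero, P.tab3, P.tabH]
  all_goals ring

theorem nu_35 : T.ext P.nu 3 5 = P.dP * P.w 3 5 := by
  simp only [T.ext35, P.nu_v, P.w_v, dmul, dsq, d2n, d_iA, d_hf, map_add, map_sub, map_neg, map_zero,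
    Derivation.map_one_eq_zero, P.tab3, P.tabB]
  all_goals ring

theorem nu_45 : T.ext P.nu 4 5 = P.dP * P.w 4 5 := by
  simp only [T.ext45, P.nu_v, P.w_v, dmul, dsq, d2n, d_iA, d_hf, map_add, map_sub, map_neg, map_zero,
    Derivation.map_one_eq_zero, P.tabH, P.tabB]
  all_goals ring

theorem ext_nu (a b : Fin 6) : T.ext P.nu a b = P.dP * P.w a b :=
  T.ext_eq P.nu _ P.wu
    P.nu_01 P.nu_02 P.nu_03 P.nu_04 P.nu_05 P.nu_12 P.nu_13 P.nu_14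
    P.nu_15 P.nu_23 P.nu_24 P.nu_25 P.nu_34 P.nu_35 P.nu_45 a b

theorem be_01 : T.ext P.be 0 1 = -P.ddP * hf A * P.w 0 1 := by
  simp only [T.ext01, P.be_v, P.w_v, dmul, dsq, d2n, d_iA, d_hf, map_add, map_sub, map_neg, map_zero,
    Derivation.map_one_eq_zero, P.tab0, P.tab1, Gs, Hs, P.vrb, P.vr2b, P.vtb, P.vt2b]
  try simp only [P.vr, P.vr2, P.vt, P.vt2]
  apply P.clr 3 3 0 1
  linear_combination (norm := (simp only [P.eQ, P.eP, P.edQ, P.edP]; ring1))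
    (P.q - iA A * P.p) ^ 3 * (P.q + iA A * P.p) ^ 3 * ((-iA A) * P.vps + (iA A) * P.vpsb + (4 * P.p
    * P.q * P.u ^ 2 * P.ub ^ 2 + 2 * P.p * P.u * P.ub ^ 2 + 2 * P.p * P.u ^ 2 * P.ub) * P.vss + (-2
    * iA A ^ 2 * P.p * P.u * P.ub ^ 2 - 2 * iA A ^ 2 * P.p * P.u ^ 2 * P.ub + iA A ^ 3 * P.u ^ 2
    - iA A ^ 3 * P.ub ^ 2) * P.vpp + (-4 * P.dP * (1 - P.al * P.p * P.q) * P.al * hf A * P.p * P.u
    * P.ub + 4 * P.dP * (1 - P.al * P.p * P.q) ^ 2 * P.al * hf A * P.oi * P.p * T.d1 P.q * P.sv * P.u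
    * P.ub + 4 * P.dP * (1 - P.al * P.p * P.q) ^ 2 * P.al * hf A * P.oi * P.p * P.u * P.ub - 2 * P.dP
    * (1 - P.al * P.p * P.q) ^ 2 * hf A * P.u * P.ub ^ 2 - 2 * P.dP * (1 - P.al * P.p * P.q) ^ 2
    * hf A * P.u ^ 2 * P.ub) * P.hsv + (-2 * P.dP * (1 - P.al * P.p * P.q) * P.al * P.p * P.u * P.ub
    + 2 * P.dP * (1 - P.al * P.p * P.q) ^ 2 * P.al * P.oi * P.p * P.u * P.ub - P.dP * (1 - P.al * P.p
    * P.q) ^ 2 * P.u * P.ub ^ 2 - P.dP * (1 - P.al * P.p * P.q) ^ 2 * P.u ^ 2 * P.ub + 2 * P.dQ * (1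
    - P.al * P.p * P.q) ^ 2 * P.p * P.u ^ 2 * P.ub ^ 2) * hhf (A := A) + (2 * P.dP * (1 - P.al * P.p
    * P.q) * P.al * P.p * P.u * P.ub) * P.hoi) + (-P.dP * (1 - P.al * P.p * P.q) ^ 2 * (P.q - iA A
    * P.p) * (P.q + iA A * P.p) ^ 3 * P.ub - P.dP * (1 - P.al * P.p * P.q) ^ 2 * (P.q - iA A * P.p) ^ 2
    * (P.q + iA A * P.p) ^ 3 * P.u * P.ub - P.dP * (1 - P.al * P.p * P.q) ^ 2 * (P.q - iA A * P.p) ^ 2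
    * (P.q + iA A * P.p) ^ 3 * P.ub ^ 2 + 2 * P.dQ * (1 - P.al * P.p * P.q) ^ 2 * (P.q - iA A * P.p)
    * (P.q + iA A * P.p) ^ 3 * P.p * P.ub ^ 2 + 2 * P.dQ * (1 - P.al * P.p * P.q) ^ 2 * (P.q - iA A
    * P.p) ^ 2 * (P.q + iA A * P.p) ^ 3 * P.p * P.u * P.ub ^ 2 - 2 * (1 - P.al * P.p * P.q) ^ 2 * P.Pp
    * (P.q - iA A * P.p) * (P.q + iA A * P.p) ^ 3 * iA A ^ 2 * P.p * P.u * P.ub ^ 2 - 2 * (1 - P.al
    * P.p * P.q) ^ 2 * P.Pp * (P.q - iA A * P.p) * (P.q + iA A * P.p) ^ 3 * iA A ^ 2 * P.p * P.ub ^ 3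
    + (1 - P.al * P.p * P.q) ^ 2 * P.Pp * (P.q - iA A * P.p) * (P.q + iA A * P.p) ^ 3 * iA A ^ 3
    * P.u * P.ub - 2 * (1 - P.al * P.p * P.q) ^ 2 * P.Pp * (P.q - iA A * P.p) ^ 2 * (P.q + iA A * P.p) ^ 3
    * iA A ^ 2 * P.p * P.u * P.ub ^ 3 - 2 * (1 - P.al * P.p * P.q) ^ 2 * P.Pp * (P.q - iA A * P.p) ^ 2
    * (P.q + iA A * P.p) ^ 3 * iA A ^ 2 * P.p * P.u ^ 2 * P.ub ^ 2 + (1 - P.al * P.p * P.q) ^ 2 * P.Pp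
    * (P.q - iA A * P.p) ^ 2 * (P.q + iA A * P.p) ^ 3 * iA A ^ 3 * P.u ^ 2 * P.ub - (1 - P.al * P.p
    * P.q) ^ 2 * P.Pp * (P.q - iA A * P.p) ^ 2 * (P.q + iA A * P.p) ^ 3 * iA A ^ 3 * P.ub ^ 3 - 2
    * (1 - P.al * P.p * P.q) ^ 2 * P.Pp * (P.q + iA A * P.p) ^ 3 * iA A ^ 2 * P.p * P.ub ^ 2 + (1
    - P.al * P.p * P.q) ^ 2 * P.Pp * (P.q + iA A * P.p) ^ 3 * iA A ^ 3 * P.ub - 4 * (1 - P.al * P.p
    * P.q) ^ 2 * P.Qx * (P.q - iA A * P.p) * (P.q + iA A * P.p) ^ 3 * P.p * P.q * P.u * P.ub ^ 3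
    - 2 * (1 - P.al * P.p * P.q) ^ 2 * P.Qx * (P.q - iA A * P.p) * (P.q + iA A * P.p) ^ 3 * P.p * P.u
    * P.ub ^ 2 - 2 * (1 - P.al * P.p * P.q) ^ 2 * P.Qx * (P.q - iA A * P.p) * (P.q + iA A * P.p) ^ 3
    * P.p * P.ub ^ 3 - 4 * (1 - P.al * P.p * P.q) ^ 2 * P.Qx * (P.q - iA A * P.p) ^ 2 * (P.q + iA A
    * P.p) ^ 3 * P.p * P.q * P.u ^ 2 * P.ub ^ 3 - 2 * (1 - P.al * P.p * P.q) ^ 2 * P.Qx * (P.q - iA A
    * P.p) ^ 2 * (P.q + iA A * P.p) ^ 3 * P.p * P.u * P.ub ^ 3 - 2 * (1 - P.al * P.p * P.q) ^ 2 * P.Qx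
    * (P.q - iA A * P.p) ^ 2 * (P.q + iA A * P.p) ^ 3 * P.p * P.u ^ 2 * P.ub ^ 2 - 4 * (1 - P.al
    * P.p * P.q) ^ 2 * P.Qx * (P.q + iA A * P.p) ^ 3 * P.p * P.q * P.ub ^ 3 - 2 * (1 - P.al * P.p
    * P.q) ^ 2 * P.Qx * (P.q + iA A * P.p) ^ 3 * P.p * P.ub ^ 2 + (1 - P.al * P.p * P.q) ^ 3 * (P.q
    - iA A * P.p) * (P.q + iA A * P.p) ^ 3 * iA A * P.m2 * P.u - (1 - P.al * P.p * P.q) ^ 3 * (P.q
    - iA A * P.p) * (P.q + iA A * P.p) ^ 3 * iA A ^ 2 * P.n2 * P.u + (1 - P.al * P.p * P.q) ^ 3 * (P.q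
    - iA A * P.p) ^ 2 * (P.q + iA A * P.p) ^ 3 * iA A * P.m2 * P.u ^ 2 - (1 - P.al * P.p * P.q) ^ 3
    * (P.q - iA A * P.p) ^ 2 * (P.q + iA A * P.p) ^ 3 * iA A ^ 2 * P.n2 * P.u ^ 2 + (1 - P.al * P.p
    * P.q) ^ 3 * (P.q + iA A * P.p) ^ 3 * iA A * P.m2 - (1 - P.al * P.p * P.q) ^ 3 * (P.q + iA A
    * P.p) ^ 3 * iA A ^ 2 * P.n2) * P.hu + (-P.dP * (1 - P.al * P.p * P.q) ^ 2 * (P.q - iA A * P.p)
    * (P.q + iA A * P.p) ^ 2 - P.dP * (1 - P.al * P.p * P.q) ^ 2 * (P.q - iA A * P.p) ^ 2 * (P.q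
    + iA A * P.p) - P.dP * (1 - P.al * P.p * P.q) ^ 2 * (P.q - iA A * P.p) ^ 2 * (P.q + iA A * P.p) ^ 2
    * P.ub + 2 * P.dQ * (1 - P.al * P.p * P.q) ^ 2 * (P.q - iA A * P.p) * (P.q + iA A * P.p) * P.p
    + 2 * P.dQ * (1 - P.al * P.p * P.q) ^ 2 * (P.q - iA A * P.p) * (P.q + iA A * P.p) ^ 2 * P.p * P.ub
    - 2 * (1 - P.al * P.p * P.q) ^ 2 * P.Pp * (P.q - iA A * P.p) * (P.q + iA A * P.p) * iA A ^ 2
    * P.p * P.ub - 2 * (1 - P.al * P.p * P.q) ^ 2 * P.Pp * (P.q - iA A * P.p) * (P.q + iA A * P.p) ^ 2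
    * iA A ^ 2 * P.p * P.ub ^ 2 - 2 * (1 - P.al * P.p * P.q) ^ 2 * P.Pp * (P.q - iA A * P.p) * iA A ^ 2
    * P.p - (1 - P.al * P.p * P.q) ^ 2 * P.Pp * (P.q - iA A * P.p) ^ 2 * (P.q + iA A * P.p) * iA A ^ 3
    * P.ub - (1 - P.al * P.p * P.q) ^ 2 * P.Pp * (P.q - iA A * P.p) ^ 2 * (P.q + iA A * P.p) ^ 2
    * iA A ^ 3 * P.ub ^ 2 - (1 - P.al * P.p * P.q) ^ 2 * P.Pp * (P.q - iA A * P.p) ^ 2 * iA A ^ 3
    - 2 * (1 - P.al * P.p * P.q) ^ 2 * P.Pp * (P.q + iA A * P.p) * iA A ^ 2 * P.p - 2 * (1 - P.al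
    * P.p * P.q) ^ 2 * P.Pp * (P.q + iA A * P.p) ^ 2 * iA A ^ 2 * P.p * P.ub + (1 - P.al * P.p * P.q) ^ 2
    * P.Pp * (P.q + iA A * P.p) ^ 2 * iA A ^ 3 - 2 * (1 - P.al * P.p * P.q) ^ 2 * P.Qx * (P.q - iA A
    * P.p) * (P.q + iA A * P.p) * P.p * P.ub - 2 * (1 - P.al * P.p * P.q) ^ 2 * P.Qx * (P.q - iA A
    * P.p) * (P.q + iA A * P.p) ^ 2 * P.p * P.ub ^ 2 - 2 * (1 - P.al * P.p * P.q) ^ 2 * P.Qx * (P.q
    - iA A * P.p) * P.p - 2 * (1 - P.al * P.p * P.q) ^ 2 * P.Qx * (P.q + iA A * P.p) * P.p - 4 * (1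
    - P.al * P.p * P.q) ^ 2 * P.Qx * (P.q + iA A * P.p) * P.p * P.q * P.ub - 4 * (1 - P.al * P.p
    * P.q) ^ 2 * P.Qx * (P.q + iA A * P.p) ^ 2 * P.p * P.q * P.ub ^ 2 - 2 * (1 - P.al * P.p * P.q) ^ 2
    * P.Qx * (P.q + iA A * P.p) ^ 2 * P.p * P.ub - 4 * (1 - P.al * P.p * P.q) ^ 2 * P.Qx * P.p * P.q
    - (1 - P.al * P.p * P.q) ^ 3 * (P.q - iA A * P.p) ^ 3 * (P.q + iA A * P.p) * iA A * P.m2 * P.ub
    - (1 - P.al * P.p * P.q) ^ 3 * (P.q - iA A * P.p) ^ 3 * (P.q + iA A * P.p) * iA A ^ 2 * P.n2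
    * P.ub - (1 - P.al * P.p * P.q) ^ 3 * (P.q - iA A * P.p) ^ 3 * (P.q + iA A * P.p) ^ 2 * iA A
    * P.m2 * P.ub ^ 2 - (1 - P.al * P.p * P.q) ^ 3 * (P.q - iA A * P.p) ^ 3 * (P.q + iA A * P.p) ^ 2
    * iA A ^ 2 * P.n2 * P.ub ^ 2 - (1 - P.al * P.p * P.q) ^ 3 * (P.q - iA A * P.p) ^ 3 * iA A * P.m2
    - (1 - P.al * P.p * P.q) ^ 3 * (P.q - iA A * P.p) ^ 3 * iA A ^ 2 * P.n2) * P.hub + (8 * P.al
    * P.ep * iA A ^ 2 * P.p ^ 4 * P.q ^ 2 - 8 * P.al * iA A ^ 2 * P.k * P.p ^ 2 * P.q ^ 2 - 2 * P.al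
    * iA A ^ 2 * P.m2 * P.p ^ 4 * P.q + 10 * P.al * iA A ^ 2 * P.n2 * P.p ^ 3 * P.q ^ 2 + 16 * P.al
    * P.k * P.p ^ 2 * P.q ^ 2 - 18 * P.al * P.m2 * P.p ^ 2 * P.q ^ 3 + 6 * P.al * P.n2 * P.p * P.q ^ 4
    - 4 * P.al ^ 2 * P.ep * iA A ^ 2 * P.p ^ 5 * P.q ^ 3 + 4 * P.al ^ 2 * iA A ^ 2 * P.k * P.p ^ 3
    * P.q ^ 3 - 4 * P.al ^ 2 * iA A ^ 2 * P.k * P.p ^ 5 * P.q - 2 * P.al ^ 2 * iA A ^ 2 * P.m2 * P.p ^ 5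
    * P.q ^ 2 - 14 * P.al ^ 2 * iA A ^ 2 * P.n2 * P.p ^ 4 * P.q ^ 3 + 18 * P.al ^ 2 * P.m2 * P.p ^ 3
    * P.q ^ 4 - 6 * P.al ^ 2 * P.n2 * P.p ^ 2 * P.q ^ 5 + 8 * P.al ^ 3 * iA A ^ 2 * P.k * P.p ^ 6
    * P.q ^ 2 + 2 * P.al ^ 3 * iA A ^ 2 * P.m2 * P.p ^ 6 * P.q ^ 3 + 6 * P.al ^ 3 * iA A ^ 2 * P.n2
    * P.p ^ 5 * P.q ^ 4 - 16 * P.al ^ 3 * P.k * P.p ^ 4 * P.q ^ 4 - 6 * P.al ^ 3 * P.m2 * P.p ^ 4
    * P.q ^ 5 + 2 * P.al ^ 3 * P.n2 * P.p ^ 3 * P.q ^ 6 - 4 * P.al ^ 4 * iA A ^ 2 * P.k * P.p ^ 7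
    * P.q ^ 3 + 8 * P.al ^ 4 * P.k * P.p ^ 5 * P.q ^ 5 - 4 * P.ep * iA A ^ 2 * P.p ^ 3 * P.q + 4
    * iA A ^ 2 * P.k * P.p * P.q + 2 * iA A ^ 2 * P.m2 * P.p ^ 3 - 2 * iA A ^ 2 * P.n2 * P.p ^ 2
    * P.q - 8 * P.k * P.p * P.q + 6 * P.m2 * P.p * P.q ^ 2 - 2 * P.n2 * P.q ^ 3) * iA_sq (A := A)

theorem be_02 : T.ext P.be 0 2 = -P.ddP * hf A * P.w 0 2 := by
  simp only [T.ext02, P.be_v, P.w_v, dmul, dsq, d2n, d_iA, d_hf, map_add, map_sub, map_neg, map_zero,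
    Derivation.map_one_eq_zero, P.tab0, P.tab2, Gs, Hs, P.vrb, P.vr2b, P.vtb, P.vt2b]
  try simp only [P.vr, P.vr2, P.vt, P.vt2]
  apply P.clr 1 2 1 0
  linear_combination
    (1 - P.al * P.p * P.q) * (P.q - iA A * P.p) * (P.q + iA A * P.p) ^ 2 * ((P.dP * (1 - P.al * P.p
    * P.q) ^ 2 * P.al * hf A * P.oi * T.d2 P.p * P.q * P.sv * P.u * P.ub - P.dP * (1 - P.al * P.p
    * P.q) ^ 2 * hf A * iA A * T.d2 P.p * P.sv * P.u ^ 2 * P.ub) * P.hsv + (-P.dP * (1 - P.al * P.p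
    * P.q) * P.al * T.d2 P.p * P.q * P.sv * P.u * P.ub + P.dP * (1 - P.al * P.p * P.q) ^ 2 * P.al
    * P.oi * T.d2 P.p * P.q * P.sv * P.u * P.ub) * hhf (A := A) + (P.dP * (1 - P.al * P.p * P.q)
    * P.al * T.d2 P.p * P.q * P.sv * P.u * P.ub) * P.hoi) + (2 * (1 - P.al * P.p * P.q) * (P.q + iA A
    * P.p) ^ 2 * iA A * P.p * T.d2 P.p * T.d0 P.q * P.ub ^ 2 - (1 - P.al * P.p * P.q) * (P.q + iA A
    * P.p) ^ 2 * T.d2 P.p * T.d0 P.q * P.ub) * P.hu + (-(1 - P.al * P.p * P.q) * (P.q - iA A * P.p)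
    * (P.q + iA A * P.p) * P.al * iA A * P.oi * T.d2 P.p * P.q * T.d0 P.q - (1 - P.al * P.p * P.q)
    * (P.q - iA A * P.p) * (P.q + iA A * P.p) * P.al * iA A ^ 2 * P.oi * P.p * T.d2 P.p * T.d0 P.q
    - (1 - P.al * P.p * P.q) * (P.q - iA A * P.p) * (P.q + iA A * P.p) * iA A ^ 2 * T.d2 P.p * T.d0 P.q
    * P.ub - (1 - P.al * P.p * P.q) * (P.q - iA A * P.p) * iA A ^ 2 * T.d2 P.p * T.d0 P.q + 2 * (1
    - P.al * P.p * P.q) * (P.q + iA A * P.p) * iA A * P.p * T.d2 P.p * T.d0 P.q * P.ub - (1 - P.al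
    * P.p * P.q) * (P.q + iA A * P.p) * T.d2 P.p * T.d0 P.q + 2 * (1 - P.al * P.p * P.q) * iA A * P.p
    * T.d2 P.p * T.d0 P.q) * P.hub + (-(P.q - iA A * P.p) * (P.q + iA A * P.p) * P.al * iA A * T.d2 P.p
    * P.q * T.d0 P.q - (P.q - iA A * P.p) * (P.q + iA A * P.p) * P.al * iA A ^ 2 * P.p * T.d2 P.p
    * T.d0 P.q + (P.q - iA A * P.p) * (P.q + iA A * P.p) ^ 2 * P.al * iA A * T.d2 P.p * T.d0 P.q)
    * P.hoi + (-P.al * iA A * P.p ^ 2 * T.d2 P.p * P.q * T.d0 P.q + P.al * P.p * T.d2 P.p * P.q ^ 2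
    * T.d0 P.q + iA A * P.p * T.d2 P.p * T.d0 P.q - T.d2 P.p * P.q * T.d0 P.q) * iA_sq (A := A)

theorem be_03 : T.ext P.be 0 3 = -P.ddP * hf A * P.w 0 3 := by
  simp only [T.ext03, P.be_v, P.w_v, dmul, dsq, d2n, d_iA, d_hf, map_add, map_sub, map_neg, map_zero,
    Derivation.map_one_eq_zero, P.tab0, P.tab3, Gs, Hs, P.vrb, P.vr2b, P.vtb, P.vt2b]
  try simp only [P.vr, P.vr2, P.vt, P.vt2]
  apply P.clr 2 1 1 0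
  linear_combination
    (1 - P.al * P.p * P.q) * (P.q - iA A * P.p) ^ 2 * (P.q + iA A * P.p) * ((P.dP * (1 - P.al * P.p
    * P.q) ^ 2 * P.al * hf A * P.oi * T.d3 P.p * P.q * P.sv * P.u * P.ub + P.dP * (1 - P.al * P.p
    * P.q) ^ 2 * hf A * iA A * T.d3 P.p * P.sv * P.u * P.ub ^ 2) * P.hsv + (-P.dP * (1 - P.al * P.p
    * P.q) * P.al * T.d3 P.p * P.q * P.sv * P.u * P.ub + P.dP * (1 - P.al * P.p * P.q) ^ 2 * P.al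
    * P.oi * T.d3 P.p * P.q * P.sv * P.u * P.ub) * hhf (A := A) + (P.dP * (1 - P.al * P.p * P.q)
    * P.al * T.d3 P.p * P.q * P.sv * P.u * P.ub) * P.hoi) + ((1 - P.al * P.p * P.q) * (P.q - iA A
    * P.p) * (P.q + iA A * P.p) * P.al * iA A * P.oi * T.d3 P.p * P.q * T.d0 P.q - (1 - P.al * P.p
    * P.q) * (P.q - iA A * P.p) * (P.q + iA A * P.p) * P.al * iA A ^ 2 * P.oi * P.p * T.d3 P.p * T.d0 P.q
    - 2 * (1 - P.al * P.p * P.q) * (P.q - iA A * P.p) * (P.q + iA A * P.p) * iA A * P.p * T.d3 P.p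
    * T.d0 P.q * P.u * P.ub - (1 - P.al * P.p * P.q) * (P.q - iA A * P.p) * (P.q + iA A * P.p) * iA A ^ 2
    * T.d3 P.p * T.d0 P.q * P.u - (1 - P.al * P.p * P.q) * (P.q - iA A * P.p) * (P.q + iA A * P.p)
    * T.d3 P.p * T.d0 P.q * P.ub - 2 * (1 - P.al * P.p * P.q) * (P.q + iA A * P.p) * iA A * P.p * T.d3 P.p
    * T.d0 P.q * P.ub - (1 - P.al * P.p * P.q) * (P.q + iA A * P.p) * iA A ^ 2 * T.d3 P.p * T.d0 P.q)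
    * P.hu + (-(1 - P.al * P.p * P.q) * (P.q - iA A * P.p) * T.d3 P.p * T.d0 P.q - 2 * (1 - P.al
    * P.p * P.q) * iA A * P.p * T.d3 P.p * T.d0 P.q) * P.hub + ((P.q - iA A * P.p) * (P.q + iA A
    * P.p) * P.al * iA A * T.d3 P.p * P.q * T.d0 P.q - (P.q - iA A * P.p) * (P.q + iA A * P.p) * P.al
    * iA A ^ 2 * P.p * T.d3 P.p * T.d0 P.q - (P.q - iA A * P.p) ^ 2 * (P.q + iA A * P.p) * P.al * iA A
    * T.d3 P.p * T.d0 P.q) * P.hoi + (P.al * iA A * P.p ^ 2 * T.d3 P.p * P.q * T.d0 P.q + P.al * P.p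
    * T.d3 P.p * P.q ^ 2 * T.d0 P.q - iA A * P.p * T.d3 P.p * T.d0 P.q - T.d3 P.p * P.q * T.d0 P.q)
    * iA_sq (A := A)

theorem be_04 : T.ext P.be 0 4 = -P.ddP * hf A * P.w 0 4 := by
  simp only [T.ext04, P.be_v, P.w_v, dmul, dsq, d2n, d_iA, d_hf, map_add, map_sub, map_neg, map_zero,
    Derivation.map_one_eq_zero, P.tab0, P.tabH]
  all_goals ring

theorem be_05 : T.ext P.be 0 5 = -P.ddP * hf A * P.w 0 5 := by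
  simp only [T.ext05, P.be_v, P.w_v, dmul, dsq, d2n, d_iA, d_hf, map_add, map_sub, map_neg, map_zero,
    Derivation.map_one_eq_zero, P.tab0, P.tabB]
  all_goals ring

theorem be_12 : T.ext P.be 1 2 = -P.ddP * hf A * P.w 1 2 := by
  simp only [T.ext12, P.be_v, P.w_v, dmul, dsq, d2n, d_iA, d_hf, map_add, map_sub, map_neg, map_zero,
    Derivation.map_one_eq_zero, P.tab1, P.tab2, Gs, Hs, P.vrb, P.vr2b, P.vtb, P.vt2b]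
  try simp only [P.vr, P.vr2, P.vt, P.vt2]
  apply P.clr 2 1 1 0
  linear_combination
    (-(1 - P.al * P.p * P.q) * (P.q - iA A * P.p) * (P.q + iA A * P.p) * P.al * iA A * P.oi * T.d2 P.p
    * P.q * T.d1 P.q + (1 - P.al * P.p * P.q) * (P.q - iA A * P.p) * (P.q + iA A * P.p) * P.al * iA A ^ 2
    * P.oi * P.p * T.d2 P.p * T.d1 P.q + 2 * (1 - P.al * P.p * P.q) * (P.q - iA A * P.p) * (P.q + iA A
    * P.p) * iA A * P.p * T.d2 P.p * T.d1 P.q * P.u * P.ub + (1 - P.al * P.p * P.q) * (P.q - iA A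
    * P.p) * (P.q + iA A * P.p) * iA A ^ 2 * T.d2 P.p * T.d1 P.q * P.u + (1 - P.al * P.p * P.q) * (P.q
    - iA A * P.p) * (P.q + iA A * P.p) * T.d2 P.p * T.d1 P.q * P.ub + 2 * (1 - P.al * P.p * P.q)
    * (P.q + iA A * P.p) * iA A * P.p * T.d2 P.p * T.d1 P.q * P.ub + (1 - P.al * P.p * P.q) * (P.q
    + iA A * P.p) * iA A ^ 2 * T.d2 P.p * T.d1 P.q) * P.hu + ((1 - P.al * P.p * P.q) * (P.q - iA A
    * P.p) * T.d2 P.p * T.d1 P.q + 2 * (1 - P.al * P.p * P.q) * iA A * P.p * T.d2 P.p * T.d1 P.q)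
    * P.hub + (-(P.q - iA A * P.p) * (P.q + iA A * P.p) * P.al * iA A * T.d2 P.p * P.q * T.d1 P.q
    + (P.q - iA A * P.p) * (P.q + iA A * P.p) * P.al * iA A ^ 2 * P.p * T.d2 P.p * T.d1 P.q + (P.q
    - iA A * P.p) ^ 2 * (P.q + iA A * P.p) * P.al * iA A * T.d2 P.p * T.d1 P.q) * P.hoi + (-P.al
    * iA A * P.p ^ 2 * T.d2 P.p * P.q * T.d1 P.q - P.al * P.p * T.d2 P.p * P.q ^ 2 * T.d1 P.q + iA A
    * P.p * T.d2 P.p * T.d1 P.q + T.d2 P.p * P.q * T.d1 P.q) * iA_sq (A := A)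

theorem be_13 : T.ext P.be 1 3 = -P.ddP * hf A * P.w 1 3 := by
  simp only [T.ext13, P.be_v, P.w_v, dmul, dsq, d2n, d_iA, d_hf, map_add, map_sub, map_neg, map_zero,
    Derivation.map_one_eq_zero, P.tab1, P.tab3, Gs, Hs, P.vrb, P.vr2b, P.vtb, P.vt2b]
  try simp only [P.vr, P.vr2, P.vt, P.vt2]
  apply P.clr 1 2 1 0
  linear_combination
    (-2 * (1 - P.al * P.p * P.q) * (P.q + iA A * P.p) ^ 2 * iA A * P.p * T.d3 P.p * T.d1 P.q * P.ub ^ 2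
    + (1 - P.al * P.p * P.q) * (P.q + iA A * P.p) ^ 2 * T.d3 P.p * T.d1 P.q * P.ub) * P.hu + ((1
    - P.al * P.p * P.q) * (P.q - iA A * P.p) * (P.q + iA A * P.p) * P.al * iA A * P.oi * T.d3 P.p
    * P.q * T.d1 P.q + (1 - P.al * P.p * P.q) * (P.q - iA A * P.p) * (P.q + iA A * P.p) * P.al * iA A ^ 2
    * P.oi * P.p * T.d3 P.p * T.d1 P.q + (1 - P.al * P.p * P.q) * (P.q - iA A * P.p) * (P.q + iA A
    * P.p) * iA A ^ 2 * T.d3 P.p * T.d1 P.q * P.ub + (1 - P.al * P.p * P.q) * (P.q - iA A * P.p)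
    * iA A ^ 2 * T.d3 P.p * T.d1 P.q - 2 * (1 - P.al * P.p * P.q) * (P.q + iA A * P.p) * iA A * P.p
    * T.d3 P.p * T.d1 P.q * P.ub + (1 - P.al * P.p * P.q) * (P.q + iA A * P.p) * T.d3 P.p * T.d1 P.q
    - 2 * (1 - P.al * P.p * P.q) * iA A * P.p * T.d3 P.p * T.d1 P.q) * P.hub + ((P.q - iA A * P.p)
    * (P.q + iA A * P.p) * P.al * iA A * T.d3 P.p * P.q * T.d1 P.q + (P.q - iA A * P.p) * (P.q + iA A
    * P.p) * P.al * iA A ^ 2 * P.p * T.d3 P.p * T.d1 P.q - (P.q - iA A * P.p) * (P.q + iA A * P.p) ^ 2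
    * P.al * iA A * T.d3 P.p * T.d1 P.q) * P.hoi + (P.al * iA A * P.p ^ 2 * T.d3 P.p * P.q * T.d1 P.q
    - P.al * P.p * T.d3 P.p * P.q ^ 2 * T.d1 P.q - iA A * P.p * T.d3 P.p * T.d1 P.q + T.d3 P.p * P.q
    * T.d1 P.q) * iA_sq (A := A)

theorem be_14 : T.ext P.be 1 4 = -P.ddP * hf A * P.w 1 4 := by
  simp only [T.ext14, P.be_v, P.w_v, dmul, dsq, d2n, d_iA, d_hf, map_add, map_sub, map_neg, map_zero,
    Derivation.map_one_eq_zero, P.tab1, P.tabH]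
  all_goals ring

theorem be_15 : T.ext P.be 1 5 = -P.ddP * hf A * P.w 1 5 := by
  simp only [T.ext15, P.be_v, P.w_v, dmul, dsq, d2n, d_iA, d_hf, map_add, map_sub, map_neg, map_zero,
    Derivation.map_one_eq_zero, P.tab1, P.tabB]
  all_goals ring

theorem be_23 : T.ext P.be 2 3 = -P.ddP * hf A * P.w 2 3 := by
  simp only [T.ext23, P.be_v, P.w_v, dmul, dsq, d2n, d_iA, d_hf, map_add, map_sub, map_neg, map_zero,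
    Derivation.map_one_eq_zero, P.tab2, P.tab3, Gs, Hs, P.vrb, P.vr2b, P.vtb, P.vt2b]
  try simp only [P.vr, P.vr2, P.vt, P.vt2]
  apply P.clr 3 3 0 1
  linear_combination (norm := (simp only [P.eQ, P.eP, P.edP, P.eddP]; ring1))
    (P.q - iA A * P.p) ^ 3 * (P.q + iA A * P.p) ^ 3 * ((iA A) * P.vps + (iA A) * P.vpsb + (2 * P.al
    * iA A * P.oi * P.p * P.u + 2 * P.al * iA A * P.oi * P.p * P.ub + 2 * P.al ^ 2 * iA A * P.oi ^ 2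
    * P.p ^ 2 + iA A * P.u ^ 2 + iA A * P.ub ^ 2 + 2 * P.p * P.u * P.ub ^ 2 - 2 * P.p * P.u ^ 2 * P.ub)
    * P.vss + (4 * P.al * iA A * P.oi * P.p * P.q * P.u * P.ub - 2 * P.al ^ 2 * iA A * P.oi ^ 2 * P.q ^ 2
    - 4 * iA A * P.p ^ 2 * P.u ^ 2 * P.ub ^ 2 + 2 * iA A * P.u * P.ub - 2 * iA A ^ 2 * P.p * P.u
    * P.ub ^ 2 + 2 * iA A ^ 2 * P.p * P.u ^ 2 * P.ub) * P.vpp + (-2 * P.dP * (1 - P.al * P.p * P.q) ^ 2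
    * hf A * P.u * P.ub ^ 2 + 2 * P.dP * (1 - P.al * P.p * P.q) ^ 2 * hf A * P.u ^ 2 * P.ub) * P.hsv
    + (-P.ddP * (1 - P.al * P.p * P.q) ^ 2 * iA A * P.u * P.ub - 2 * P.dP * (1 - P.al * P.p * P.q) ^ 2
    * P.al * iA A * P.oi * P.q * P.u * P.ub + 2 * P.dP * (1 - P.al * P.p * P.q) ^ 2 * iA A * P.p
    * P.u ^ 2 * P.ub ^ 2 - P.dP * (1 - P.al * P.p * P.q) ^ 2 * P.u * P.ub ^ 2 + P.dP * (1 - P.al
    * P.p * P.q) ^ 2 * P.u ^ 2 * P.ub) * hhf (A := A) + (-2 * P.dP * (1 - P.al * P.p * P.q) * P.al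
    * iA A * P.q * P.u * P.ub + 4 * (1 - P.al * P.p * P.q) * P.Pp * P.al * iA A * P.p * P.q * P.u ^ 2
    * P.ub ^ 2 - 2 * (1 - P.al * P.p * P.q) * P.Pp * P.al ^ 2 * iA A * P.oi * P.q ^ 2 * P.u * P.ub
    - 2 * (1 - P.al * P.p * P.q) * P.Qx * P.al * iA A * P.p * P.u * P.ub ^ 2 - 2 * (1 - P.al * P.p
    * P.q) * P.Qx * P.al * iA A * P.p * P.u ^ 2 * P.ub - 2 * (1 - P.al * P.p * P.q) * P.Qx * P.al ^ 2
    * iA A * P.oi * P.p ^ 2 * P.u * P.ub - 2 * P.Pp * P.al ^ 2 * iA A * P.q ^ 2 * P.u * P.ub - 2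
    * P.Qx * P.al ^ 2 * iA A * P.p ^ 2 * P.u * P.ub) * P.hoi) + (-P.ddP * (1 - P.al * P.p * P.q) ^ 2
    * (P.q - iA A * P.p) ^ 2 * (P.q + iA A * P.p) ^ 3 * iA A * P.ub - 2 * P.dP * (1 - P.al * P.p
    * P.q) * (P.q - iA A * P.p) ^ 2 * (P.q + iA A * P.p) ^ 3 * P.al * iA A * P.q * P.ub + 2 * P.dP
    * (1 - P.al * P.p * P.q) ^ 2 * (P.q - iA A * P.p) * (P.q + iA A * P.p) ^ 3 * iA A * P.p * P.ub ^ 2
    + P.dP * (1 - P.al * P.p * P.q) ^ 2 * (P.q - iA A * P.p) * (P.q + iA A * P.p) ^ 3 * P.ub + 2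
    * P.dP * (1 - P.al * P.p * P.q) ^ 2 * (P.q - iA A * P.p) ^ 2 * (P.q + iA A * P.p) ^ 3 * iA A
    * P.p * P.u * P.ub ^ 2 + P.dP * (1 - P.al * P.p * P.q) ^ 2 * (P.q - iA A * P.p) ^ 2 * (P.q + iA A
    * P.p) ^ 3 * P.u * P.ub - P.dP * (1 - P.al * P.p * P.q) ^ 2 * (P.q - iA A * P.p) ^ 2 * (P.q + iA A
    * P.p) ^ 3 * P.ub ^ 2 + 4 * (1 - P.al * P.p * P.q) * P.Pp * (P.q - iA A * P.p) * (P.q + iA A
    * P.p) ^ 3 * P.al * iA A * P.p * P.q * P.ub ^ 2 + 4 * (1 - P.al * P.p * P.q) * P.Pp * (P.q - iA A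
    * P.p) ^ 2 * (P.q + iA A * P.p) ^ 3 * P.al * iA A * P.p * P.q * P.u * P.ub ^ 2 - 2 * (1 - P.al
    * P.p * P.q) * P.Qx * (P.q - iA A * P.p) * (P.q + iA A * P.p) ^ 3 * P.al * iA A * P.p * P.ub
    - 2 * (1 - P.al * P.p * P.q) * P.Qx * (P.q - iA A * P.p) ^ 2 * (P.q + iA A * P.p) ^ 3 * P.al
    * iA A * P.p * P.u * P.ub - 2 * (1 - P.al * P.p * P.q) * P.Qx * (P.q - iA A * P.p) ^ 2 * (P.q
    + iA A * P.p) ^ 3 * P.al * iA A * P.p * P.ub ^ 2 - 4 * (1 - P.al * P.p * P.q) ^ 2 * P.Pp * (P.q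
    - iA A * P.p) * (P.q + iA A * P.p) ^ 3 * iA A * P.p ^ 2 * P.u * P.ub ^ 3 + 2 * (1 - P.al * P.p
    * P.q) ^ 2 * P.Pp * (P.q - iA A * P.p) * (P.q + iA A * P.p) ^ 3 * iA A * P.ub ^ 2 + 2 * (1 - P.al
    * P.p * P.q) ^ 2 * P.Pp * (P.q - iA A * P.p) * (P.q + iA A * P.p) ^ 3 * iA A ^ 2 * P.p * P.u
    * P.ub ^ 2 - 2 * (1 - P.al * P.p * P.q) ^ 2 * P.Pp * (P.q - iA A * P.p) * (P.q + iA A * P.p) ^ 3
    * iA A ^ 2 * P.p * P.ub ^ 3 - 4 * (1 - P.al * P.p * P.q) ^ 2 * P.Pp * (P.q - iA A * P.p) ^ 2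
    * (P.q + iA A * P.p) ^ 3 * iA A * P.p ^ 2 * P.u ^ 2 * P.ub ^ 3 + 2 * (1 - P.al * P.p * P.q) ^ 2
    * P.Pp * (P.q - iA A * P.p) ^ 2 * (P.q + iA A * P.p) ^ 3 * iA A * P.u * P.ub ^ 2 - 2 * (1 - P.al
    * P.p * P.q) ^ 2 * P.Pp * (P.q - iA A * P.p) ^ 2 * (P.q + iA A * P.p) ^ 3 * iA A ^ 2 * P.p * P.u
    * P.ub ^ 3 + 2 * (1 - P.al * P.p * P.q) ^ 2 * P.Pp * (P.q - iA A * P.p) ^ 2 * (P.q + iA A * P.p) ^ 3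
    * iA A ^ 2 * P.p * P.u ^ 2 * P.ub ^ 2 - 4 * (1 - P.al * P.p * P.q) ^ 2 * P.Pp * (P.q + iA A * P.p) ^ 3
    * iA A * P.p ^ 2 * P.ub ^ 3 + 2 * (1 - P.al * P.p * P.q) ^ 2 * P.Pp * (P.q + iA A * P.p) ^ 3
    * iA A ^ 2 * P.p * P.ub ^ 2 - (1 - P.al * P.p * P.q) ^ 2 * P.Qx * (P.q - iA A * P.p) * (P.q + iA A
    * P.p) ^ 3 * iA A * P.u * P.ub + 2 * (1 - P.al * P.p * P.q) ^ 2 * P.Qx * (P.q - iA A * P.p) * (P.q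
    + iA A * P.p) ^ 3 * P.p * P.u * P.ub ^ 2 - 2 * (1 - P.al * P.p * P.q) ^ 2 * P.Qx * (P.q - iA A
    * P.p) * (P.q + iA A * P.p) ^ 3 * P.p * P.ub ^ 3 - (1 - P.al * P.p * P.q) ^ 2 * P.Qx * (P.q - iA A
    * P.p) ^ 2 * (P.q + iA A * P.p) ^ 3 * iA A * P.u ^ 2 * P.ub - (1 - P.al * P.p * P.q) ^ 2 * P.Qx
    * (P.q - iA A * P.p) ^ 2 * (P.q + iA A * P.p) ^ 3 * iA A * P.ub ^ 3 - 2 * (1 - P.al * P.p * P.q) ^ 2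
    * P.Qx * (P.q - iA A * P.p) ^ 2 * (P.q + iA A * P.p) ^ 3 * P.p * P.u * P.ub ^ 3 + 2 * (1 - P.al
    * P.p * P.q) ^ 2 * P.Qx * (P.q - iA A * P.p) ^ 2 * (P.q + iA A * P.p) ^ 3 * P.p * P.u ^ 2 * P.ub ^ 2
    - (1 - P.al * P.p * P.q) ^ 2 * P.Qx * (P.q + iA A * P.p) ^ 3 * iA A * P.ub + 2 * (1 - P.al * P.p
    * P.q) ^ 2 * P.Qx * (P.q + iA A * P.p) ^ 3 * P.p * P.ub ^ 2 - (1 - P.al * P.p * P.q) ^ 3 * (P.q
    - iA A * P.p) * (P.q + iA A * P.p) ^ 3 * iA A * P.m2 * P.u + (1 - P.al * P.p * P.q) ^ 3 * (P.q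
    - iA A * P.p) * (P.q + iA A * P.p) ^ 3 * iA A ^ 2 * P.n2 * P.u - (1 - P.al * P.p * P.q) ^ 3 * (P.q
    - iA A * P.p) ^ 2 * (P.q + iA A * P.p) ^ 3 * iA A * P.m2 * P.u ^ 2 + (1 - P.al * P.p * P.q) ^ 3
    * (P.q - iA A * P.p) ^ 2 * (P.q + iA A * P.p) ^ 3 * iA A ^ 2 * P.n2 * P.u ^ 2 - (1 - P.al * P.p
    * P.q) ^ 3 * (P.q + iA A * P.p) ^ 3 * iA A * P.m2 + (1 - P.al * P.p * P.q) ^ 3 * (P.q + iA A
    * P.p) ^ 3 * iA A ^ 2 * P.n2 - 2 * P.Pp * (P.q - iA A * P.p) ^ 2 * (P.q + iA A * P.p) ^ 3 * P.al ^ 2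
    * iA A * P.q ^ 2 * P.ub - 2 * P.Qx * (P.q - iA A * P.p) ^ 2 * (P.q + iA A * P.p) ^ 3 * P.al ^ 2
    * iA A * P.p ^ 2 * P.ub) * P.hu + (-P.ddP * (1 - P.al * P.p * P.q) ^ 2 * (P.q - iA A * P.p) ^ 2
    * (P.q + iA A * P.p) ^ 2 * iA A - 2 * P.dP * (1 - P.al * P.p * P.q) * (P.q - iA A * P.p) ^ 2
    * (P.q + iA A * P.p) ^ 2 * P.al * iA A * P.q + 2 * P.dP * (1 - P.al * P.p * P.q) ^ 2 * (P.q - iA A
    * P.p) * (P.q + iA A * P.p) * iA A * P.p + P.dP * (1 - P.al * P.p * P.q) ^ 2 * (P.q - iA A * P.p)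
    * (P.q + iA A * P.p) ^ 2 + 2 * P.dP * (1 - P.al * P.p * P.q) ^ 2 * (P.q - iA A * P.p) * (P.q
    + iA A * P.p) ^ 2 * iA A * P.p * P.ub - P.dP * (1 - P.al * P.p * P.q) ^ 2 * (P.q - iA A * P.p) ^ 2
    * (P.q + iA A * P.p) - P.dP * (1 - P.al * P.p * P.q) ^ 2 * (P.q - iA A * P.p) ^ 2 * (P.q + iA A
    * P.p) ^ 2 * P.ub + 4 * (1 - P.al * P.p * P.q) * P.Pp * (P.q - iA A * P.p) * (P.q + iA A * P.p)
    * P.al * iA A * P.p * P.q + 4 * (1 - P.al * P.p * P.q) * P.Pp * (P.q - iA A * P.p) * (P.q + iA A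
    * P.p) ^ 2 * P.al * iA A * P.p * P.q * P.ub - 2 * (1 - P.al * P.p * P.q) * P.Qx * (P.q - iA A
    * P.p) * (P.q + iA A * P.p) ^ 2 * P.al * iA A * P.p - 2 * (1 - P.al * P.p * P.q) * P.Qx * (P.q
    - iA A * P.p) ^ 2 * (P.q + iA A * P.p) * P.al * iA A * P.p - 2 * (1 - P.al * P.p * P.q) * P.Qx
    * (P.q - iA A * P.p) ^ 2 * (P.q + iA A * P.p) ^ 2 * P.al * iA A * P.p * P.ub + 2 * (1 - P.al
    * P.p * P.q) ^ 2 * P.Pp * (P.q - iA A * P.p) * (P.q + iA A * P.p) * iA A - 2 * (1 - P.al * P.p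
    * P.q) ^ 2 * P.Pp * (P.q - iA A * P.p) * (P.q + iA A * P.p) * iA A ^ 2 * P.p * P.ub + 2 * (1
    - P.al * P.p * P.q) ^ 2 * P.Pp * (P.q - iA A * P.p) * (P.q + iA A * P.p) ^ 2 * iA A * P.ub - 2
    * (1 - P.al * P.p * P.q) ^ 2 * P.Pp * (P.q - iA A * P.p) * (P.q + iA A * P.p) ^ 2 * iA A ^ 2
    * P.p * P.ub ^ 2 - 2 * (1 - P.al * P.p * P.q) ^ 2 * P.Pp * (P.q - iA A * P.p) * iA A ^ 2 * P.p
    - 4 * (1 - P.al * P.p * P.q) ^ 2 * P.Pp * (P.q + iA A * P.p) * iA A * P.p ^ 2 * P.ub + 2 * (1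
    - P.al * P.p * P.q) ^ 2 * P.Pp * (P.q + iA A * P.p) * iA A ^ 2 * P.p - 4 * (1 - P.al * P.p * P.q) ^ 2
    * P.Pp * (P.q + iA A * P.p) ^ 2 * iA A * P.p ^ 2 * P.ub ^ 2 + 2 * (1 - P.al * P.p * P.q) ^ 2
    * P.Pp * (P.q + iA A * P.p) ^ 2 * iA A ^ 2 * P.p * P.ub - 4 * (1 - P.al * P.p * P.q) ^ 2 * P.Pp
    * iA A * P.p ^ 2 - 2 * (1 - P.al * P.p * P.q) ^ 2 * P.Qx * (P.q - iA A * P.p) * (P.q + iA A * P.p)
    * P.p * P.ub - 2 * (1 - P.al * P.p * P.q) ^ 2 * P.Qx * (P.q - iA A * P.p) * (P.q + iA A * P.p) ^ 2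
    * P.p * P.ub ^ 2 - 2 * (1 - P.al * P.p * P.q) ^ 2 * P.Qx * (P.q - iA A * P.p) * P.p - (1 - P.al
    * P.p * P.q) ^ 2 * P.Qx * (P.q - iA A * P.p) ^ 2 * (P.q + iA A * P.p) * iA A * P.ub - (1 - P.al
    * P.p * P.q) ^ 2 * P.Qx * (P.q - iA A * P.p) ^ 2 * (P.q + iA A * P.p) ^ 2 * iA A * P.ub ^ 2 - (1
    - P.al * P.p * P.q) ^ 2 * P.Qx * (P.q - iA A * P.p) ^ 2 * iA A + 2 * (1 - P.al * P.p * P.q) ^ 2
    * P.Qx * (P.q + iA A * P.p) * P.p - (1 - P.al * P.p * P.q) ^ 2 * P.Qx * (P.q + iA A * P.p) ^ 2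
    * iA A + 2 * (1 - P.al * P.p * P.q) ^ 2 * P.Qx * (P.q + iA A * P.p) ^ 2 * P.p * P.ub - (1 - P.al
    * P.p * P.q) ^ 3 * (P.q - iA A * P.p) ^ 3 * (P.q + iA A * P.p) * iA A * P.m2 * P.ub - (1 - P.al
    * P.p * P.q) ^ 3 * (P.q - iA A * P.p) ^ 3 * (P.q + iA A * P.p) * iA A ^ 2 * P.n2 * P.ub - (1
    - P.al * P.p * P.q) ^ 3 * (P.q - iA A * P.p) ^ 3 * (P.q + iA A * P.p) ^ 2 * iA A * P.m2 * P.ub ^ 2
    - (1 - P.al * P.p * P.q) ^ 3 * (P.q - iA A * P.p) ^ 3 * (P.q + iA A * P.p) ^ 2 * iA A ^ 2 * P.n2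
    * P.ub ^ 2 - (1 - P.al * P.p * P.q) ^ 3 * (P.q - iA A * P.p) ^ 3 * iA A * P.m2 - (1 - P.al * P.p
    * P.q) ^ 3 * (P.q - iA A * P.p) ^ 3 * iA A ^ 2 * P.n2 - 2 * P.Pp * (P.q - iA A * P.p) ^ 2 * (P.q
    + iA A * P.p) ^ 2 * P.al ^ 2 * iA A * P.q ^ 2 - 2 * P.Qx * (P.q - iA A * P.p) ^ 2 * (P.q + iA A
    * P.p) ^ 2 * P.al ^ 2 * iA A * P.p ^ 2) * P.hub + (8 * P.al * P.ep * iA A * P.p ^ 3 * P.q ^ 3
    - 8 * P.al * P.ep * iA A * P.p ^ 5 * P.q + 22 * P.al * iA A * P.m2 * P.p ^ 3 * P.q ^ 2 - 4 * P.al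
    * iA A * P.m2 * P.p ^ 5 - 12 * P.al * iA A * P.n2 * P.p ^ 2 * P.q ^ 3 + 8 * P.al * iA A * P.n2
    * P.p ^ 4 * P.q - 6 * P.al * iA A ^ 3 * P.m2 * P.p ^ 5 - 8 * P.al * iA A ^ 3 * P.n2 * P.p ^ 4
    * P.q - 2 * P.al ^ 2 * P.ep * iA A * P.p ^ 4 * P.q ^ 4 + 4 * P.al ^ 2 * P.ep * iA A * P.p ^ 6
    * P.q ^ 2 - 2 * P.al ^ 2 * P.ep * iA A ^ 3 * P.p ^ 6 * P.q ^ 2 + 6 * P.al ^ 2 * iA A * P.k * P.p ^ 2
    * P.q ^ 4 - 18 * P.al ^ 2 * iA A * P.k * P.p ^ 4 * P.q ^ 2 + 4 * P.al ^ 2 * iA A * P.k * P.p ^ 6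
    - 28 * P.al ^ 2 * iA A * P.m2 * P.p ^ 4 * P.q ^ 3 + 8 * P.al ^ 2 * iA A * P.m2 * P.p ^ 6 * P.q
    + 10 * P.al ^ 2 * iA A * P.n2 * P.p ^ 3 * P.q ^ 4 - 4 * P.al ^ 2 * iA A * P.n2 * P.p ^ 5 * P.q ^ 2
    - 2 * P.al ^ 2 * iA A ^ 3 * P.k * P.p ^ 4 * P.q ^ 2 + 10 * P.al ^ 2 * iA A ^ 3 * P.k * P.p ^ 6
    + 8 * P.al ^ 2 * iA A ^ 3 * P.m2 * P.p ^ 6 * P.q + 6 * P.al ^ 2 * iA A ^ 3 * P.n2 * P.p ^ 5 * P.q ^ 2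
    - 8 * P.al ^ 3 * iA A * P.k * P.p ^ 3 * P.q ^ 5 + 32 * P.al ^ 3 * iA A * P.k * P.p ^ 5 * P.q ^ 3
    - 8 * P.al ^ 3 * iA A * P.k * P.p ^ 7 * P.q + 10 * P.al ^ 3 * iA A * P.m2 * P.p ^ 5 * P.q ^ 4
    - 4 * P.al ^ 3 * iA A * P.m2 * P.p ^ 7 * P.q ^ 2 - 4 * P.al ^ 3 * iA A * P.n2 * P.p ^ 4 * P.q ^ 5
    - 16 * P.al ^ 3 * iA A ^ 3 * P.k * P.p ^ 7 * P.q - 2 * P.al ^ 3 * iA A ^ 3 * P.m2 * P.p ^ 7 * P.q ^ 2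
    + 2 * P.al ^ 4 * iA A * P.k * P.p ^ 4 * P.q ^ 6 - 14 * P.al ^ 4 * iA A * P.k * P.p ^ 6 * P.q ^ 4
    + 4 * P.al ^ 4 * iA A * P.k * P.p ^ 8 * P.q ^ 2 + 2 * P.al ^ 4 * iA A ^ 3 * P.k * P.p ^ 6 * P.q ^ 4
    + 6 * P.al ^ 4 * iA A ^ 3 * P.k * P.p ^ 8 * P.q ^ 2 - 6 * P.ep * iA A * P.p ^ 2 * P.q ^ 2 + 4
    * P.ep * iA A * P.p ^ 4 + 2 * P.ep * iA A ^ 3 * P.p ^ 4 - 4 * iA A * P.m2 * P.p ^ 2 * P.q + 6
    * iA A * P.n2 * P.p * P.q ^ 2 - 4 * iA A * P.n2 * P.p ^ 3 + 2 * iA A ^ 3 * P.n2 * P.p ^ 3) * iA_sq (A := A)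

theorem be_24 : T.ext P.be 2 4 = -P.ddP * hf A * P.w 2 4 := by
  simp only [T.ext24, P.be_v, P.w_v, dmul, dsq, d2n, d_iA, d_hf, map_add, map_sub, map_neg, map_zero,
    Derivation.map_one_eq_zero, P.tab2, P.tabH]
  all_goals ring

theorem be_25 : T.ext P.be 2 5 = -P.ddP * hf A * P.w 2 5 := by
  simp only [T.ext25, P.be_v, P.w_v, dmul, dsq, d2n, d_iA, d_hf, map_add, map_sub, map_neg, map_zero,
    Derivation.map_one_eq_zero, P.tab2, P.tabB]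
  all_goals ring

theorem be_34 : T.ext P.be 3 4 = -P.ddP * hf A * P.w 3 4 := by
  simp only [T.ext34, P.be_v, P.w_v, dmul, dsq, d2n, d_iA, d_hf, map_add, map_sub, map_neg, map_zero,
    Derivation.map_one_eq_zero, P.tab3, P.tabH]
  all_goals ring

theorem be_35 : T.ext P.be 3 5 = -P.ddP * hf A * P.w 3 5 := by
  simp only [T.ext35, P.be_v, P.w_v, dmul, dsq, d2n, d_iA, d_hf, map_add, map_sub, map_neg, map_zero,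
    Derivation.map_one_eq_zero, P.tab3, P.tabB]
  all_goals ring

theorem be_45 : T.ext P.be 4 5 = -P.ddP * hf A * P.w 4 5 := by
  simp only [T.ext45, P.be_v, P.w_v, dmul, dsq, d2n, d_iA, d_hf, map_add, map_sub, map_neg, map_zero,
    Derivation.map_one_eq_zero, P.tabH, P.tabB]
  all_goals ring

theorem ext_be (a b : Fin 6) : T.ext P.be a b = -P.ddP * hf A * P.w a b :=
  T.ext_eq P.be _ P.wu
    P.be_01 P.be_02 P.be_03 P.be_04 P.be_05 P.be_12 P.be_13 P.be_14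
    P.be_15 P.be_23 P.be_24 P.be_25 P.be_34 P.be_35 P.be_45 a b

theorem dpi_0 : T.D 0 (T.d2 P.p) * T.d3 P.p - T.d2 P.p * T.D 0 (T.d3 P.p)
    = 2 * iA A * (T.d2 P.p * T.d3 P.p) * P.be 0
      + iA A * hf A * P.dP * (1 - P.al * P.p * P.q) ^ 2 * P.u * P.ub * P.nu 0 := by
  simp only [T.D_v, P.be_v, P.nu_v, P.tab0, Hs]
  apply P.clr 2 2 0 1
  linear_combination
    (P.q - iA A * P.p) ^ 2 * (P.q + iA A * P.p) ^ 2 * ((2 * P.dP * (1 - P.al * P.p * P.q) ^ 2 * hf A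
    * iA A * P.sv * P.u * P.ub - 2 * iA A * P.p * T.d0 P.q * P.u * P.ub + T.d0 P.q * P.u - T.d0 P.q
    * P.ub) * P.vpp) + (-2 * (1 - P.al * P.p * P.q) ^ 2 * P.Pp * (P.q - iA A * P.p) * (P.q + iA A
    * P.p) ^ 2 * iA A * P.p * T.d0 P.q * P.u * P.ub ^ 2 + (1 - P.al * P.p * P.q) ^ 2 * P.Pp * (P.q
    - iA A * P.p) * (P.q + iA A * P.p) ^ 2 * T.d0 P.q * P.u * P.ub - (1 - P.al * P.p * P.q) ^ 2 * P.Pp
    * (P.q - iA A * P.p) * (P.q + iA A * P.p) ^ 2 * T.d0 P.q * P.ub ^ 2 - 2 * (1 - P.al * P.p * P.q) ^ 2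
    * P.Pp * (P.q + iA A * P.p) ^ 2 * iA A * P.p * T.d0 P.q * P.ub ^ 2 + (1 - P.al * P.p * P.q) ^ 2
    * P.Pp * (P.q + iA A * P.p) ^ 2 * T.d0 P.q * P.ub) * P.hu + (-(1 - P.al * P.p * P.q) ^ 2 * P.Pp
    * (P.q - iA A * P.p) * (P.q + iA A * P.p) * T.d0 P.q * P.ub - (1 - P.al * P.p * P.q) ^ 2 * P.Pp
    * (P.q - iA A * P.p) * T.d0 P.q - 2 * (1 - P.al * P.p * P.q) ^ 2 * P.Pp * (P.q + iA A * P.p)
    * iA A * P.p * T.d0 P.q * P.ub + (1 - P.al * P.p * P.q) ^ 2 * P.Pp * (P.q + iA A * P.p) * T.d0 P.q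
    - 2 * (1 - P.al * P.p * P.q) ^ 2 * P.Pp * iA A * P.p * T.d0 P.q) * P.hub

theorem dpi_1 : T.D 1 (T.d2 P.p) * T.d3 P.p - T.d2 P.p * T.D 1 (T.d3 P.p)
    = 2 * iA A * (T.d2 P.p * T.d3 P.p) * P.be 1
      + iA A * hf A * P.dP * (1 - P.al * P.p * P.q) ^ 2 * P.u * P.ub * P.nu 1 := by
  simp only [T.D_v, P.be_v, P.nu_v, P.tab1, Hs]
  apply P.clr 1 1 0 0
  linear_combination
    (2 * (P.q + iA A * P.p) * iA A * P.p * T.d3 P.p * T.d2 P.p * T.d1 P.q * P.ub - (P.q + iA A * P.p)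
    * T.d3 P.p * T.d2 P.p * T.d1 P.q) * P.hu + ((P.q - iA A * P.p) * T.d3 P.p * T.d2 P.p * T.d1 P.q
    + 2 * iA A * P.p * T.d3 P.p * T.d2 P.p * T.d1 P.q) * P.hub

theorem dpi_2 : T.D 2 (T.d2 P.p) * T.d3 P.p - T.d2 P.p * T.D 2 (T.d3 P.p)
    = 2 * iA A * (T.d2 P.p * T.d3 P.p) * P.be 2
      + iA A * hf A * P.dP * (1 - P.al * P.p * P.q) ^ 2 * P.u * P.ub * P.nu 2 := by
  simp only [T.D_v, P.be_v, P.nu_v, P.tab2, Hs]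
  apply P.clr 1 1 1 1
  linear_combination
    (1 - P.al * P.p * P.q) * (P.q - iA A * P.p) * (P.q + iA A * P.p) * ((-P.dP * (1 - P.al * P.p
    * P.q) ^ 2 * iA A ^ 2 * T.d2 P.p * P.u * P.ub - P.dP * (1 - P.al * P.p * P.q) ^ 2 * T.d2 P.p
    * P.u * P.ub) * hhf (A := A)) + (-P.dP * (1 - P.al * P.p * P.q) ^ 3 * (P.q + iA A * P.p) * iA A ^ 2
    * T.d2 P.p * P.ub - P.dP * (1 - P.al * P.p * P.q) ^ 3 * (P.q + iA A * P.p) * T.d2 P.p * P.ub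
    + 4 * (1 - P.al * P.p * P.q) * (P.q + iA A * P.p) * iA A ^ 2 * P.p * T.d3 P.p * T.d2 P.p ^ 2
    * P.ub + 4 * (1 - P.al * P.p * P.q) * (P.q + iA A * P.p) * P.p * T.d3 P.p * T.d2 P.p ^ 2 * P.ub)
    * P.hu + (-P.dP * (1 - P.al * P.p * P.q) ^ 3 * iA A ^ 2 * T.d2 P.p - P.dP * (1 - P.al * P.p * P.q) ^ 3
    * T.d2 P.p + 4 * (1 - P.al * P.p * P.q) * iA A ^ 2 * P.p * T.d3 P.p * T.d2 P.p ^ 2 + 4 * (1 - P.al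
    * P.p * P.q) * P.p * T.d3 P.p * T.d2 P.p ^ 2) * P.hub + (-4 * (P.q - iA A * P.p) * (P.q + iA A
    * P.p) * P.al * iA A ^ 2 * T.d3 P.p * T.d2 P.p ^ 2 * P.q - 4 * (P.q - iA A * P.p) * (P.q + iA A
    * P.p) * P.al * T.d3 P.p * T.d2 P.p ^ 2 * P.q) * P.hoi + (3 * P.dP * P.al * P.p * T.d2 P.p * P.q
    - 3 * P.dP * P.al ^ 2 * P.p ^ 2 * T.d2 P.p * P.q ^ 2 + P.dP * P.al ^ 3 * P.p ^ 3 * T.d2 P.p * P.q ^ 3
    - P.dP * T.d2 P.p + 4 * P.al * iA A ^ 2 * P.p ^ 2 * T.d3 P.p * T.d2 P.p ^ 2 * P.q - 4 * P.al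
    * P.p ^ 2 * T.d3 P.p * T.d2 P.p ^ 2 * P.q - 4 * P.al * T.d3 P.p * T.d2 P.p ^ 2 * P.q ^ 3 + 4
    * P.p * T.d3 P.p * T.d2 P.p ^ 2) * iA_sq (A := A)

theorem dpi_3 : T.D 3 (T.d2 P.p) * T.d3 P.p - T.d2 P.p * T.D 3 (T.d3 P.p)
    = 2 * iA A * (T.d2 P.p * T.d3 P.p) * P.be 3
      + iA A * hf A * P.dP * (1 - P.al * P.p * P.q) ^ 2 * P.u * P.ub * P.nu 3 := by
  simp only [T.D_v, P.be_v, P.nu_v, P.tab3, Hs]
  apply P.clr 1 1 1 1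
  linear_combination
    (1 - P.al * P.p * P.q) * (P.q - iA A * P.p) * (P.q + iA A * P.p) * ((P.dP * (1 - P.al * P.p * P.q) ^ 2
    * iA A ^ 2 * T.d3 P.p * P.u * P.ub + P.dP * (1 - P.al * P.p * P.q) ^ 2 * T.d3 P.p * P.u * P.ub)
    * hhf (A := A)) + (P.dP * (1 - P.al * P.p * P.q) ^ 3 * (P.q + iA A * P.p) * iA A ^ 2 * T.d3 P.p
    * P.ub + P.dP * (1 - P.al * P.p * P.q) ^ 3 * (P.q + iA A * P.p) * T.d3 P.p * P.ub - 4 * (1 - P.al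
    * P.p * P.q) * (P.q + iA A * P.p) * iA A ^ 2 * P.p * T.d3 P.p ^ 2 * T.d2 P.p * P.ub - 4 * (1
    - P.al * P.p * P.q) * (P.q + iA A * P.p) * P.p * T.d3 P.p ^ 2 * T.d2 P.p * P.ub) * P.hu + (P.dP
    * (1 - P.al * P.p * P.q) ^ 3 * iA A ^ 2 * T.d3 P.p + P.dP * (1 - P.al * P.p * P.q) ^ 3 * T.d3 P.p
    - 4 * (1 - P.al * P.p * P.q) * iA A ^ 2 * P.p * T.d3 P.p ^ 2 * T.d2 P.p - 4 * (1 - P.al * P.p
    * P.q) * P.p * T.d3 P.p ^ 2 * T.d2 P.p) * P.hub + (4 * (P.q - iA A * P.p) * (P.q + iA A * P.p)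
    * P.al * iA A ^ 2 * T.d3 P.p ^ 2 * T.d2 P.p * P.q + 4 * (P.q - iA A * P.p) * (P.q + iA A * P.p)
    * P.al * T.d3 P.p ^ 2 * T.d2 P.p * P.q) * P.hoi + (-3 * P.dP * P.al * P.p * T.d3 P.p * P.q + 3
    * P.dP * P.al ^ 2 * P.p ^ 2 * T.d3 P.p * P.q ^ 2 - P.dP * P.al ^ 3 * P.p ^ 3 * T.d3 P.p * P.q ^ 3
    + P.dP * T.d3 P.p - 4 * P.al * iA A ^ 2 * P.p ^ 2 * T.d3 P.p ^ 2 * T.d2 P.p * P.q + 4 * P.al
    * P.p ^ 2 * T.d3 P.p ^ 2 * T.d2 P.p * P.q + 4 * P.al * T.d3 P.p ^ 2 * T.d2 P.p * P.q ^ 3 - 4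
    * P.p * T.d3 P.p ^ 2 * T.d2 P.p) * iA_sq (A := A)

theorem dpi_4 : T.D 4 (T.d2 P.p) * T.d3 P.p - T.d2 P.p * T.D 4 (T.d3 P.p)
    = 2 * iA A * (T.d2 P.p * T.d3 P.p) * P.be 4
      + iA A * hf A * P.dP * (1 - P.al * P.p * P.q) ^ 2 * P.u * P.ub * P.nu 4 := by
  simp only [T.D_v, P.be_v, P.nu_v, P.tabH, Hs]
  apply P.clr 0 0 0 0
  linear_combination
    (2 * T.d3 P.p * T.d2 P.p) * iA_sq (A := A)

theorem dpi_5 : T.D 5 (T.d2 P.p) * T.d3 P.p - T.d2 P.p * T.D 5 (T.d3 P.p)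
    = 2 * iA A * (T.d2 P.p * T.d3 P.p) * P.be 5
      + iA A * hf A * P.dP * (1 - P.al * P.p * P.q) ^ 2 * P.u * P.ub * P.nu 5 := by
  simp only [T.D_v, P.be_v, P.nu_v, P.tabB, Hs]
  apply P.clr 0 0 0 0
  linear_combination
    (-2 * T.d3 P.p * T.d2 P.p) * iA_sq (A := A)

/-- The phase of `ð p`: `Im (dπ / π) = be + (P' / (2 P)) nu`. -/
theorem dpi (a : Fin 6) : T.D a (T.d2 P.p) * T.d3 P.p - T.d2 P.p * T.D a (T.d3 P.p)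
    = 2 * iA A * (T.d2 P.p * T.d3 P.p) * P.be a
      + iA A * hf A * P.dP * (1 - P.al * P.p * P.q) ^ 2 * P.u * P.ub * P.nu a := by
  fin_cases a
  exacts [P.dpi_0, P.dpi_1, P.dpi_2, P.dpi_3, P.dpi_4, P.dpi_5]

theorem wedge (a b : Fin 6) : T.D a P.p * P.nu b - T.D b P.p * P.nu a = P.Pp * P.w a b := by
  have h := P.vpp
  fin_cases a <;> fin_cases b <;>
    simp [TD.D, nu, w, wu, P.x0, P.x1, P.Hp, P.Hbp] <;>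
    first | ring1 | linear_combination iA A * h | linear_combination -iA A * h

/-- The derivative of `g nu` for a function `g` of `p`. -/
theorem ext_gnu {g g1 : A} (hg : ∀ a, T.D a g = g1 * T.D a P.p) (a b : Fin 6) :
    T.ext (g • P.nu) a b = (g1 * P.Pp + g * P.dP) * P.w a b := by
  rw [T.ext_smul, P.ext_nu, hg, hg]
  linear_combination g1 * P.wedge a b

theorem D_const {x : A} (h : T.Const x) (a : Fin 6) : T.D a x = 0 := by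
  fin_cases a
  exacts [h.k0, h.k1, h.k2, h.k3, h.kH, h.kHb]

/-- General closed combination: `x be + y lam + g nu` with constants `x, y`. -/
theorem closed {x y g g1 : A} (hx : T.Const x) (hy : T.Const y)
    (hg : ∀ a, T.D a g = g1 * T.D a P.p)
    (h : g1 * P.Pp + g * P.dP = x * hf A * P.ddP + 2 * y * P.p) (a b : Fin 6) :
    T.ext (x • P.be + y • P.lam + g • P.nu) a b = 0 := by
  rw [T.ext_add, T.ext_add, P.ext_gnu hg, T.ext_smul, T.ext_smul, P.ext_be, P.ext_lam, D_const hx,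
    D_const hx, D_const hy, D_const hy]
  linear_combination P.w a b * h

end PX
end Vale.Agent.P354NP
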