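import Vale.Agent.P354NP.Map

set_option linter.unusedSimpArgs false

namespace Vale.Agent.P354NP

open Vale.Agent.P354XG Vale.Agent.P354XR

variable {A : Type} [CommRing A] [StarRing A] [Algebra ℂ A] {T : TD A} {K : KC A} {S : Ideal A}
  {ka : A} {ev : A →ₐ[ℂ] A}

/-- Real constants. -/
structure RC (ev : A →ₐ[ℂ] A) (x : A) : Prop where
  e : ev x = x
  s : star x = x

namespace RC
variable {x y : A}
theorem add (h : RC ev x) (g : RC ev y) : RC ev (x + y) :=
  ⟨by rw [map_add, h.e, g.e], by rw [star_add, h.s, g.s]⟩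
theorem sub (h : RC ev x) (g : RC ev y) : RC ev (x - y) :=
  ⟨by rw [map_sub, h.e, g.e], by rw [star_sub, h.s, g.s]⟩
theorem mul (h : RC ev x) (g : RC ev y) : RC ev (x * y) :=
  ⟨by rw [map_mul, h.e, g.e], by rw [star_mul', h.s, g.s]⟩
theorem neg (h : RC ev x) : RC ev (-x) := ⟨by rw [map_neg, h.e], by rw [star_neg, h.s]⟩
theorem pow (h : RC ev x) (n : ℕ) : RC ev (x ^ n) :=
  ⟨by rw [map_pow, h.e], by rw [star_pow, h.s]⟩
theorem one : RC ev 1 := ⟨map_one ev, star_one A⟩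
theorem zero : RC ev 0 := ⟨map_zero ev, star_zero A⟩
theorem two : RC ev 2 := ⟨map_ofNat ev 2, star_ofNat 2⟩
theorem hf : RC ev (hf A) := ⟨m_hf ev, shf⟩
theorem inv (h : RC ev x) (e : x * y = 1) : RC ev y := by
  refine ⟨?_, sinv e h.s⟩
  have h1 := congrArg ev e
  rw [map_mul, h.e, map_one] at h1
  linear_combination y * h1 - ev y * e
theorem const (h : RC ev x) (e : Ev T K S ev) : T.Const x := by rw [← h.e]; exact e.k x
end RC

theorem rc_of (e : Ev T K S ev) {x : A} (k : T.Const x) (s : star x = x) : RC ev x :=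
  ⟨e.const k.D, s⟩

/-- Congruence modulo the small elements. -/
abbrev vl (S : Ideal A) : A →+* A ⧸ S := Ideal.Quotient.mk S

omit [StarRing A] [Algebra ℂ A] in
theorem vl0 {x : A} : vl S x = 0 ↔ x ∈ S := Ideal.Quotient.eq_zero_iff_mem
omit [StarRing A] [Algebra ℂ A] in
theorem vle {x y : A} : vl S x = vl S y ↔ x - y ∈ S := Ideal.Quotient.eq

omit [StarRing A] [Algebra ℂ A] in
theorem unit_of' (inv : ∀ s ∈ S, IsUnit (1 + s)) {x : A} (hx : IsUnit (vl S x)) : IsUnit x := by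
  obtain ⟨y, hy⟩ := hx.exists_right_inv
  obtain ⟨y, rfl⟩ := Ideal.Quotient.mk_surjective y
  have h1 : x * y - 1 ∈ S := vle.mp (by rw [map_mul, map_one, hy])
  have h2 := inv _ h1
  rw [add_sub_cancel] at h2
  exact isUnit_of_mul_isUnit_left h2

section
variable (h : Near T K S ka)
include h

theorem n_unit {x : A} (hx : IsUnit (vl S x)) : IsUnit x := unit_of' h.inv hx

theorem n_unit' {x y : A} (hy : IsUnit y) (e : vl S x = vl S y) : IsUnit x :=
  n_unit h (by rw [e]; exact hy.map _)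

theorem n_star {x y : A} (e : vl S x = vl S y) : vl S (star x) = vl S (star y) :=
  vle.mpr (by rw [← star_sub]; exact h.cS _ (vle.mp e))

theorem n_D (a : Fin 6) {x y : A} (e : vl S x = vl S y) : vl S (T.D a x) = vl S (T.D a y) :=
  vle.mpr (by rw [← map_sub]; exact h.DS a _ (vle.mp e))

theorem n_si : star (iA A) = -iA A := by rw [← h.c]; exact h.is.c_ii

theorem n_hr (x : ℝ) : star (algebraMap ℂ A x) = algebraMap ℂ A x := by
  rw [← h.c, h.is.calg, Complex.conj_ofReal]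

theorem n_st : star K.r = K.r ∧ star K.x = K.x ∧ star K.s = K.sb ∧ star K.sb = K.s ∧
    star K.N = K.N ∧ star K.Ni = K.Ni ∧ star K.sg = K.sg ∧ star K.a = K.a ∧ star K.M = K.M := by
  simp only [← h.c, h.is.tab, and_self]

theorem n_hz : (K.r - iA A * K.a * K.x) * K.z = 1 := by
  unfold KC.z
  rw [ii_eq]
  linear_combination h.is.hg - K.sg * K.a ^ 2 * K.x ^ 2 * iA_sq (A := A)

theorem n_hzb : (K.r + iA A * K.a * K.x) * K.zb = 1 := by
  unfold KC.zb
  rw [ii_eq]
  linear_combination h.is.hg - K.sg * K.a ^ 2 * K.x ^ 2 * iA_sq (A := A)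

theorem n_sz : star K.z = K.zb := by
  simp only [KC.z, KC.zb, ii_eq, star_mul', star_add, n_st h, n_si h]; ring

theorem n_sg : K.z * K.zb = K.sg := by
  have := n_hz h
  unfold KC.zb
  rw [ii_eq]
  linear_combination K.sg * this

theorem n_uka : IsUnit ka := by
  have : IsUnit (ka ^ 3) := by rw [h.ka3]; exact (PD.u2.mul h.uM).neg
  exact (isUnit_pow_iff (by norm_num)).mp this

theorem hens {c0 : A} (h0 : c0 ∈ S) (c2 c3 c4 : A) :
    ∃ y ∈ S, c0 + y + c2 * y ^ 2 + c3 * y ^ 3 + c4 * y ^ 4 = 0 := by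
  obtain ⟨z, hz⟩ := h.root (c2 * c0) (S.mul_mem_left _ h0) (c3 * c0 * c0) (S.mul_mem_left _ h0)
    (c4 * c0 ^ 2 * c0) (S.mul_mem_left _ h0)
  exact ⟨c0 * z, S.mul_mem_right _ h0, by linear_combination c0 * hz⟩

theorem huniq {c0 c2 c3 c4 y y' : A} (hy : y ∈ S) (hy' : y' ∈ S)
    (e : c0 + y + c2 * y ^ 2 + c3 * y ^ 3 + c4 * y ^ 4 = 0)
    (e' : c0 + y' + c2 * y' ^ 2 + c3 * y' ^ 3 + c4 * y' ^ 4 = 0) : y = y' := by
  have hu := h.inv (y * (c2 + c3 * y + c4 * y ^ 2) + y' * (c2 + c3 * (y + y')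
    + c4 * (y ^ 2 + y * y' + y' ^ 2))) (S.add_mem (S.mul_mem_right _ hy) (S.mul_mem_right _ hy'))
  apply hu.mul_left_cancel
  linear_combination e - e'

theorem hens_r {c0 c2 c3 c4 : A} (h0 : c0 ∈ S) (s0 : star c0 = c0) (s2 : star c2 = c2)
    (s3 : star c3 = c3) (s4 : star c4 = c4) :
    ∃ y ∈ S, star y = y ∧ c0 + y + c2 * y ^ 2 + c3 * y ^ 3 + c4 * y ^ 4 = 0 := by
  obtain ⟨y, hy, e⟩ := hens h h0 c2 c3 c4
  refine ⟨y, hy, huniq h (h.cS _ hy) hy ?_ e, e⟩
  simpa only [star_add, star_mul', star_pow, star_zero, s0, s2, s3, s4] using congrArg star e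

theorem hens_e (e : Ev T K S ev) {c0 c2 c3 c4 : A} (h0 : c0 ∈ S) (s0 : ev c0 = c0) (s2 : ev c2 = c2)
    (s3 : ev c3 = c3) (s4 : ev c4 = c4) :
    ∃ y ∈ S, ev y = y ∧ c0 + y + c2 * y ^ 2 + c3 * y ^ 3 + c4 * y ^ 4 = 0 := by
  obtain ⟨y, hy, g⟩ := hens h h0 c2 c3 c4
  refine ⟨y, hy, huniq h (e.S _ hy) hy ?_ g, g⟩
  simpa only [map_add, map_mul, map_pow, map_zero, s0, s2, s3, s4] using congrArg ev g

theorem hens_rc (e : Ev T K S ev) {c0 c2 c3 c4 : A} (h0 : c0 ∈ S) (s0 : RC ev c0) (s2 : RC ev c2)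
    (s3 : RC ev c3) (s4 : RC ev c4) :
    ∃ y ∈ S, RC ev y ∧ c0 + y + c2 * y ^ 2 + c3 * y ^ 3 + c4 * y ^ 4 = 0 := by
  obtain ⟨y, hy, s, g⟩ := hens_r h h0 s0.s s2.s s3.s s4.s
  obtain ⟨y', hy', s', g'⟩ := hens_e h e h0 s0.e s2.e s3.e s4.e
  obtain rfl := huniq h hy hy' g g'
  exact ⟨y, hy, ⟨s', s⟩, g⟩

/-- Square roots of constants. -/
theorem sqrt_e (e : Ev T K S ev) {u w : A} (hw : IsUnit w) (eu : ev u = u) (ew : ev w = w)
    (c : vl S u = vl S (w ^ 2)) : ∃ y, ev y = y ∧ y ^ 2 = u ∧ vl S y = vl S w ∧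
      (star u = u → star w = w → star y = y) := by
  obtain ⟨wi, hi⟩ := hw.exists_right_inv
  have ei : ev wi = wi := by
    have h1 := congrArg ev hi
    rw [map_mul, ew, map_one] at h1
    linear_combination wi * h1 - ev wi * hi
  have h0 : hf A * (1 - u * wi ^ 2) ∈ S := by
    refine S.mul_mem_left _ (vl0.mp ?_)
    have := congrArg (vl S) hi
    simp only [map_mul, map_sub, map_pow, map_one, c] at this ⊢
    linear_combination -(vl S w * vl S wi + 1) * this
  obtain ⟨y, hy, g1, g⟩ := hens_e h e (c2 := hf A) (c3 := 0) (c4 := 0) h0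
    (by simp only [map_mul, map_sub, map_pow, map_one, m_hf, eu, ei]) (m_hf ev) (map_zero ev)
    (map_zero ev)
  refine ⟨w * (1 + y), by rw [map_mul, map_add, map_one, ew, g1], ?_, ?_, fun su sw => ?_⟩
  · linear_combination 2 * w ^ 2 * g - (w ^ 2 * (1 - u * wi ^ 2) + w ^ 2 * y ^ 2) * hhf (A := A)
      + u * (w * wi + 1) * hi
  · rw [map_mul, map_add, map_one, vl0.mpr hy, add_zero, mul_one]
  · have : star y = y := by
      refine huniq h (h.cS _ hy) hy ?_ g
      simpa only [star_add, star_sub, star_mul', star_pow, star_zero, star_one, shf, su,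
        sinv hi sw] using congrArg star g
    rw [star_mul', star_add, star_one, sw, this]

omit h in
theorem n_ev (e : Ev T K S ev) {x y : A} (g : vl S x = vl S y) : vl S (ev x) = vl S (ev y) :=
  vle.mpr (by rw [← map_sub]; exact e.S _ (vle.mp g))

theorem rc_a (e : Ev T K S ev) : RC ev K.a := rc_of e h.ka' (n_st h).2.2.2.2.2.2.2.1
theorem rc_M (e : Ev T K S ev) : RC ev K.M := rc_of e h.kM (n_st h).2.2.2.2.2.2.2.2
theorem rc_r (e : Ev T K S ev) : RC ev (ev K.r) := ⟨e.ee _, by rw [← e.st, (n_st h).1]⟩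

theorem ev_z (e : Ev T K S ev) : ev K.r * ev K.z = 1 := by
  have := congrArg ev (n_hz h)
  simpa only [map_mul, map_sub, map_one, e.x, mul_zero, sub_zero] using this

theorem ev_zb (e : Ev T K S ev) : ev K.zb = ev K.z := by
  have := congrArg ev (n_hzb h)
  simp only [map_mul, map_add, map_one, e.x, mul_zero, add_zero] at this
  linear_combination ev K.z * this - ev K.zb * ev_z h e

theorem ev_sb (e : Ev T K S ev) : ev K.sb = 1 := by
  rw [← (n_st h).2.2.1, e.st, e.s, star_one]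

end

end Vale.Agent.P354NP
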