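import Vale.Agent.P354NP.Pole

set_option linter.unusedSimpArgs false
set_option linter.unusedTactic false
set_option linter.unreachableTactic false

namespace Vale.Agent.P354NP

variable {A : Type*} [CommRing A] [StarRing A] [Algebra ℂ A]

/-- The standard basis. -/
def ee {A : Type*} [CommRing A] (j : Fin 6) : Fin 6 → A := fun k => if k = j then 1 else 0

omit [StarRing A] [Algebra ℂ A] in
theorem ee_v :
    (ee 0 0 : A) = 1 ∧ (ee 0 1 : A) = 0 ∧ (ee 0 2 : A) = 0 ∧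
    (ee 0 3 : A) = 0 ∧ (ee 0 4 : A) = 0 ∧ (ee 0 5 : A) = 0 ∧
    (ee 1 0 : A) = 0 ∧ (ee 1 1 : A) = 1 ∧ (ee 1 2 : A) = 0 ∧
    (ee 1 3 : A) = 0 ∧ (ee 1 4 : A) = 0 ∧ (ee 1 5 : A) = 0 ∧
    (ee 2 0 : A) = 0 ∧ (ee 2 1 : A) = 0 ∧ (ee 2 2 : A) = 1 ∧
    (ee 2 3 : A) = 0 ∧ (ee 2 4 : A) = 0 ∧ (ee 2 5 : A) = 0 ∧
    (ee 3 0 : A) = 0 ∧ (ee 3 1 : A) = 0 ∧ (ee 3 2 : A) = 0 ∧
    (ee 3 3 : A) = 1 ∧ (ee 3 4 : A) = 0 ∧ (ee 3 5 : A) = 0 ∧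
    (ee 4 0 : A) = 0 ∧ (ee 4 1 : A) = 0 ∧ (ee 4 2 : A) = 0 ∧
    (ee 4 3 : A) = 0 ∧ (ee 4 4 : A) = 1 ∧ (ee 4 5 : A) = 0 ∧
    (ee 5 0 : A) = 0 ∧ (ee 5 1 : A) = 0 ∧ (ee 5 2 : A) = 0 ∧
    (ee 5 3 : A) = 0 ∧ (ee 5 4 : A) = 0 ∧ (ee 5 5 : A) = 1 := by
  simp [ee]

namespace TD
variable (T : TD A)

theorem V_six (x : Fin 6 → A) (f : A) : T.V x f = x 0 * T.d0 f + x 1 * T.d1 f + x 2 * T.d2 f
    + x 3 * T.d3 f + x 4 * T.H f + x 5 * T.Hb f := by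
  simp only [V_ap, Fin.sum_univ_six, D_v]

theorem br0 (x y : Fin 6 → A) : T.br x y 0 = T.V x (y 0) - T.V y (x 0)
    + ((x 0 * y 2 - x 2 * y 0) * (-star T.t2)
    + (x 0 * y 3 - x 3 * y 0) * (-T.t2)
    + (x 0 * y 4 - x 4 * y 0) * (-1)
    + (x 0 * y 5 - x 5 * y 0) * (-1)
    + (x 2 * y 3 - x 3 * y 2) * (star T.r2 - T.r2)) := by
  simp [br, cc, up, Fin.sum_univ_six]
  ring

theorem br1 (x y : Fin 6 → A) : T.br x y 1 = T.V x (y 1) - T.V y (x 1)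
    + ((x 1 * y 2 - x 2 * y 1) * (-T.t)
    + (x 1 * y 3 - x 3 * y 1) * (-star T.t)
    + (x 1 * y 4 - x 4 * y 1) * (1)
    + (x 1 * y 5 - x 5 * y 1) * (1)
    + (x 2 * y 3 - x 3 * y 2) * (T.r - star T.r)) := by
  simp [br, cc, up, Fin.sum_univ_six]
  ring

theorem br2 (x y : Fin 6 → A) : T.br x y 2 = T.V x (y 2) - T.V y (x 2)
    + ((x 0 * y 1 - x 1 * y 0) * (star T.t - T.t2)
    + (x 0 * y 2 - x 2 * y 0) * (star T.r)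
    + (x 1 * y 2 - x 2 * y 1) * (T.r2)
    + (x 2 * y 4 - x 4 * y 2) * (-1)
    + (x 2 * y 5 - x 5 * y 2) * (1)) := by
  simp [br, cc, up, Fin.sum_univ_six]
  ring

theorem br3 (x y : Fin 6 → A) : T.br x y 3 = T.V x (y 3) - T.V y (x 3)
    + ((x 0 * y 1 - x 1 * y 0) * (T.t - star T.t2)
    + (x 0 * y 3 - x 3 * y 0) * (T.r)
    + (x 1 * y 3 - x 3 * y 1) * (star T.r2)
    + (x 3 * y 4 - x 4 * y 3) * (1)
    + (x 3 * y 5 - x 5 * y 3) * (-1)) := by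
  simp [br, cc, up, Fin.sum_univ_six]
  ring

theorem br4 (x y : Fin 6 → A) : T.br x y 4 = T.V x (y 4) - T.V y (x 4)
    + ((x 0 * y 1 - x 1 * y 0) * (-(T.zi ^ 3 - T.t * T.t2))
    + (x 0 * y 3 - x 3 * y 0) * (T.r * T.t2)
    + (x 1 * y 2 - x 2 * y 1) * (-(T.r2 * T.t))
    + (x 2 * y 3 - x 3 * y 2) * (T.r * T.r2 + T.zi ^ 3)) := by
  simp [br, cc, up, Fin.sum_univ_six]
  ring

theorem br5 (x y : Fin 6 → A) : T.br x y 5 = T.V x (y 5) - T.V y (x 5)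
    + ((x 0 * y 1 - x 1 * y 0) * (-(star T.zi ^ 3 - star T.t * star T.t2))
    + (x 0 * y 2 - x 2 * y 0) * (star T.r * star T.t2)
    + (x 1 * y 3 - x 3 * y 1) * (-(star T.r2 * star T.t))
    + (x 2 * y 3 - x 3 * y 2) * (-(star T.r * star T.r2 + star T.zi ^ 3))) := by
  simp [br, cc, up, Fin.sum_univ_six]
  ring

theorem V_ee (j : Fin 6) (f : A) : T.V (ee j) f = T.D j f := by
  simp [V_ap, ee]

theorem V_lin (c : A) (x y z : Fin 6 → A) (f : A) :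
    T.V (c • x + y - z) f = c * T.V x f + T.V y f - T.V z f := by
  simp only [V_six, Pi.add_apply, Pi.sub_apply, Pi.smul_apply, smul_eq_mul]; ring

theorem V_of {x y w : Fin 6 → A} (h : ∀ k, T.br x y k = w k) (f : A) :
    T.V x (T.V y f) = T.V y (T.V x f) + T.V w f := by
  have e : T.br x y = w := funext h
  rw [← e, ← T.V_comm]; ring

theorem V_zero (f : A) : T.V 0 f = 0 := by simp only [V_six, Pi.zero_apply]; ring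
theorem V_neg (x : Fin 6 → A) (f : A) : T.V (-x) f = -T.V x f := by
  simp only [V_six, Pi.neg_apply]; ring

theorem V_star (x y : Fin 6 → A) (h0 : star (x 0) = y 0) (h1 : star (x 1) = y 1)
    (h2 : star (x 2) = y 3) (h3 : star (x 3) = y 2) (h4 : star (x 4) = y 5) (h5 : star (x 5) = y 4)
    (f : A) : star (T.V x f) = T.V y (star f) := by
  simp only [V_six, star_add, star_mul', h0, h1, h2, h3, h4, h5, T.s0, T.s1, T.s2, T.s3, T.sH, T.sHb]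
  ring

end TD

/-- The Kerr class in the normalisation of the chart algebra. -/
structure KX (T : TD A) extends PX T where
  a : A
  ai : A
  M : A
  hal : al = 0
  hn : toPX.n2 = 0
  hep : toPX.ep = 2
  hk : toPX.k = 2 * a ^ 2
  hm : toPX.m2 = 4 * M
  hai : a * ai = 1
  sa : star a = a

namespace KX
open PD PX
variable {T : TD A} (X : KX T)

theorem oi1 : X.oi = 1 := by
  have h := X.hoi
  rw [X.hal] at h
  linear_combination h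

theorem ka : T.Const X.a := by
  refine TD.Const.sqrt (TD.Const.hf.mul X.kk) (IsUnit.of_mul_eq_one _ X.hai) ?_
  rw [X.hk]; linear_combination -X.a ^ 2 * hhf (A := A)
theorem kai : T.Const X.ai := X.ka.inv X.hai
theorem eM : X.M = hf A * hf A * X.m2 := by
  rw [X.hm]; linear_combination -(X.M * (2 * hf A + 1)) * hhf (A := A)
theorem kM : T.Const X.M := by
  rw [X.eM]; exact (TD.Const.hf.mul TD.Const.hf).mul X.km2
theorem sM : star X.M = X.M := by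
  rw [X.eM]; simp only [star_mul', shf, X.sm2]
theorem sai : star X.ai = X.ai := sinv X.hai X.sa

theorem kss : T.d0 X.q * T.d1 X.q = -(X.u * X.ub * (X.q * X.q - 2 * X.M * X.q + X.a * X.a)) := by
  have h := X.vss
  simp only [X.eQ, X.hal, X.hn, X.hep, X.hk, X.hm] at h
  apply u2.mul_left_cancel
  linear_combination h
theorem ks : T.d0 X.q = -(X.u * X.ub * (X.q * X.q - 2 * X.M * X.q + X.a * X.a) * X.sv) := by
  linear_combination X.sv * X.kss - T.d0 X.q * X.hsv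
theorem kpp : T.d2 X.p * T.d3 X.p = X.u * X.ub * (X.a * X.a - X.p * X.p) := by
  have h := X.vpp
  simp only [X.eP, X.hal, X.hn, X.hep, X.hk, X.hm] at h
  apply u2.mul_left_cancel
  linear_combination h
theorem kG : X.Gs = 2 * (X.M - X.q) * (X.u * X.ub)
    + 2 * X.q * (X.u * X.ub) * (X.u * X.ub) * (X.q * X.q - 2 * X.M * X.q + X.a * X.a) := by
  simp only [Gs, X.edQ, X.hal, X.hn, X.hep, X.hk, X.hm]
  linear_combination (2 * (X.M - X.q) * (X.u * X.ub)) * hhf (A := A) - 2 * X.q * X.u * X.ub * X.kss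
theorem kH : X.Hs = -2 * X.p * (X.u * X.ub)
    - 2 * X.p * (X.u * X.ub) * (X.u * X.ub) * (X.a * X.a - X.p * X.p) := by
  simp only [Hs, X.edP, X.hal, X.hn, X.hep, X.hk, X.hm]
  linear_combination (-2 * X.p * (X.u * X.ub)) * hhf (A := A) - 2 * X.p * X.u * X.ub * X.kpp

theorem kps : T.zi ^ 3 = -2 * X.M * X.u ^ 3 := by
  have h := X.vps
  simp only [X.hal, X.hn, X.hm] at h
  apply u2.mul_left_cancel
  linear_combination h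

theorem kv : T.r = -(T.d0 X.q * X.u) ∧ T.r2 = -(T.d1 X.q * X.u) ∧ T.t = iA A * T.d2 X.p * X.u ∧
    T.t2 = iA A * T.d3 X.p * X.u ∧ T.zi ^ 3 = -2 * X.M * X.u ^ 3 :=
  ⟨by rw [X.vr, X.hal]; ring, by rw [X.vr2, X.hal]; ring, by rw [X.vt, X.hal]; ring,
    by rw [X.vt2, X.hal]; ring, X.kps⟩

theorem kb : star T.r = -(T.d0 X.q * X.ub) ∧ star T.r2 = -(T.d1 X.q * X.ub) ∧
    star T.t = -(iA A * T.d3 X.p * X.ub) ∧ star T.t2 = -(iA A * T.d2 X.p * X.ub) ∧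
    star T.zi ^ 3 = -2 * X.M * X.ub ^ 3 :=
  ⟨by rw [X.vrb, X.hal]; ring, by rw [X.vr2b, X.hal]; ring, by rw [X.vtb, X.hal]; ring,
    by rw [X.vt2b, X.hal]; ring, by
      have h := congrArg star X.kps
      simpa only [star_mul', star_neg, star_pow, star_ofNat, X.sM, X.su] using h⟩

theorem k0 :
    T.d0 X.p = 0 ∧
    T.d0 X.u = -T.d0 X.q * X.u ^ 2 ∧
    T.d0 X.ub = -T.d0 X.q * X.ub ^ 2 ∧
    T.d0 (T.d0 X.q) = 0 ∧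
    T.d0 (T.d1 X.q) = -4 * X.M * X.q ^ 2 * X.u ^ 2 * X.ub ^ 2 + 2 * X.M * X.u * X.ub + 2 * X.a ^ 2 * X.q * X.u ^ 2 * X.ub ^ 2 - 2 * X.q * X.u * X.ub + 2 * X.q ^ 3 * X.u ^ 2 * X.ub ^ 2 ∧
    T.d0 (T.d2 X.p) = -T.d2 X.p * T.d0 X.q * X.ub ∧
    T.d0 (T.d3 X.p) = -T.d3 X.p * T.d0 X.q * X.u ∧
    T.d0 X.sv = 4 * X.M * X.q ^ 2 * X.sv ^ 2 * X.u ^ 2 * X.ub ^ 2 - 2 * X.M * X.sv ^ 2 * X.u * X.ub - 2 * X.a ^ 2 * X.q * X.sv ^ 2 * X.u ^ 2 * X.ub ^ 2 + 2 * X.q * X.sv ^ 2 * X.u * X.ub - 2 * X.q ^ 3 * X.sv ^ 2 * X.u ^ 2 * X.ub ^ 2 ∧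
    T.d0 X.a = 0 ∧
    T.d0 X.ai = 0 ∧
    T.d0 X.M = 0 :=
  ⟨(by simp only [X.toPX.tab0, X.hal, X.oi1, X.kG, X.kH]; try ring),
    (by simp only [X.toPX.tab0, X.hal, X.oi1, X.kG, X.kH]; try ring),
    (by simp only [X.toPX.tab0, X.hal, X.oi1, X.kG, X.kH]; try ring),
    (by simp only [X.toPX.tab0, X.hal, X.oi1, X.kG, X.kH]; try ring),
    (by simp only [X.toPX.tab0, X.hal, X.oi1, X.kG, X.kH]; try ring),
    (by simp only [X.toPX.tab0, X.hal, X.oi1, X.kG, X.kH]; try ring),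
    (by simp only [X.toPX.tab0, X.hal, X.oi1, X.kG, X.kH]; try ring),
    (by simp only [X.toPX.tab0, X.hal, X.oi1, X.kG, X.kH]; try ring),
    X.ka.k0,
    X.kai.k0,
    X.kM.k0⟩

theorem k1 :
    T.d1 X.p = 0 ∧
    T.d1 X.u = -T.d1 X.q * X.u ^ 2 ∧
    T.d1 X.ub = -T.d1 X.q * X.ub ^ 2 ∧
    T.d1 (T.d0 X.q) = -4 * X.M * X.q ^ 2 * X.u ^ 2 * X.ub ^ 2 + 2 * X.M * X.u * X.ub + 2 * X.a ^ 2 * X.q * X.u ^ 2 * X.ub ^ 2 - 2 * X.q * X.u * X.ub + 2 * X.q ^ 3 * X.u ^ 2 * X.ub ^ 2 ∧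
    T.d1 (T.d1 X.q) = 0 ∧
    T.d1 (T.d2 X.p) = -T.d2 X.p * T.d1 X.q * X.u ∧
    T.d1 (T.d3 X.p) = -T.d3 X.p * T.d1 X.q * X.ub ∧
    T.d1 X.sv = 0 ∧
    T.d1 X.a = 0 ∧
    T.d1 X.ai = 0 ∧
    T.d1 X.M = 0 :=
  ⟨(by simp only [X.toPX.tab1, X.hal, X.oi1, X.kG, X.kH]; try ring),
    (by simp only [X.toPX.tab1, X.hal, X.oi1, X.kG, X.kH]; try ring),
    (by simp only [X.toPX.tab1, X.hal, X.oi1, X.kG, X.kH]; try ring),
    (by simp only [X.toPX.tab1, X.hal, X.oi1, X.kG, X.kH]; try ring),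
    (by simp only [X.toPX.tab1, X.hal, X.oi1, X.kG, X.kH]; try ring),
    (by simp only [X.toPX.tab1, X.hal, X.oi1, X.kG, X.kH]; try ring),
    (by simp only [X.toPX.tab1, X.hal, X.oi1, X.kG, X.kH]; try ring),
    (by simp only [X.toPX.tab1, X.hal, X.oi1, X.kG, X.kH]; try ring),
    X.ka.k1,
    X.kai.k1,
    X.kM.k1⟩

theorem k2 :
    T.d2 X.q = 0 ∧
    T.d2 X.u = iA A * T.d2 X.p * X.u ^ 2 ∧
    T.d2 X.ub = -iA A * T.d2 X.p * X.ub ^ 2 ∧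
    T.d2 (T.d0 X.q) = -iA A * T.d2 X.p * T.d0 X.q * X.ub ∧
    T.d2 (T.d1 X.q) = iA A * T.d2 X.p * T.d1 X.q * X.u ∧
    T.d2 (T.d2 X.p) = 0 ∧
    T.d2 (T.d3 X.p) = -2 * X.a ^ 2 * X.p * X.u ^ 2 * X.ub ^ 2 - 2 * X.p * X.u * X.ub + 2 * X.p ^ 3 * X.u ^ 2 * X.ub ^ 2 ∧
    T.d2 X.sv = -iA A * T.d2 X.p * X.sv * X.u ∧
    T.d2 X.a = 0 ∧
    T.d2 X.ai = 0 ∧
    T.d2 X.M = 0 :=
  ⟨(by simp only [X.toPX.tab2, X.hal, X.oi1, X.kG, X.kH]; try ring),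
    (by simp only [X.toPX.tab2, X.hal, X.oi1, X.kG, X.kH]; try ring),
    (by simp only [X.toPX.tab2, X.hal, X.oi1, X.kG, X.kH]; try ring),
    (by simp only [X.toPX.tab2, X.hal, X.oi1, X.kG, X.kH]; try ring),
    (by simp only [X.toPX.tab2, X.hal, X.oi1, X.kG, X.kH]; try ring),
    (by simp only [X.toPX.tab2, X.hal, X.oi1, X.kG, X.kH]; try ring),
    (by simp only [X.toPX.tab2, X.hal, X.oi1, X.kG, X.kH]; try ring),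
    (by simp only [X.toPX.tab2, X.hal, X.oi1]; linear_combination (-iA A * T.d2 X.p * X.sv * X.u) * X.hsv),
    X.ka.k2,
    X.kai.k2,
    X.kM.k2⟩

theorem k3 :
    T.d3 X.q = 0 ∧
    T.d3 X.u = iA A * T.d3 X.p * X.u ^ 2 ∧
    T.d3 X.ub = -iA A * T.d3 X.p * X.ub ^ 2 ∧
    T.d3 (T.d0 X.q) = iA A * T.d3 X.p * T.d0 X.q * X.u ∧
    T.d3 (T.d1 X.q) = -iA A * T.d3 X.p * T.d1 X.q * X.ub ∧
    T.d3 (T.d2 X.p) = -2 * X.a ^ 2 * X.p * X.u ^ 2 * X.ub ^ 2 - 2 * X.p * X.u * X.ub + 2 * X.p ^ 3 * X.u ^ 2 * X.ub ^ 2 ∧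
    T.d3 (T.d3 X.p) = 0 ∧
    T.d3 X.sv = iA A * T.d3 X.p * X.sv * X.ub ∧
    T.d3 X.a = 0 ∧
    T.d3 X.ai = 0 ∧
    T.d3 X.M = 0 :=
  ⟨(by simp only [X.toPX.tab3, X.hal, X.oi1, X.kG, X.kH]; try ring),
    (by simp only [X.toPX.tab3, X.hal, X.oi1, X.kG, X.kH]; try ring),
    (by simp only [X.toPX.tab3, X.hal, X.oi1, X.kG, X.kH]; try ring),
    (by simp only [X.toPX.tab3, X.hal, X.oi1, X.kG, X.kH]; try ring),
    (by simp only [X.toPX.tab3, X.hal, X.oi1, X.kG, X.kH]; try ring),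
    (by simp only [X.toPX.tab3, X.hal, X.oi1, X.kG, X.kH]; try ring),
    (by simp only [X.toPX.tab3, X.hal, X.oi1, X.kG, X.kH]; try ring),
    (by simp only [X.toPX.tab3, X.hal, X.oi1]; linear_combination (iA A * T.d3 X.p * X.sv * X.ub) * X.hsv),
    X.ka.k3,
    X.kai.k3,
    X.kM.k3⟩

theorem k4 :
    T.H X.p = 0 ∧
    T.H X.q = 0 ∧
    T.H X.u = 0 ∧
    T.H X.ub = 0 ∧
    T.H (T.d0 X.q) = T.d0 X.q ∧
    T.H (T.d1 X.q) = -T.d1 X.q ∧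
    T.H (T.d2 X.p) = T.d2 X.p ∧
    T.H (T.d3 X.p) = -T.d3 X.p ∧
    T.H X.sv = X.sv ∧
    T.H X.a = 0 ∧
    T.H X.ai = 0 ∧
    T.H X.M = 0 :=
  ⟨(by simp only [X.toPX.tabH, X.hal, X.oi1, X.kG, X.kH]; try ring),
    (by simp only [X.toPX.tabH, X.hal, X.oi1, X.kG, X.kH]; try ring),
    (by simp only [X.toPX.tabH, X.hal, X.oi1, X.kG, X.kH]; try ring),
    (by simp only [X.toPX.tabH, X.hal, X.oi1, X.kG, X.kH]; try ring),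
    (by simp only [X.toPX.tabH, X.hal, X.oi1, X.kG, X.kH]; try ring),
    (by simp only [X.toPX.tabH, X.hal, X.oi1, X.kG, X.kH]; try ring),
    (by simp only [X.toPX.tabH, X.hal, X.oi1, X.kG, X.kH]; try ring),
    (by simp only [X.toPX.tabH, X.hal, X.oi1, X.kG, X.kH]; try ring),
    (by simp only [X.toPX.tabH, X.hal, X.oi1, X.kG, X.kH]; try ring),
    X.ka.kH,
    X.kai.kH,
    X.kM.kH⟩

theorem k5 :
    T.Hb X.p = 0 ∧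
    T.Hb X.q = 0 ∧
    T.Hb X.u = 0 ∧
    T.Hb X.ub = 0 ∧
    T.Hb (T.d0 X.q) = T.d0 X.q ∧
    T.Hb (T.d1 X.q) = -T.d1 X.q ∧
    T.Hb (T.d2 X.p) = -T.d2 X.p ∧
    T.Hb (T.d3 X.p) = T.d3 X.p ∧
    T.Hb X.sv = X.sv ∧
    T.Hb X.a = 0 ∧
    T.Hb X.ai = 0 ∧
    T.Hb X.M = 0 :=
  ⟨(by simp only [X.toPX.tabB, X.hal, X.oi1, X.kG, X.kH]; try ring),
    (by simp only [X.toPX.tabB, X.hal, X.oi1, X.kG, X.kH]; try ring),
    (by simp only [X.toPX.tabB, X.hal, X.oi1, X.kG, X.kH]; try ring),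
    (by simp only [X.toPX.tabB, X.hal, X.oi1, X.kG, X.kH]; try ring),
    (by simp only [X.toPX.tabB, X.hal, X.oi1, X.kG, X.kH]; try ring),
    (by simp only [X.toPX.tabB, X.hal, X.oi1, X.kG, X.kH]; try ring),
    (by simp only [X.toPX.tabB, X.hal, X.oi1, X.kG, X.kH]; try ring),
    (by simp only [X.toPX.tabB, X.hal, X.oi1, X.kG, X.kH]; try ring),
    (by simp only [X.toPX.tabB, X.hal, X.oi1, X.kG, X.kH]; try ring),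
    X.ka.kHb,
    X.kai.kHb,
    X.kM.kHb⟩

/-- Components of a coordinate field. -/
noncomputable def xT : Fin 6 → A :=
  ![-hf A * T.d1 X.q,
    hf A * T.d0 X.q,
    -hf A * iA A * T.d3 X.p,
    hf A * iA A * T.d2 X.p,
    X.M * hf A * X.u ^ 2,
    X.M * hf A * X.ub ^ 2]

theorem xT_v :
    X.xT 0 = -hf A * T.d1 X.q ∧
    X.xT 1 = hf A * T.d0 X.q ∧
    X.xT 2 = -hf A * iA A * T.d3 X.p ∧
    X.xT 3 = hf A * iA A * T.d2 X.p ∧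
    X.xT 4 = X.M * hf A * X.u ^ 2 ∧
    X.xT 5 = X.M * hf A * X.ub ^ 2 :=
  ⟨rfl, rfl, rfl, rfl, rfl, rfl⟩

/-- Components of a coordinate field. -/
noncomputable def xR : Fin 6 → A :=
  ![0,
    X.sv,
    0,
    0,
    iA A * X.p * X.u * X.ub,
    -iA A * X.p * X.u * X.ub]

theorem xR_v :
    X.xR 0 = 0 ∧
    X.xR 1 = X.sv ∧
    X.xR 2 = 0 ∧
    X.xR 3 = 0 ∧
    X.xR 4 = iA A * X.p * X.u * X.ub ∧
    X.xR 5 = -iA A * X.p * X.u * X.ub :=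
  ⟨rfl, rfl, rfl, rfl, rfl, rfl⟩

/-- Components of a coordinate field. -/
noncomputable def xP : Fin 6 → A :=
  ![0,
    0,
    0,
    -iA A * X.p + X.q,
    -iA A * T.d3 X.p * X.q * X.ub,
    -X.p * T.d3 X.p * X.ub]

theorem xP_v :
    X.xP 0 = 0 ∧
    X.xP 1 = 0 ∧
    X.xP 2 = 0 ∧
    X.xP 3 = -iA A * X.p + X.q ∧
    X.xP 4 = -iA A * T.d3 X.p * X.q * X.ub ∧
    X.xP 5 = -X.p * T.d3 X.p * X.ub :=
  ⟨rfl, rfl, rfl, rfl, rfl, rfl⟩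

/-- Components of a coordinate field. -/
noncomputable def xQ : Fin 6 → A :=
  ![0,
    0,
    iA A * X.p + X.q,
    0,
    -X.p * T.d2 X.p * X.u,
    iA A * T.d2 X.p * X.q * X.u]

theorem xQ_v :
    X.xQ 0 = 0 ∧
    X.xQ 1 = 0 ∧
    X.xQ 2 = iA A * X.p + X.q ∧
    X.xQ 3 = 0 ∧
    X.xQ 4 = -X.p * T.d2 X.p * X.u ∧
    X.xQ 5 = iA A * T.d2 X.p * X.q * X.u :=
  ⟨rfl, rfl, rfl, rfl, rfl, rfl⟩

theorem bT0 (k : Fin 6) : T.br X.xT (ee 0) k = (0 : Fin 6 → A) k := by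
  have h0 : T.br X.xT (ee 0) 0 = (0 : Fin 6 → A) 0 := by
    simp only [T.br0, T.V_six, ee_v, X.xT_v, X.xR_v, X.xP_v, X.xQ_v, Pi.zero_apply, Pi.neg_apply,
      dmul, dsq, d_iA, d_hf, map_add, map_sub, map_neg, map_zero, Derivation.map_one_eq_zero,
      X.k0, X.k1, X.k2, X.k3, X.k4, X.k5, X.kb]
    try simp only [X.kv]
    apply (u2.pow 1).mul_left_cancel
    linear_combination
      (2 * hf A * iA A ^ 2 * X.u + 2 * hf A * iA A ^ 2 * X.ub) * X.kpp + (-4 * X.M * X.q ^ 2 * X.u ^ 2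
      * X.ub ^ 2 + 2 * X.M * X.u * X.ub + X.M * X.u ^ 2 + X.M * X.ub ^ 2 + X.a ^ 2 * iA A ^ 2 * X.u
      * X.ub ^ 2 + X.a ^ 2 * iA A ^ 2 * X.u ^ 2 * X.ub + 2 * X.a ^ 2 * X.q * X.u ^ 2 * X.ub ^ 2 - iA A ^ 2
      * X.p ^ 2 * X.u * X.ub ^ 2 - iA A ^ 2 * X.p ^ 2 * X.u ^ 2 * X.ub - 2 * X.q * X.u * X.ub + 2
      * X.q ^ 3 * X.u ^ 2 * X.ub ^ 2) * hhf (A := A) + (2 * X.M * iA A * X.p * X.u * X.ub ^ 2 + X.M
      * iA A ^ 2 * X.u * X.ub - X.M * iA A ^ 2 * X.ub ^ 2 - 2 * X.M * X.u * X.ub - 2 * X.M * X.ub ^ 2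
      - X.a ^ 2 * iA A ^ 2 * X.u * X.ub ^ 2 - iA A * X.p * X.q * X.u * X.ub ^ 2 + iA A * X.p * X.u
      * X.ub + 2 * iA A * X.p * X.ub ^ 2 + 2 * X.q * X.u * X.ub + 2 * X.q * X.ub ^ 2 - 2 * X.ub)
      * X.hu + (2 * X.M * iA A * X.p * X.u ^ 2 * X.ub + X.M * iA A ^ 2 * X.u * X.ub - X.M * iA A ^ 2
      * X.u ^ 2 - 4 * X.M * X.q * X.u ^ 2 * X.ub + 2 * X.M * X.u * X.ub - 2 * X.M * X.u ^ 2 + X.a ^ 2
      * iA A ^ 2 * X.u ^ 2 * X.ub + 2 * X.a ^ 2 * X.u ^ 2 * X.ub - iA A * X.p * X.q * X.u ^ 2 * X.ub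
      + iA A * X.p * X.u * X.ub - 2 * X.q * X.u * X.ub + 2 * X.q ^ 2 * X.u ^ 2 * X.ub + 2 * X.ub)
      * X.hub + (-2 * X.M * iA A * X.p * X.u * X.ub ^ 2 + 2 * X.M * iA A * X.p * X.u ^ 2 * X.ub + 2
      * X.M * X.u * X.ub - X.M * X.u ^ 2 - X.M * X.ub ^ 2 - 2 * X.a ^ 2 * iA A * X.p * X.u ^ 2 * X.ub ^ 2
      + 2 * X.a ^ 2 * X.u ^ 2 * X.ub) * iA_sq (A := A)
  have h1 : T.br X.xT (ee 0) 1 = (0 : Fin 6 → A) 1 := by
    simp only [T.br1, T.V_six, ee_v, X.xT_v, X.xR_v, X.xP_v, X.xQ_v, Pi.zero_apply, Pi.neg_apply,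
      dmul, dsq, d_iA, d_hf, map_add, map_sub, map_neg, map_zero, Derivation.map_one_eq_zero,
      X.k0, X.k1, X.k2, X.k3, X.k4, X.k5, X.kb]
    try simp only [X.kv]
    all_goals ring
  have h2 : T.br X.xT (ee 0) 2 = (0 : Fin 6 → A) 2 := by
    simp only [T.br2, T.V_six, ee_v, X.xT_v, X.xR_v, X.xP_v, X.xQ_v, Pi.zero_apply, Pi.neg_apply,
      dmul, dsq, d_iA, d_hf, map_add, map_sub, map_neg, map_zero, Derivation.map_one_eq_zero,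
      X.k0, X.k1, X.k2, X.k3, X.k4, X.k5, X.kb]
    try simp only [X.kv]
    all_goals ring
  have h3 : T.br X.xT (ee 0) 3 = (0 : Fin 6 → A) 3 := by
    simp only [T.br3, T.V_six, ee_v, X.xT_v, X.xR_v, X.xP_v, X.xQ_v, Pi.zero_apply, Pi.neg_apply,
      dmul, dsq, d_iA, d_hf, map_add, map_sub, map_neg, map_zero, Derivation.map_one_eq_zero,
      X.k0, X.k1, X.k2, X.k3, X.k4, X.k5, X.kb]
    try simp only [X.kv]
    all_goals ring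
  have h4 : T.br X.xT (ee 0) 4 = (0 : Fin 6 → A) 4 := by
    simp only [T.br4, T.V_six, ee_v, X.xT_v, X.xR_v, X.xP_v, X.xQ_v, Pi.zero_apply, Pi.neg_apply,
      dmul, dsq, d_iA, d_hf, map_add, map_sub, map_neg, map_zero, Derivation.map_one_eq_zero,
      X.k0, X.k1, X.k2, X.k3, X.k4, X.k5, X.kb]
    try simp only [X.kv]
    all_goals ring
  have h5 : T.br X.xT (ee 0) 5 = (0 : Fin 6 → A) 5 := by
    simp only [T.br5, T.V_six, ee_v, X.xT_v, X.xR_v, X.xP_v, X.xQ_v, Pi.zero_apply, Pi.neg_apply,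
      dmul, dsq, d_iA, d_hf, map_add, map_sub, map_neg, map_zero, Derivation.map_one_eq_zero,
      X.k0, X.k1, X.k2, X.k3, X.k4, X.k5, X.kb]
    try simp only [X.kv]
    all_goals ring
  fin_cases k
  exacts [h0, h1, h2, h3, h4, h5]

theorem bT1 (k : Fin 6) : T.br X.xT (ee 1) k = (0 : Fin 6 → A) k := by
  have h0 : T.br X.xT (ee 1) 0 = (0 : Fin 6 → A) 0 := by
    simp only [T.br0, T.V_six, ee_v, X.xT_v, X.xR_v, X.xP_v, X.xQ_v, Pi.zero_apply, Pi.neg_apply,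
      dmul, dsq, d_iA, d_hf, map_add, map_sub, map_neg, map_zero, Derivation.map_one_eq_zero,
      X.k0, X.k1, X.k2, X.k3, X.k4, X.k5, X.kb]
    try simp only [X.kv]
    all_goals ring
  have h1 : T.br X.xT (ee 1) 1 = (0 : Fin 6 → A) 1 := by
    simp only [T.br1, T.V_six, ee_v, X.xT_v, X.xR_v, X.xP_v, X.xQ_v, Pi.zero_apply, Pi.neg_apply,
      dmul, dsq, d_iA, d_hf, map_add, map_sub, map_neg, map_zero, Derivation.map_one_eq_zero,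
      X.k0, X.k1, X.k2, X.k3, X.k4, X.k5, X.kb]
    try simp only [X.kv]
    apply (u2.pow 1).mul_left_cancel
    linear_combination
      (-2 * hf A * iA A ^ 2 * X.u - 2 * hf A * iA A ^ 2 * X.ub) * X.kpp + (4 * X.M * X.q ^ 2 * X.u ^ 2
      * X.ub ^ 2 - 2 * X.M * X.u * X.ub - X.M * X.u ^ 2 - X.M * X.ub ^ 2 - X.a ^ 2 * iA A ^ 2 * X.u
      * X.ub ^ 2 - X.a ^ 2 * iA A ^ 2 * X.u ^ 2 * X.ub - 2 * X.a ^ 2 * X.q * X.u ^ 2 * X.ub ^ 2 + iA A ^ 2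
      * X.p ^ 2 * X.u * X.ub ^ 2 + iA A ^ 2 * X.p ^ 2 * X.u ^ 2 * X.ub + 2 * X.q * X.u * X.ub - 2
      * X.q ^ 3 * X.u ^ 2 * X.ub ^ 2) * hhf (A := A) + (-2 * X.M * iA A * X.p * X.u * X.ub ^ 2 - X.M
      * iA A ^ 2 * X.u * X.ub + X.M * iA A ^ 2 * X.ub ^ 2 + 2 * X.M * X.u * X.ub + 2 * X.M * X.ub ^ 2
      + X.a ^ 2 * iA A ^ 2 * X.u * X.ub ^ 2 + iA A * X.p * X.q * X.u * X.ub ^ 2 - iA A * X.p * X.u
      * X.ub - 2 * iA A * X.p * X.ub ^ 2 - 2 * X.q * X.u * X.ub - 2 * X.q * X.ub ^ 2 + 2 * X.ub)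
      * X.hu + (-2 * X.M * iA A * X.p * X.u ^ 2 * X.ub - X.M * iA A ^ 2 * X.u * X.ub + X.M * iA A ^ 2
      * X.u ^ 2 + 4 * X.M * X.q * X.u ^ 2 * X.ub - 2 * X.M * X.u * X.ub + 2 * X.M * X.u ^ 2 - X.a ^ 2
      * iA A ^ 2 * X.u ^ 2 * X.ub - 2 * X.a ^ 2 * X.u ^ 2 * X.ub + iA A * X.p * X.q * X.u ^ 2 * X.ub
      - iA A * X.p * X.u * X.ub + 2 * X.q * X.u * X.ub - 2 * X.q ^ 2 * X.u ^ 2 * X.ub - 2 * X.ub)
      * X.hub + (2 * X.M * iA A * X.p * X.u * X.ub ^ 2 - 2 * X.M * iA A * X.p * X.u ^ 2 * X.ub - 2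
      * X.M * X.u * X.ub + X.M * X.u ^ 2 + X.M * X.ub ^ 2 + 2 * X.a ^ 2 * iA A * X.p * X.u ^ 2 * X.ub ^ 2
      - 2 * X.a ^ 2 * X.u ^ 2 * X.ub) * iA_sq (A := A)
  have h2 : T.br X.xT (ee 1) 2 = (0 : Fin 6 → A) 2 := by
    simp only [T.br2, T.V_six, ee_v, X.xT_v, X.xR_v, X.xP_v, X.xQ_v, Pi.zero_apply, Pi.neg_apply,
      dmul, dsq, d_iA, d_hf, map_add, map_sub, map_neg, map_zero, Derivation.map_one_eq_zero,
      X.k0, X.k1, X.k2, X.k3, X.k4, X.k5, X.kb]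
    try simp only [X.kv]
    all_goals ring
  have h3 : T.br X.xT (ee 1) 3 = (0 : Fin 6 → A) 3 := by
    simp only [T.br3, T.V_six, ee_v, X.xT_v, X.xR_v, X.xP_v, X.xQ_v, Pi.zero_apply, Pi.neg_apply,
      dmul, dsq, d_iA, d_hf, map_add, map_sub, map_neg, map_zero, Derivation.map_one_eq_zero,
      X.k0, X.k1, X.k2, X.k3, X.k4, X.k5, X.kb]
    try simp only [X.kv]
    all_goals ring
  have h4 : T.br X.xT (ee 1) 4 = (0 : Fin 6 → A) 4 := by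
    simp only [T.br4, T.V_six, ee_v, X.xT_v, X.xR_v, X.xP_v, X.xQ_v, Pi.zero_apply, Pi.neg_apply,
      dmul, dsq, d_iA, d_hf, map_add, map_sub, map_neg, map_zero, Derivation.map_one_eq_zero,
      X.k0, X.k1, X.k2, X.k3, X.k4, X.k5, X.kb]
    try simp only [X.kv]
    all_goals ring
  have h5 : T.br X.xT (ee 1) 5 = (0 : Fin 6 → A) 5 := by
    simp only [T.br5, T.V_six, ee_v, X.xT_v, X.xR_v, X.xP_v, X.xQ_v, Pi.zero_apply, Pi.neg_apply,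
      dmul, dsq, d_iA, d_hf, map_add, map_sub, map_neg, map_zero, Derivation.map_one_eq_zero,
      X.k0, X.k1, X.k2, X.k3, X.k4, X.k5, X.kb]
    try simp only [X.kv]
    all_goals ring
  fin_cases k
  exacts [h0, h1, h2, h3, h4, h5]

theorem bT2 (k : Fin 6) : T.br X.xT (ee 2) k = (0 : Fin 6 → A) k := by
  have h0 : T.br X.xT (ee 2) 0 = (0 : Fin 6 → A) 0 := by
    simp only [T.br0, T.V_six, ee_v, X.xT_v, X.xR_v, X.xP_v, X.xQ_v, Pi.zero_apply, Pi.neg_apply,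
      dmul, dsq, d_iA, d_hf, map_add, map_sub, map_neg, map_zero, Derivation.map_one_eq_zero,
      X.k0, X.k1, X.k2, X.k3, X.k4, X.k5, X.kb]
    try simp only [X.kv]
    all_goals ring
  have h1 : T.br X.xT (ee 2) 1 = (0 : Fin 6 → A) 1 := by
    simp only [T.br1, T.V_six, ee_v, X.xT_v, X.xR_v, X.xP_v, X.xQ_v, Pi.zero_apply, Pi.neg_apply,
      dmul, dsq, d_iA, d_hf, map_add, map_sub, map_neg, map_zero, Derivation.map_one_eq_zero,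
      X.k0, X.k1, X.k2, X.k3, X.k4, X.k5, X.kb]
    try simp only [X.kv]
    all_goals ring
  have h2 : T.br X.xT (ee 2) 2 = (0 : Fin 6 → A) 2 := by
    simp only [T.br2, T.V_six, ee_v, X.xT_v, X.xR_v, X.xP_v, X.xQ_v, Pi.zero_apply, Pi.neg_apply,
      dmul, dsq, d_iA, d_hf, map_add, map_sub, map_neg, map_zero, Derivation.map_one_eq_zero,
      X.k0, X.k1, X.k2, X.k3, X.k4, X.k5, X.kb]
    try simp only [X.kv]
    apply (u2.pow 1).mul_left_cancel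
    linear_combination
      (-2 * hf A * X.u + 2 * hf A * X.ub) * X.kss + (2 * X.M * X.q * X.u * X.ub ^ 2 - 2 * X.M * X.q
      * X.u ^ 2 * X.ub + X.M * X.u ^ 2 - X.M * X.ub ^ 2 - 2 * X.a ^ 2 * iA A * X.p * X.u ^ 2 * X.ub ^ 2
      - X.a ^ 2 * X.u * X.ub ^ 2 + X.a ^ 2 * X.u ^ 2 * X.ub - 2 * iA A * X.p * X.u * X.ub + 2 * iA A
      * X.p ^ 3 * X.u ^ 2 * X.ub ^ 2 - X.q ^ 2 * X.u * X.ub ^ 2 + X.q ^ 2 * X.u ^ 2 * X.ub) * hhf (A := A)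
      + (X.M * iA A ^ 2 * X.u * X.ub - X.M * iA A ^ 2 * X.ub ^ 2 + X.a ^ 2 * iA A ^ 2 * X.u * X.ub ^ 2
      + 2 * X.a ^ 2 * X.u * X.ub ^ 2 + iA A * X.p * X.q * X.u * X.ub ^ 2 - iA A * X.p * X.ub ^ 2
      - 2 * X.p ^ 2 * X.u * X.ub ^ 2 + X.q * X.u * X.ub - X.q * X.ub ^ 2 + X.ub) * X.hu + (X.M * iA A ^ 2
      * X.u * X.ub - X.M * iA A ^ 2 * X.u ^ 2 + 2 * X.M * X.u * X.ub - 2 * X.M * X.u ^ 2 - X.a ^ 2
      * iA A ^ 2 * X.u ^ 2 * X.ub - 2 * X.a ^ 2 * X.u ^ 2 * X.ub - iA A * X.p * X.q * X.u ^ 2 * X.ub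
      + iA A * X.p * X.u * X.ub - X.ub) * X.hub + (-2 * X.M * iA A * X.p * X.u * X.ub ^ 2 + 2 * X.M
      * iA A * X.p * X.u ^ 2 * X.ub + 2 * X.M * X.u * X.ub - X.M * X.u ^ 2 - X.M * X.ub ^ 2 + 2 * X.a ^ 2
      * iA A * X.p * X.u ^ 2 * X.ub ^ 2 + X.a ^ 2 * X.u * X.ub ^ 2 - X.a ^ 2 * X.u ^ 2 * X.ub + 2
      * X.p ^ 2 * X.q * X.u ^ 2 * X.ub ^ 2 - 2 * X.p ^ 2 * X.u * X.ub ^ 2) * iA_sq (A := A)
  have h3 : T.br X.xT (ee 2) 3 = (0 : Fin 6 → A) 3 := by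
    simp only [T.br3, T.V_six, ee_v, X.xT_v, X.xR_v, X.xP_v, X.xQ_v, Pi.zero_apply, Pi.neg_apply,
      dmul, dsq, d_iA, d_hf, map_add, map_sub, map_neg, map_zero, Derivation.map_one_eq_zero,
      X.k0, X.k1, X.k2, X.k3, X.k4, X.k5, X.kb]
    try simp only [X.kv]
    all_goals ring
  have h4 : T.br X.xT (ee 2) 4 = (0 : Fin 6 → A) 4 := by
    simp only [T.br4, T.V_six, ee_v, X.xT_v, X.xR_v, X.xP_v, X.xQ_v, Pi.zero_apply, Pi.neg_apply,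
      dmul, dsq, d_iA, d_hf, map_add, map_sub, map_neg, map_zero, Derivation.map_one_eq_zero,
      X.k0, X.k1, X.k2, X.k3, X.k4, X.k5, X.kb]
    try simp only [X.kv]
    all_goals ring
  have h5 : T.br X.xT (ee 2) 5 = (0 : Fin 6 → A) 5 := by
    simp only [T.br5, T.V_six, ee_v, X.xT_v, X.xR_v, X.xP_v, X.xQ_v, Pi.zero_apply, Pi.neg_apply,
      dmul, dsq, d_iA, d_hf, map_add, map_sub, map_neg, map_zero, Derivation.map_one_eq_zero,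
      X.k0, X.k1, X.k2, X.k3, X.k4, X.k5, X.kb]
    try simp only [X.kv]
    all_goals ring
  fin_cases k
  exacts [h0, h1, h2, h3, h4, h5]

theorem bT3 (k : Fin 6) : T.br X.xT (ee 3) k = (0 : Fin 6 → A) k := by
  have h0 : T.br X.xT (ee 3) 0 = (0 : Fin 6 → A) 0 := by
    simp only [T.br0, T.V_six, ee_v, X.xT_v, X.xR_v, X.xP_v, X.xQ_v, Pi.zero_apply, Pi.neg_apply,
      dmul, dsq, d_iA, d_hf, map_add, map_sub, map_neg, map_zero, Derivation.map_one_eq_zero,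
      X.k0, X.k1, X.k2, X.k3, X.k4, X.k5, X.kb]
    try simp only [X.kv]
    all_goals ring
  have h1 : T.br X.xT (ee 3) 1 = (0 : Fin 6 → A) 1 := by
    simp only [T.br1, T.V_six, ee_v, X.xT_v, X.xR_v, X.xP_v, X.xQ_v, Pi.zero_apply, Pi.neg_apply,
      dmul, dsq, d_iA, d_hf, map_add, map_sub, map_neg, map_zero, Derivation.map_one_eq_zero,
      X.k0, X.k1, X.k2, X.k3, X.k4, X.k5, X.kb]
    try simp only [X.kv]
    all_goals ring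
  have h2 : T.br X.xT (ee 3) 2 = (0 : Fin 6 → A) 2 := by
    simp only [T.br2, T.V_six, ee_v, X.xT_v, X.xR_v, X.xP_v, X.xQ_v, Pi.zero_apply, Pi.neg_apply,
      dmul, dsq, d_iA, d_hf, map_add, map_sub, map_neg, map_zero, Derivation.map_one_eq_zero,
      X.k0, X.k1, X.k2, X.k3, X.k4, X.k5, X.kb]
    try simp only [X.kv]
    all_goals ring
  have h3 : T.br X.xT (ee 3) 3 = (0 : Fin 6 → A) 3 := by
    simp only [T.br3, T.V_six, ee_v, X.xT_v, X.xR_v, X.xP_v, X.xQ_v, Pi.zero_apply, Pi.neg_apply,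
      dmul, dsq, d_iA, d_hf, map_add, map_sub, map_neg, map_zero, Derivation.map_one_eq_zero,
      X.k0, X.k1, X.k2, X.k3, X.k4, X.k5, X.kb]
    try simp only [X.kv]
    apply (u2.pow 1).mul_left_cancel
    linear_combination
      (2 * hf A * X.u - 2 * hf A * X.ub) * X.kss + (-2 * X.M * X.q * X.u * X.ub ^ 2 + 2 * X.M * X.q
      * X.u ^ 2 * X.ub - X.M * X.u ^ 2 + X.M * X.ub ^ 2 + 2 * X.a ^ 2 * iA A * X.p * X.u ^ 2 * X.ub ^ 2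
      + X.a ^ 2 * X.u * X.ub ^ 2 - X.a ^ 2 * X.u ^ 2 * X.ub + 2 * iA A * X.p * X.u * X.ub - 2 * iA A
      * X.p ^ 3 * X.u ^ 2 * X.ub ^ 2 + X.q ^ 2 * X.u * X.ub ^ 2 - X.q ^ 2 * X.u ^ 2 * X.ub) * hhf (A := A)
      + (-X.M * iA A ^ 2 * X.u * X.ub + X.M * iA A ^ 2 * X.ub ^ 2 - X.a ^ 2 * iA A ^ 2 * X.u * X.ub ^ 2
      - 2 * X.a ^ 2 * X.u * X.ub ^ 2 - iA A * X.p * X.q * X.u * X.ub ^ 2 + iA A * X.p * X.ub ^ 2
      + 2 * X.p ^ 2 * X.u * X.ub ^ 2 - X.q * X.u * X.ub + X.q * X.ub ^ 2 - X.ub) * X.hu + (-X.M * iA A ^ 2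
      * X.u * X.ub + X.M * iA A ^ 2 * X.u ^ 2 - 2 * X.M * X.u * X.ub + 2 * X.M * X.u ^ 2 + X.a ^ 2
      * iA A ^ 2 * X.u ^ 2 * X.ub + 2 * X.a ^ 2 * X.u ^ 2 * X.ub + iA A * X.p * X.q * X.u ^ 2 * X.ub
      - iA A * X.p * X.u * X.ub + X.ub) * X.hub + (2 * X.M * iA A * X.p * X.u * X.ub ^ 2 - 2 * X.M
      * iA A * X.p * X.u ^ 2 * X.ub - 2 * X.M * X.u * X.ub + X.M * X.u ^ 2 + X.M * X.ub ^ 2 - 2 * X.a ^ 2
      * iA A * X.p * X.u ^ 2 * X.ub ^ 2 - X.a ^ 2 * X.u * X.ub ^ 2 + X.a ^ 2 * X.u ^ 2 * X.ub - 2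
      * X.p ^ 2 * X.q * X.u ^ 2 * X.ub ^ 2 + 2 * X.p ^ 2 * X.u * X.ub ^ 2) * iA_sq (A := A)
  have h4 : T.br X.xT (ee 3) 4 = (0 : Fin 6 → A) 4 := by
    simp only [T.br4, T.V_six, ee_v, X.xT_v, X.xR_v, X.xP_v, X.xQ_v, Pi.zero_apply, Pi.neg_apply,
      dmul, dsq, d_iA, d_hf, map_add, map_sub, map_neg, map_zero, Derivation.map_one_eq_zero,
      X.k0, X.k1, X.k2, X.k3, X.k4, X.k5, X.kb]
    try simp only [X.kv]
    all_goals ring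
  have h5 : T.br X.xT (ee 3) 5 = (0 : Fin 6 → A) 5 := by
    simp only [T.br5, T.V_six, ee_v, X.xT_v, X.xR_v, X.xP_v, X.xQ_v, Pi.zero_apply, Pi.neg_apply,
      dmul, dsq, d_iA, d_hf, map_add, map_sub, map_neg, map_zero, Derivation.map_one_eq_zero,
      X.k0, X.k1, X.k2, X.k3, X.k4, X.k5, X.kb]
    try simp only [X.kv]
    all_goals ring
  fin_cases k
  exacts [h0, h1, h2, h3, h4, h5]

theorem bT4 (k : Fin 6) : T.br X.xT (ee 4) k = (0 : Fin 6 → A) k := by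
  have h0 : T.br X.xT (ee 4) 0 = (0 : Fin 6 → A) 0 := by
    simp only [T.br0, T.V_six, ee_v, X.xT_v, X.xR_v, X.xP_v, X.xQ_v, Pi.zero_apply, Pi.neg_apply,
      dmul, dsq, d_iA, d_hf, map_add, map_sub, map_neg, map_zero, Derivation.map_one_eq_zero,
      X.k0, X.k1, X.k2, X.k3, X.k4, X.k5, X.kb]
    try simp only [X.kv]
    all_goals ring
  have h1 : T.br X.xT (ee 4) 1 = (0 : Fin 6 → A) 1 := by
    simp only [T.br1, T.V_six, ee_v, X.xT_v, X.xR_v, X.xP_v, X.xQ_v, Pi.zero_apply, Pi.neg_apply,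
      dmul, dsq, d_iA, d_hf, map_add, map_sub, map_neg, map_zero, Derivation.map_one_eq_zero,
      X.k0, X.k1, X.k2, X.k3, X.k4, X.k5, X.kb]
    try simp only [X.kv]
    all_goals ring
  have h2 : T.br X.xT (ee 4) 2 = (0 : Fin 6 → A) 2 := by
    simp only [T.br2, T.V_six, ee_v, X.xT_v, X.xR_v, X.xP_v, X.xQ_v, Pi.zero_apply, Pi.neg_apply,
      dmul, dsq, d_iA, d_hf, map_add, map_sub, map_neg, map_zero, Derivation.map_one_eq_zero,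
      X.k0, X.k1, X.k2, X.k3, X.k4, X.k5, X.kb]
    try simp only [X.kv]
    all_goals ring
  have h3 : T.br X.xT (ee 4) 3 = (0 : Fin 6 → A) 3 := by
    simp only [T.br3, T.V_six, ee_v, X.xT_v, X.xR_v, X.xP_v, X.xQ_v, Pi.zero_apply, Pi.neg_apply,
      dmul, dsq, d_iA, d_hf, map_add, map_sub, map_neg, map_zero, Derivation.map_one_eq_zero,
      X.k0, X.k1, X.k2, X.k3, X.k4, X.k5, X.kb]
    try simp only [X.kv]
    all_goals ring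
  have h4 : T.br X.xT (ee 4) 4 = (0 : Fin 6 → A) 4 := by
    simp only [T.br4, T.V_six, ee_v, X.xT_v, X.xR_v, X.xP_v, X.xQ_v, Pi.zero_apply, Pi.neg_apply,
      dmul, dsq, d_iA, d_hf, map_add, map_sub, map_neg, map_zero, Derivation.map_one_eq_zero,
      X.k0, X.k1, X.k2, X.k3, X.k4, X.k5, X.kb]
    try simp only [X.kv]
    all_goals ring
  have h5 : T.br X.xT (ee 4) 5 = (0 : Fin 6 → A) 5 := by
    simp only [T.br5, T.V_six, ee_v, X.xT_v, X.xR_v, X.xP_v, X.xQ_v, Pi.zero_apply, Pi.neg_apply,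
      dmul, dsq, d_iA, d_hf, map_add, map_sub, map_neg, map_zero, Derivation.map_one_eq_zero,
      X.k0, X.k1, X.k2, X.k3, X.k4, X.k5, X.kb]
    try simp only [X.kv]
    all_goals ring
  fin_cases k
  exacts [h0, h1, h2, h3, h4, h5]

theorem bT5 (k : Fin 6) : T.br X.xT (ee 5) k = (0 : Fin 6 → A) k := by
  have h0 : T.br X.xT (ee 5) 0 = (0 : Fin 6 → A) 0 := by
    simp only [T.br0, T.V_six, ee_v, X.xT_v, X.xR_v, X.xP_v, X.xQ_v, Pi.zero_apply, Pi.neg_apply,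
      dmul, dsq, d_iA, d_hf, map_add, map_sub, map_neg, map_zero, Derivation.map_one_eq_zero,
      X.k0, X.k1, X.k2, X.k3, X.k4, X.k5, X.kb]
    try simp only [X.kv]
    all_goals ring
  have h1 : T.br X.xT (ee 5) 1 = (0 : Fin 6 → A) 1 := by
    simp only [T.br1, T.V_six, ee_v, X.xT_v, X.xR_v, X.xP_v, X.xQ_v, Pi.zero_apply, Pi.neg_apply,
      dmul, dsq, d_iA, d_hf, map_add, map_sub, map_neg, map_zero, Derivation.map_one_eq_zero,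
      X.k0, X.k1, X.k2, X.k3, X.k4, X.k5, X.kb]
    try simp only [X.kv]
    all_goals ring
  have h2 : T.br X.xT (ee 5) 2 = (0 : Fin 6 → A) 2 := by
    simp only [T.br2, T.V_six, ee_v, X.xT_v, X.xR_v, X.xP_v, X.xQ_v, Pi.zero_apply, Pi.neg_apply,
      dmul, dsq, d_iA, d_hf, map_add, map_sub, map_neg, map_zero, Derivation.map_one_eq_zero,
      X.k0, X.k1, X.k2, X.k3, X.k4, X.k5, X.kb]
    try simp only [X.kv]
    all_goals ring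
  have h3 : T.br X.xT (ee 5) 3 = (0 : Fin 6 → A) 3 := by
    simp only [T.br3, T.V_six, ee_v, X.xT_v, X.xR_v, X.xP_v, X.xQ_v, Pi.zero_apply, Pi.neg_apply,
      dmul, dsq, d_iA, d_hf, map_add, map_sub, map_neg, map_zero, Derivation.map_one_eq_zero,
      X.k0, X.k1, X.k2, X.k3, X.k4, X.k5, X.kb]
    try simp only [X.kv]
    all_goals ring
  have h4 : T.br X.xT (ee 5) 4 = (0 : Fin 6 → A) 4 := by
    simp only [T.br4, T.V_six, ee_v, X.xT_v, X.xR_v, X.xP_v, X.xQ_v, Pi.zero_apply, Pi.neg_apply,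
      dmul, dsq, d_iA, d_hf, map_add, map_sub, map_neg, map_zero, Derivation.map_one_eq_zero,
      X.k0, X.k1, X.k2, X.k3, X.k4, X.k5, X.kb]
    try simp only [X.kv]
    all_goals ring
  have h5 : T.br X.xT (ee 5) 5 = (0 : Fin 6 → A) 5 := by
    simp only [T.br5, T.V_six, ee_v, X.xT_v, X.xR_v, X.xP_v, X.xQ_v, Pi.zero_apply, Pi.neg_apply,
      dmul, dsq, d_iA, d_hf, map_add, map_sub, map_neg, map_zero, Derivation.map_one_eq_zero,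
      X.k0, X.k1, X.k2, X.k3, X.k4, X.k5, X.kb]
    try simp only [X.kv]
    all_goals ring
  fin_cases k
  exacts [h0, h1, h2, h3, h4, h5]

theorem bPR (k : Fin 6) : T.br X.xP X.xR k = (0 : Fin 6 → A) k := by
  have h0 : T.br X.xP X.xR 0 = (0 : Fin 6 → A) 0 := by
    simp only [T.br0, T.V_six, ee_v, X.xT_v, X.xR_v, X.xP_v, X.xQ_v, Pi.zero_apply, Pi.neg_apply,
      dmul, dsq, d_iA, d_hf, map_add, map_sub, map_neg, map_zero, Derivation.map_one_eq_zero,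
      X.k0, X.k1, X.k2, X.k3, X.k4, X.k5, X.kb]
    try simp only [X.kv]
    all_goals ring
  have h1 : T.br X.xP X.xR 1 = (0 : Fin 6 → A) 1 := by
    simp only [T.br1, T.V_six, ee_v, X.xT_v, X.xR_v, X.xP_v, X.xQ_v, Pi.zero_apply, Pi.neg_apply,
      dmul, dsq, d_iA, d_hf, map_add, map_sub, map_neg, map_zero, Derivation.map_one_eq_zero,
      X.k0, X.k1, X.k2, X.k3, X.k4, X.k5, X.kb]
    try simp only [X.kv]
    all_goals ring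
  have h2 : T.br X.xP X.xR 2 = (0 : Fin 6 → A) 2 := by
    simp only [T.br2, T.V_six, ee_v, X.xT_v, X.xR_v, X.xP_v, X.xQ_v, Pi.zero_apply, Pi.neg_apply,
      dmul, dsq, d_iA, d_hf, map_add, map_sub, map_neg, map_zero, Derivation.map_one_eq_zero,
      X.k0, X.k1, X.k2, X.k3, X.k4, X.k5, X.kb]
    try simp only [X.kv]
    all_goals ring
  have h3 : T.br X.xP X.xR 3 = (0 : Fin 6 → A) 3 := by
    simp only [T.br3, T.V_six, ee_v, X.xT_v, X.xR_v, X.xP_v, X.xQ_v, Pi.zero_apply, Pi.neg_apply,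
      dmul, dsq, d_iA, d_hf, map_add, map_sub, map_neg, map_zero, Derivation.map_one_eq_zero,
      X.k0, X.k1, X.k2, X.k3, X.k4, X.k5, X.kb]
    try simp only [X.kv]
    linear_combination
      (-1 - iA A * X.p * X.ub + X.q * X.ub) * X.hsv + (2 * iA A * X.p * X.ub) * X.hu + (1) * X.hub
  have h4 : T.br X.xP X.xR 4 = (0 : Fin 6 → A) 4 := by
    simp only [T.br4, T.V_six, ee_v, X.xT_v, X.xR_v, X.xP_v, X.xQ_v, Pi.zero_apply, Pi.neg_apply,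
      dmul, dsq, d_iA, d_hf, map_add, map_sub, map_neg, map_zero, Derivation.map_one_eq_zero,
      X.k0, X.k1, X.k2, X.k3, X.k4, X.k5, X.kb]
    try simp only [X.kv]
    linear_combination
      (-2 * iA A * T.d3 X.p * X.q * X.ub ^ 2 + iA A * T.d3 X.p * X.ub) * X.hsv + (iA A * T.d3 X.p
      * X.q * X.ub ^ 2 + iA A ^ 2 * X.p * T.d3 X.p * X.u * X.ub - iA A ^ 2 * X.p * T.d3 X.p * X.ub ^ 2)
      * X.hu + (-iA A * T.d3 X.p * X.q * X.u * X.ub - iA A * T.d3 X.p * X.ub) * X.hub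
  have h5 : T.br X.xP X.xR 5 = (0 : Fin 6 → A) 5 := by
    simp only [T.br5, T.V_six, ee_v, X.xT_v, X.xR_v, X.xP_v, X.xQ_v, Pi.zero_apply, Pi.neg_apply,
      dmul, dsq, d_iA, d_hf, map_add, map_sub, map_neg, map_zero, Derivation.map_one_eq_zero,
      X.k0, X.k1, X.k2, X.k3, X.k4, X.k5, X.kb]
    try simp only [X.kv]
    linear_combination
      (iA A * T.d3 X.p * X.q * X.ub ^ 2 - iA A ^ 2 * X.p * T.d3 X.p * X.ub ^ 2 - 2 * X.p * T.d3 X.p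
      * X.ub ^ 2) * X.hsv + (-iA A * T.d3 X.p * X.q * X.ub ^ 2 - iA A ^ 2 * X.p * T.d3 X.p * X.u
      * X.ub + iA A ^ 2 * X.p * T.d3 X.p * X.ub ^ 2 + 2 * X.p * T.d3 X.p * X.ub ^ 2) * X.hu + (iA A
      * T.d3 X.p * X.q * X.u * X.ub) * X.hub + (-2 * X.p * T.d3 X.p * X.q * X.u * X.ub ^ 2) * iA_sq (A := A)
  fin_cases k
  exacts [h0, h1, h2, h3, h4, h5]

theorem bHR (k : Fin 6) : T.br (ee 4) X.xR k = (0 : Fin 6 → A) k := by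
  have h0 : T.br (ee 4) X.xR 0 = (0 : Fin 6 → A) 0 := by
    simp only [T.br0, T.V_six, ee_v, X.xT_v, X.xR_v, X.xP_v, X.xQ_v, Pi.zero_apply, Pi.neg_apply,
      dmul, dsq, d_iA, d_hf, map_add, map_sub, map_neg, map_zero, Derivation.map_one_eq_zero,
      X.k0, X.k1, X.k2, X.k3, X.k4, X.k5, X.kb]
    try simp only [X.kv]
    all_goals ring
  have h1 : T.br (ee 4) X.xR 1 = (0 : Fin 6 → A) 1 := by
    simp only [T.br1, T.V_six, ee_v, X.xT_v, X.xR_v, X.xP_v, X.xQ_v, Pi.zero_apply, Pi.neg_apply,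
      dmul, dsq, d_iA, d_hf, map_add, map_sub, map_neg, map_zero, Derivation.map_one_eq_zero,
      X.k0, X.k1, X.k2, X.k3, X.k4, X.k5, X.kb]
    try simp only [X.kv]
    all_goals ring
  have h2 : T.br (ee 4) X.xR 2 = (0 : Fin 6 → A) 2 := by
    simp only [T.br2, T.V_six, ee_v, X.xT_v, X.xR_v, X.xP_v, X.xQ_v, Pi.zero_apply, Pi.neg_apply,
      dmul, dsq, d_iA, d_hf, map_add, map_sub, map_neg, map_zero, Derivation.map_one_eq_zero,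
      X.k0, X.k1, X.k2, X.k3, X.k4, X.k5, X.kb]
    try simp only [X.kv]
    all_goals ring
  have h3 : T.br (ee 4) X.xR 3 = (0 : Fin 6 → A) 3 := by
    simp only [T.br3, T.V_six, ee_v, X.xT_v, X.xR_v, X.xP_v, X.xQ_v, Pi.zero_apply, Pi.neg_apply,
      dmul, dsq, d_iA, d_hf, map_add, map_sub, map_neg, map_zero, Derivation.map_one_eq_zero,
      X.k0, X.k1, X.k2, X.k3, X.k4, X.k5, X.kb]
    try simp only [X.kv]
    all_goals ring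
  have h4 : T.br (ee 4) X.xR 4 = (0 : Fin 6 → A) 4 := by
    simp only [T.br4, T.V_six, ee_v, X.xT_v, X.xR_v, X.xP_v, X.xQ_v, Pi.zero_apply, Pi.neg_apply,
      dmul, dsq, d_iA, d_hf, map_add, map_sub, map_neg, map_zero, Derivation.map_one_eq_zero,
      X.k0, X.k1, X.k2, X.k3, X.k4, X.k5, X.kb]
    try simp only [X.kv]
    all_goals ring
  have h5 : T.br (ee 4) X.xR 5 = (0 : Fin 6 → A) 5 := by
    simp only [T.br5, T.V_six, ee_v, X.xT_v, X.xR_v, X.xP_v, X.xQ_v, Pi.zero_apply, Pi.neg_apply,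
      dmul, dsq, d_iA, d_hf, map_add, map_sub, map_neg, map_zero, Derivation.map_one_eq_zero,
      X.k0, X.k1, X.k2, X.k3, X.k4, X.k5, X.kb]
    try simp only [X.kv]
    all_goals ring
  fin_cases k
  exacts [h0, h1, h2, h3, h4, h5]

theorem bHP (k : Fin 6) : T.br (ee 4) X.xP k = (-X.xP) k := by
  have h0 : T.br (ee 4) X.xP 0 = (-X.xP) 0 := by
    simp only [T.br0, T.V_six, ee_v, X.xT_v, X.xR_v, X.xP_v, X.xQ_v, Pi.zero_apply, Pi.neg_apply,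
      dmul, dsq, d_iA, d_hf, map_add, map_sub, map_neg, map_zero, Derivation.map_one_eq_zero,
      X.k0, X.k1, X.k2, X.k3, X.k4, X.k5, X.kb]
    try simp only [X.kv]
    all_goals ring
  have h1 : T.br (ee 4) X.xP 1 = (-X.xP) 1 := by
    simp only [T.br1, T.V_six, ee_v, X.xT_v, X.xR_v, X.xP_v, X.xQ_v, Pi.zero_apply, Pi.neg_apply,
      dmul, dsq, d_iA, d_hf, map_add, map_sub, map_neg, map_zero, Derivation.map_one_eq_zero,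
      X.k0, X.k1, X.k2, X.k3, X.k4, X.k5, X.kb]
    try simp only [X.kv]
    all_goals ring
  have h2 : T.br (ee 4) X.xP 2 = (-X.xP) 2 := by
    simp only [T.br2, T.V_six, ee_v, X.xT_v, X.xR_v, X.xP_v, X.xQ_v, Pi.zero_apply, Pi.neg_apply,
      dmul, dsq, d_iA, d_hf, map_add, map_sub, map_neg, map_zero, Derivation.map_one_eq_zero,
      X.k0, X.k1, X.k2, X.k3, X.k4, X.k5, X.kb]
    try simp only [X.kv]
    all_goals ring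
  have h3 : T.br (ee 4) X.xP 3 = (-X.xP) 3 := by
    simp only [T.br3, T.V_six, ee_v, X.xT_v, X.xR_v, X.xP_v, X.xQ_v, Pi.zero_apply, Pi.neg_apply,
      dmul, dsq, d_iA, d_hf, map_add, map_sub, map_neg, map_zero, Derivation.map_one_eq_zero,
      X.k0, X.k1, X.k2, X.k3, X.k4, X.k5, X.kb]
    try simp only [X.kv]
    all_goals ring
  have h4 : T.br (ee 4) X.xP 4 = (-X.xP) 4 := by
    simp only [T.br4, T.V_six, ee_v, X.xT_v, X.xR_v, X.xP_v, X.xQ_v, Pi.zero_apply, Pi.neg_apply,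
      dmul, dsq, d_iA, d_hf, map_add, map_sub, map_neg, map_zero, Derivation.map_one_eq_zero,
      X.k0, X.k1, X.k2, X.k3, X.k4, X.k5, X.kb]
    try simp only [X.kv]
    all_goals ring
  have h5 : T.br (ee 4) X.xP 5 = (-X.xP) 5 := by
    simp only [T.br5, T.V_six, ee_v, X.xT_v, X.xR_v, X.xP_v, X.xQ_v, Pi.zero_apply, Pi.neg_apply,
      dmul, dsq, d_iA, d_hf, map_add, map_sub, map_neg, map_zero, Derivation.map_one_eq_zero,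
      X.k0, X.k1, X.k2, X.k3, X.k4, X.k5, X.kb]
    try simp only [X.kv]
    all_goals ring
  fin_cases k
  exacts [h0, h1, h2, h3, h4, h5]

theorem bHQ (k : Fin 6) : T.br (ee 4) X.xQ k = X.xQ k := by
  have h0 : T.br (ee 4) X.xQ 0 = X.xQ 0 := by
    simp only [T.br0, T.V_six, ee_v, X.xT_v, X.xR_v, X.xP_v, X.xQ_v, Pi.zero_apply, Pi.neg_apply,
      dmul, dsq, d_iA, d_hf, map_add, map_sub, map_neg, map_zero, Derivation.map_one_eq_zero,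
      X.k0, X.k1, X.k2, X.k3, X.k4, X.k5, X.kb]
    try simp only [X.kv]
    all_goals ring
  have h1 : T.br (ee 4) X.xQ 1 = X.xQ 1 := by
    simp only [T.br1, T.V_six, ee_v, X.xT_v, X.xR_v, X.xP_v, X.xQ_v, Pi.zero_apply, Pi.neg_apply,
      dmul, dsq, d_iA, d_hf, map_add, map_sub, map_neg, map_zero, Derivation.map_one_eq_zero,
      X.k0, X.k1, X.k2, X.k3, X.k4, X.k5, X.kb]
    try simp only [X.kv]
    all_goals ring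
  have h2 : T.br (ee 4) X.xQ 2 = X.xQ 2 := by
    simp only [T.br2, T.V_six, ee_v, X.xT_v, X.xR_v, X.xP_v, X.xQ_v, Pi.zero_apply, Pi.neg_apply,
      dmul, dsq, d_iA, d_hf, map_add, map_sub, map_neg, map_zero, Derivation.map_one_eq_zero,
      X.k0, X.k1, X.k2, X.k3, X.k4, X.k5, X.kb]
    try simp only [X.kv]
    all_goals ring
  have h3 : T.br (ee 4) X.xQ 3 = X.xQ 3 := by
    simp only [T.br3, T.V_six, ee_v, X.xT_v, X.xR_v, X.xP_v, X.xQ_v, Pi.zero_apply, Pi.neg_apply,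
      dmul, dsq, d_iA, d_hf, map_add, map_sub, map_neg, map_zero, Derivation.map_one_eq_zero,
      X.k0, X.k1, X.k2, X.k3, X.k4, X.k5, X.kb]
    try simp only [X.kv]
    all_goals ring
  have h4 : T.br (ee 4) X.xQ 4 = X.xQ 4 := by
    simp only [T.br4, T.V_six, ee_v, X.xT_v, X.xR_v, X.xP_v, X.xQ_v, Pi.zero_apply, Pi.neg_apply,
      dmul, dsq, d_iA, d_hf, map_add, map_sub, map_neg, map_zero, Derivation.map_one_eq_zero,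
      X.k0, X.k1, X.k2, X.k3, X.k4, X.k5, X.kb]
    try simp only [X.kv]
    all_goals ring
  have h5 : T.br (ee 4) X.xQ 5 = X.xQ 5 := by
    simp only [T.br5, T.V_six, ee_v, X.xT_v, X.xR_v, X.xP_v, X.xQ_v, Pi.zero_apply, Pi.neg_apply,
      dmul, dsq, d_iA, d_hf, map_add, map_sub, map_neg, map_zero, Derivation.map_one_eq_zero,
      X.k0, X.k1, X.k2, X.k3, X.k4, X.k5, X.kb]
    try simp only [X.kv]
    all_goals ring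
  fin_cases k
  exacts [h0, h1, h2, h3, h4, h5]

theorem bPQ (k : Fin 6) : T.br X.xP X.xQ k = ((4 * iA A * X.p) • X.xT + ee 4 - ee 5 : Fin 6 → A) k := by
  have h0 : T.br X.xP X.xQ 0 = ((4 * iA A * X.p) • X.xT + ee 4 - ee 5 : Fin 6 → A) 0 := by
    simp only [T.br0, T.V_six, ee_v, X.xT_v, X.xR_v, X.xP_v, X.xQ_v, Pi.zero_apply, Pi.neg_apply,
      Pi.add_apply, Pi.sub_apply, Pi.smul_apply, smul_eq_mul,
      dmul, dsq, d_iA, d_hf, map_add, map_sub, map_neg, map_zero, Derivation.map_one_eq_zero,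
      X.k0, X.k1, X.k2, X.k3, X.k4, X.k5, X.kb]
    try simp only [X.kv]
    linear_combination
      (2 * iA A * X.p * T.d1 X.q) * hhf (A := A) + (-iA A * X.p * T.d1 X.q - X.q * T.d1 X.q) * X.hu
      + (-iA A * X.p * T.d1 X.q + X.q * T.d1 X.q) * X.hub
  have h1 : T.br X.xP X.xQ 1 = ((4 * iA A * X.p) • X.xT + ee 4 - ee 5 : Fin 6 → A) 1 := by
    simp only [T.br1, T.V_six, ee_v, X.xT_v, X.xR_v, X.xP_v, X.xQ_v, Pi.zero_apply, Pi.neg_apply,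
      Pi.add_apply, Pi.sub_apply, Pi.smul_apply, smul_eq_mul,
      dmul, dsq, d_iA, d_hf, map_add, map_sub, map_neg, map_zero, Derivation.map_one_eq_zero,
      X.k0, X.k1, X.k2, X.k3, X.k4, X.k5, X.kb]
    try simp only [X.kv]
    linear_combination
      (-2 * iA A * X.p * T.d0 X.q) * hhf (A := A) + (iA A * X.p * T.d0 X.q + X.q * T.d0 X.q) * X.hu
      + (iA A * X.p * T.d0 X.q - X.q * T.d0 X.q) * X.hub
  have h2 : T.br X.xP X.xQ 2 = ((4 * iA A * X.p) • X.xT + ee 4 - ee 5 : Fin 6 → A) 2 := by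
    simp only [T.br2, T.V_six, ee_v, X.xT_v, X.xR_v, X.xP_v, X.xQ_v, Pi.zero_apply, Pi.neg_apply,
      Pi.add_apply, Pi.sub_apply, Pi.smul_apply, smul_eq_mul,
      dmul, dsq, d_iA, d_hf, map_add, map_sub, map_neg, map_zero, Derivation.map_one_eq_zero,
      X.k0, X.k1, X.k2, X.k3, X.k4, X.k5, X.kb]
    try simp only [X.kv]
    linear_combination
      (2 * iA A ^ 2 * X.p * T.d3 X.p) * hhf (A := A) + (-iA A * T.d3 X.p * X.q + X.p * T.d3 X.p)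
      * X.hub + (X.p * T.d3 X.p) * iA_sq (A := A)
  have h3 : T.br X.xP X.xQ 3 = ((4 * iA A * X.p) • X.xT + ee 4 - ee 5 : Fin 6 → A) 3 := by
    simp only [T.br3, T.V_six, ee_v, X.xT_v, X.xR_v, X.xP_v, X.xQ_v, Pi.zero_apply, Pi.neg_apply,
      Pi.add_apply, Pi.sub_apply, Pi.smul_apply, smul_eq_mul,
      dmul, dsq, d_iA, d_hf, map_add, map_sub, map_neg, map_zero, Derivation.map_one_eq_zero,
      X.k0, X.k1, X.k2, X.k3, X.k4, X.k5, X.kb]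
    try simp only [X.kv]
    linear_combination
      (-2 * iA A ^ 2 * X.p * T.d2 X.p) * hhf (A := A) + (-iA A * T.d2 X.p * X.q - X.p * T.d2 X.p)
      * X.hu + (-X.p * T.d2 X.p) * iA_sq (A := A)
  have h4 : T.br X.xP X.xQ 4 = ((4 * iA A * X.p) • X.xT + ee 4 - ee 5 : Fin 6 → A) 4 := by
    simp only [T.br4, T.V_six, ee_v, X.xT_v, X.xR_v, X.xP_v, X.xQ_v, Pi.zero_apply, Pi.neg_apply,
      Pi.add_apply, Pi.sub_apply, Pi.smul_apply, smul_eq_mul,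
      dmul, dsq, d_iA, d_hf, map_add, map_sub, map_neg, map_zero, Derivation.map_one_eq_zero,
      X.k0, X.k1, X.k2, X.k3, X.k4, X.k5, X.kb]
    try simp only [X.kv]
    linear_combination
      (iA A ^ 2 * X.p ^ 2 * X.u ^ 2 - X.q ^ 2 * X.u ^ 2) * X.kss + (2 * iA A * X.p * X.q * X.u * X.ub
      - iA A * X.p * X.q * X.u ^ 2 + iA A * X.p * X.u + iA A ^ 2 * X.p ^ 2 * X.u ^ 2 + iA A ^ 2 * X.q ^ 2
      * X.u * X.ub - iA A ^ 2 * X.q ^ 2 * X.ub ^ 2 - iA A ^ 3 * X.p * X.q * X.ub ^ 2 - X.p ^ 2 * X.u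
      * X.ub - X.q * X.u) * X.kpp + (-2 * X.M * iA A * X.p * X.u ^ 2) * hhf (A := A) + (-2 * X.M
      * iA A * X.p * X.q * X.u ^ 2 * X.ub + 2 * X.M * iA A * X.p * X.u * X.ub + 2 * X.M * iA A * X.p
      * X.u ^ 2 - 2 * X.M * iA A ^ 2 * X.ub + 2 * X.M * X.q * X.u * X.ub + 2 * X.M * X.q * X.u ^ 2
      - 2 * X.M * X.q ^ 2 * X.u ^ 2 * X.ub - 2 * X.M * X.u - 2 * X.M * X.ub + 4 * X.a ^ 2 * iA A
      * X.p * X.q * X.u * X.ub ^ 3 + X.a ^ 2 * iA A * X.p * X.u * X.ub ^ 2 - 5 * X.a ^ 2 * iA A * X.p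
      * X.ub ^ 3 + X.a ^ 2 * iA A ^ 2 * X.q * X.ub ^ 3 - X.a ^ 2 * iA A ^ 2 * X.ub ^ 2 + 2 * X.a ^ 2
      * X.p ^ 2 * X.u ^ 2 * X.ub ^ 2 - 4 * X.a ^ 2 * X.q * X.u * X.ub ^ 2 + X.a ^ 2 * X.q * X.u ^ 2
      * X.ub - 4 * X.a ^ 2 * X.q * X.ub ^ 3 + 4 * X.a ^ 2 * X.q ^ 2 * X.u * X.ub ^ 3 - X.a ^ 2 * X.u
      * X.ub + 4 * X.a ^ 2 * X.ub ^ 2 + 2 * iA A * X.p * X.q * X.ub ^ 2 + iA A * X.p * X.q ^ 2 * X.u
      * X.ub ^ 2 + iA A * X.p * X.q ^ 2 * X.u ^ 2 * X.ub - 2 * iA A * X.p * X.q ^ 2 * X.ub ^ 3 + 2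
      * iA A * X.p * X.ub - 4 * iA A * X.p ^ 3 * X.q * X.u * X.ub ^ 3 - iA A * X.p ^ 3 * X.u * X.ub ^ 2
      + iA A * X.p ^ 3 * X.u ^ 2 * X.ub + 5 * iA A * X.p ^ 3 * X.ub ^ 3 - iA A ^ 2 * X.p ^ 2 * X.q
      * X.ub ^ 3 + 4 * X.p ^ 2 * X.q * X.u * X.ub ^ 2 + 4 * X.p ^ 2 * X.q * X.ub ^ 3 - 4 * X.p ^ 2
      * X.q ^ 2 * X.u * X.ub ^ 3 + 2 * X.p ^ 2 * X.u * X.ub - 4 * X.p ^ 2 * X.ub ^ 2 - 2 * X.p ^ 4
      * X.u ^ 2 * X.ub ^ 2 + 2 * X.q * X.u - 2 * X.q * X.ub - 2 * X.q ^ 2 * X.u * X.ub + 5 * X.q ^ 2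
      * X.ub ^ 2 + X.q ^ 3 * X.u * X.ub ^ 2 + X.q ^ 3 * X.u ^ 2 * X.ub - 2 * X.q ^ 3 * X.ub ^ 3)
      * X.hu + (1 + 2 * X.M * iA A * X.p * X.u ^ 2 + 2 * X.M * iA A ^ 2 * X.u - 4 * X.M * X.q * X.u ^ 2
      + 4 * X.M * X.u + 2 * X.a ^ 2 * iA A * X.p * X.q * X.u ^ 2 * X.ub ^ 2 - 5 * X.a ^ 2 * iA A
      * X.p * X.u * X.ub ^ 2 + X.a ^ 2 * iA A ^ 2 * X.u * X.ub + 10 * X.a ^ 2 * X.q * X.u * X.ub ^ 2
      - X.a ^ 2 * X.q * X.u ^ 2 * X.ub - 4 * X.a ^ 2 * X.q ^ 2 * X.u ^ 2 * X.ub ^ 2 + 2 * X.a ^ 2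
      * X.u * X.ub - 5 * X.a ^ 2 * X.ub ^ 2 + 2 * iA A * X.p * X.q * X.u * X.ub - 2 * iA A * X.p
      * X.q * X.u ^ 2 - 2 * iA A * X.p * X.q ^ 2 * X.u * X.ub ^ 2 + iA A * X.p * X.q ^ 2 * X.u ^ 2
      * X.ub - iA A * X.p * X.ub - 2 * iA A * X.p ^ 3 * X.q * X.u ^ 2 * X.ub ^ 2 + 5 * iA A * X.p ^ 3
      * X.u * X.ub ^ 2 - 10 * X.p ^ 2 * X.q * X.u * X.ub ^ 2 + X.p ^ 2 * X.q * X.u ^ 2 * X.ub + 4
      * X.p ^ 2 * X.q ^ 2 * X.u ^ 2 * X.ub ^ 2 + 5 * X.p ^ 2 * X.ub ^ 2 - 2 * X.q * X.u + 3 * X.q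
      * X.ub - 2 * X.q ^ 2 * X.u * X.ub + 2 * X.q ^ 2 * X.u ^ 2 - 2 * X.q ^ 2 * X.ub ^ 2 + 2 * X.q ^ 3
      * X.u * X.ub ^ 2 - X.q ^ 3 * X.u ^ 2 * X.ub) * X.hub + (-4 * X.M * iA A * X.p * X.u * X.ub
      + 2 * X.M * X.u - 2 * X.M * X.ub - 2 * X.a ^ 2 * iA A * X.p * X.u * X.ub ^ 2 + X.a ^ 2 * X.p ^ 2
      * X.u ^ 2 * X.ub ^ 2 + X.a ^ 2 * X.q * X.ub ^ 3 - 2 * X.a ^ 2 * X.q ^ 2 * X.u * X.ub ^ 3 + X.a ^ 2
      * X.q ^ 2 * X.u ^ 2 * X.ub ^ 2 + X.a ^ 2 * X.u * X.ub - X.a ^ 2 * X.ub ^ 2 - 2 * X.p ^ 2 * X.q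
      * X.u * X.ub ^ 2 + 2 * X.p ^ 2 * X.q * X.u ^ 2 * X.ub - X.p ^ 2 * X.q * X.ub ^ 3 + 2 * X.p ^ 2
      * X.q ^ 2 * X.u * X.ub ^ 3 - X.p ^ 2 * X.q ^ 2 * X.u ^ 2 * X.ub ^ 2 + 2 * X.p ^ 2 * X.u * X.ub
      + X.p ^ 2 * X.ub ^ 2 - X.p ^ 4 * X.u ^ 2 * X.ub ^ 2) * iA_sq (A := A)
  have h5 : T.br X.xP X.xQ 5 = ((4 * iA A * X.p) • X.xT + ee 4 - ee 5 : Fin 6 → A) 5 := by
    simp only [T.br5, T.V_six, ee_v, X.xT_v, X.xR_v, X.xP_v, X.xQ_v, Pi.zero_apply, Pi.neg_apply,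
      Pi.add_apply, Pi.sub_apply, Pi.smul_apply, smul_eq_mul,
      dmul, dsq, d_iA, d_hf, map_add, map_sub, map_neg, map_zero, Derivation.map_one_eq_zero,
      X.k0, X.k1, X.k2, X.k3, X.k4, X.k5, X.kb]
    try simp only [X.kv]
    linear_combination
      (-iA A ^ 2 * X.p ^ 2 * X.ub ^ 2 + X.q ^ 2 * X.ub ^ 2) * X.kss + (2 * iA A * X.p * X.q * X.u
      * X.ub - iA A * X.p * X.q * X.ub ^ 2 + iA A * X.p * X.ub - iA A ^ 2 * X.p ^ 2 * X.ub ^ 2 - iA A ^ 2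
      * X.q ^ 2 * X.u * X.ub + iA A ^ 2 * X.q ^ 2 * X.u ^ 2 - iA A ^ 3 * X.p * X.q * X.u ^ 2 + X.p ^ 2
      * X.u * X.ub + X.q * X.ub) * X.kpp + (-2 * X.M * iA A * X.p * X.ub ^ 2) * hhf (A := A) + (-1
      + 2 * X.M * iA A * X.p * X.q * X.ub ^ 3 + 2 * X.M * X.q ^ 2 * X.ub ^ 3 - 2 * X.a ^ 2 * iA A
      * X.p * X.q * X.u * X.ub ^ 3 - 2 * X.a ^ 2 * iA A * X.p * X.q * X.u ^ 2 * X.ub ^ 2 - X.a ^ 2
      * iA A * X.p * X.u * X.ub ^ 2 + 3 * X.a ^ 2 * iA A * X.p * X.ub ^ 3 + X.a ^ 2 * iA A ^ 2 * X.q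
      * X.u ^ 2 * X.ub + 2 * X.a ^ 2 * iA A ^ 2 * X.ub ^ 2 + 2 * X.a ^ 2 * X.p ^ 2 * X.u * X.ub ^ 3
      - 2 * X.a ^ 2 * X.q * X.u * X.ub ^ 2 + 3 * X.a ^ 2 * X.q * X.ub ^ 3 + 2 * X.a ^ 2 * X.u * X.ub
      - X.a ^ 2 * X.ub ^ 2 - iA A * X.p * X.q * X.u * X.ub + iA A * X.p * X.q * X.ub ^ 2 - iA A * X.p
      * X.q ^ 2 * X.u * X.ub ^ 2 - iA A * X.p * X.q ^ 2 * X.ub ^ 3 - iA A * X.p * X.ub + 2 * iA A
      * X.p ^ 3 * X.q * X.u * X.ub ^ 3 + 2 * iA A * X.p ^ 3 * X.q * X.u ^ 2 * X.ub ^ 2 + iA A * X.p ^ 3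
      * X.u * X.ub ^ 2 - 4 * iA A * X.p ^ 3 * X.ub ^ 3 - iA A ^ 2 * X.p ^ 2 * X.q * X.u ^ 2 * X.ub
      + 2 * X.p ^ 2 * X.q * X.u * X.ub ^ 2 - 4 * X.p ^ 2 * X.q * X.ub ^ 3 - 2 * X.p ^ 2 * X.u * X.ub
      + 3 * X.p ^ 2 * X.ub ^ 2 - 2 * X.p ^ 4 * X.u * X.ub ^ 3 - X.q * X.u + 2 * X.q ^ 2 * X.u * X.ub
      + X.q ^ 2 * X.ub ^ 2 - X.q ^ 3 * X.u * X.ub ^ 2 - X.q ^ 3 * X.ub ^ 3) * X.hu + (2 * X.M * iA A
      * X.p * X.ub ^ 2 + 2 * X.a ^ 2 * iA A * X.p * X.q * X.u ^ 2 * X.ub ^ 2 + X.a ^ 2 * iA A * X.p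
      * X.u * X.ub ^ 2 - 2 * X.a ^ 2 * iA A * X.p * X.u ^ 2 * X.ub - 2 * X.a ^ 2 * iA A ^ 2 * X.u
      * X.ub - 4 * X.a ^ 2 * X.q * X.u * X.ub ^ 2 + 3 * X.a ^ 2 * X.q * X.u ^ 2 * X.ub - 4 * X.a ^ 2
      * X.u * X.ub + 3 * X.a ^ 2 * X.ub ^ 2 + iA A * X.p * X.q * X.u * X.ub + iA A * X.p * X.q * X.u ^ 2
      - iA A * X.p * X.q ^ 2 * X.u ^ 2 * X.ub + iA A * X.p * X.u + iA A * X.p * X.ub - 2 * iA A * X.p ^ 3
      * X.q * X.u ^ 2 * X.ub ^ 2 - iA A * X.p ^ 3 * X.u * X.ub ^ 2 + 2 * iA A * X.p ^ 3 * X.u ^ 2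
      * X.ub + 4 * X.p ^ 2 * X.q * X.u * X.ub ^ 2 - 3 * X.p ^ 2 * X.q * X.u ^ 2 * X.ub - 4 * X.p ^ 2
      * X.ub ^ 2 - 2 * X.q ^ 2 * X.u * X.ub - X.q ^ 2 * X.u ^ 2 - X.q ^ 2 * X.ub ^ 2 + X.q ^ 3 * X.u ^ 2
      * X.ub) * X.hub + (4 * X.a ^ 2 * iA A * X.p * X.u * X.ub ^ 2 - 4 * X.a ^ 2 * X.p ^ 2 * X.q
      * X.u ^ 2 * X.ub ^ 3 + 2 * X.a ^ 2 * X.p ^ 2 * X.u * X.ub ^ 3 + X.a ^ 2 * X.p ^ 2 * X.u ^ 2
      * X.ub ^ 2 + X.a ^ 2 * X.q * X.u ^ 2 * X.ub - X.a ^ 2 * X.q ^ 2 * X.u ^ 2 * X.ub ^ 2 - 2 * X.a ^ 2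
      * X.u * X.ub + 2 * X.a ^ 2 * X.ub ^ 2 - X.p ^ 2 * X.q * X.u ^ 2 * X.ub + X.p ^ 2 * X.q ^ 2
      * X.u ^ 2 * X.ub ^ 2 - 2 * X.p ^ 2 * X.u * X.ub - X.p ^ 2 * X.ub ^ 2 + 4 * X.p ^ 4 * X.q * X.u ^ 2
      * X.ub ^ 3 - 2 * X.p ^ 4 * X.u * X.ub ^ 3 - X.p ^ 4 * X.u ^ 2 * X.ub ^ 2) * iA_sq (A := A)
  fin_cases k
  exacts [h0, h1, h2, h3, h4, h5]

theorem T_p : T.V X.xT X.p = 0 := by
  simp only [T.V_six, X.xT_v, X.k0, X.k1, X.k2, X.k3, X.k4, X.k5]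
  all_goals ring

theorem T_q : T.V X.xT X.q = 0 := by
  simp only [T.V_six, X.xT_v, X.k0, X.k1, X.k2, X.k3, X.k4, X.k5]
  all_goals ring

theorem T_pi : T.V X.xT (T.d2 X.p) = 0 := by
  simp only [T.V_six, X.xT_v, X.k0, X.k1, X.k2, X.k3, X.k4, X.k5]
  apply (u2.pow 1).mul_left_cancel
  linear_combination
    (-2 * hf A * T.d2 X.p * X.u + 2 * hf A * T.d2 X.p * X.ub) * X.kss + (2 * X.M * T.d2 X.p * X.q
    * X.u * X.ub ^ 2 - 2 * X.M * T.d2 X.p * X.q * X.u ^ 2 * X.ub + X.M * T.d2 X.p * X.u ^ 2 - X.M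
    * T.d2 X.p * X.ub ^ 2 - 2 * X.a ^ 2 * iA A * X.p * T.d2 X.p * X.u ^ 2 * X.ub ^ 2 - X.a ^ 2 * T.d2 X.p
    * X.u * X.ub ^ 2 + X.a ^ 2 * T.d2 X.p * X.u ^ 2 * X.ub - 2 * iA A * X.p * T.d2 X.p * X.u * X.ub
    + 2 * iA A * X.p ^ 3 * T.d2 X.p * X.u ^ 2 * X.ub ^ 2 - T.d2 X.p * X.q ^ 2 * X.u * X.ub ^ 2 + T.d2 X.p
    * X.q ^ 2 * X.u ^ 2 * X.ub) * hhf (A := A) + (X.M * iA A ^ 2 * T.d2 X.p * X.u * X.ub - X.M * iA A ^ 2
    * T.d2 X.p * X.ub ^ 2 + X.a ^ 2 * iA A ^ 2 * T.d2 X.p * X.u * X.ub ^ 2 + 2 * X.a ^ 2 * T.d2 X.p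
    * X.u * X.ub ^ 2 + iA A * X.p * T.d2 X.p * X.q * X.u * X.ub ^ 2 - iA A * X.p * T.d2 X.p * X.ub ^ 2
    - 2 * X.p ^ 2 * T.d2 X.p * X.u * X.ub ^ 2 + T.d2 X.p * X.q * X.u * X.ub - T.d2 X.p * X.q * X.ub ^ 2
    + T.d2 X.p * X.ub) * X.hu + (X.M * iA A ^ 2 * T.d2 X.p * X.u * X.ub - X.M * iA A ^ 2 * T.d2 X.p
    * X.u ^ 2 + 2 * X.M * T.d2 X.p * X.u * X.ub - 2 * X.M * T.d2 X.p * X.u ^ 2 - X.a ^ 2 * iA A ^ 2
    * T.d2 X.p * X.u ^ 2 * X.ub - 2 * X.a ^ 2 * T.d2 X.p * X.u ^ 2 * X.ub - iA A * X.p * T.d2 X.p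
    * X.q * X.u ^ 2 * X.ub + iA A * X.p * T.d2 X.p * X.u * X.ub - T.d2 X.p * X.ub) * X.hub + (-2
    * X.M * iA A * X.p * T.d2 X.p * X.u * X.ub ^ 2 + 2 * X.M * iA A * X.p * T.d2 X.p * X.u ^ 2 * X.ub
    + 2 * X.M * T.d2 X.p * X.u * X.ub - X.M * T.d2 X.p * X.u ^ 2 - X.M * T.d2 X.p * X.ub ^ 2 + 2
    * X.a ^ 2 * iA A * X.p * T.d2 X.p * X.u ^ 2 * X.ub ^ 2 + X.a ^ 2 * T.d2 X.p * X.u * X.ub ^ 2
    - X.a ^ 2 * T.d2 X.p * X.u ^ 2 * X.ub + 2 * X.p ^ 2 * T.d2 X.p * X.q * X.u ^ 2 * X.ub ^ 2 - 2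
    * X.p ^ 2 * T.d2 X.p * X.u * X.ub ^ 2) * iA_sq (A := A)

theorem T_pb : T.V X.xT (T.d3 X.p) = 0 := by
  simp only [T.V_six, X.xT_v, X.k0, X.k1, X.k2, X.k3, X.k4, X.k5]
  apply (u2.pow 1).mul_left_cancel
  linear_combination
    (2 * hf A * T.d3 X.p * X.u - 2 * hf A * T.d3 X.p * X.ub) * X.kss + (-2 * X.M * T.d3 X.p * X.q
    * X.u * X.ub ^ 2 + 2 * X.M * T.d3 X.p * X.q * X.u ^ 2 * X.ub - X.M * T.d3 X.p * X.u ^ 2 + X.M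
    * T.d3 X.p * X.ub ^ 2 + 2 * X.a ^ 2 * iA A * X.p * T.d3 X.p * X.u ^ 2 * X.ub ^ 2 + X.a ^ 2 * T.d3 X.p
    * X.u * X.ub ^ 2 - X.a ^ 2 * T.d3 X.p * X.u ^ 2 * X.ub + 2 * iA A * X.p * T.d3 X.p * X.u * X.ub
    - 2 * iA A * X.p ^ 3 * T.d3 X.p * X.u ^ 2 * X.ub ^ 2 + T.d3 X.p * X.q ^ 2 * X.u * X.ub ^ 2 - T.d3 X.p
    * X.q ^ 2 * X.u ^ 2 * X.ub) * hhf (A := A) + (-X.M * iA A ^ 2 * T.d3 X.p * X.u * X.ub + X.M * iA A ^ 2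
    * T.d3 X.p * X.ub ^ 2 - X.a ^ 2 * iA A ^ 2 * T.d3 X.p * X.u * X.ub ^ 2 - 2 * X.a ^ 2 * T.d3 X.p
    * X.u * X.ub ^ 2 - iA A * X.p * T.d3 X.p * X.q * X.u * X.ub ^ 2 + iA A * X.p * T.d3 X.p * X.ub ^ 2
    + 2 * X.p ^ 2 * T.d3 X.p * X.u * X.ub ^ 2 - T.d3 X.p * X.q * X.u * X.ub + T.d3 X.p * X.q * X.ub ^ 2
    - T.d3 X.p * X.ub) * X.hu + (-X.M * iA A ^ 2 * T.d3 X.p * X.u * X.ub + X.M * iA A ^ 2 * T.d3 X.p
    * X.u ^ 2 - 2 * X.M * T.d3 X.p * X.u * X.ub + 2 * X.M * T.d3 X.p * X.u ^ 2 + X.a ^ 2 * iA A ^ 2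
    * T.d3 X.p * X.u ^ 2 * X.ub + 2 * X.a ^ 2 * T.d3 X.p * X.u ^ 2 * X.ub + iA A * X.p * T.d3 X.p
    * X.q * X.u ^ 2 * X.ub - iA A * X.p * T.d3 X.p * X.u * X.ub + T.d3 X.p * X.ub) * X.hub + (2 * X.M
    * iA A * X.p * T.d3 X.p * X.u * X.ub ^ 2 - 2 * X.M * iA A * X.p * T.d3 X.p * X.u ^ 2 * X.ub - 2
    * X.M * T.d3 X.p * X.u * X.ub + X.M * T.d3 X.p * X.u ^ 2 + X.M * T.d3 X.p * X.ub ^ 2 - 2 * X.a ^ 2
    * iA A * X.p * T.d3 X.p * X.u ^ 2 * X.ub ^ 2 - X.a ^ 2 * T.d3 X.p * X.u * X.ub ^ 2 + X.a ^ 2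
    * T.d3 X.p * X.u ^ 2 * X.ub - 2 * X.p ^ 2 * T.d3 X.p * X.q * X.u ^ 2 * X.ub ^ 2 + 2 * X.p ^ 2
    * T.d3 X.p * X.u * X.ub ^ 2) * iA_sq (A := A)

theorem T_s2 : T.V X.xT (T.d1 X.q) = 0 := by
  simp only [T.V_six, X.xT_v, X.k0, X.k1, X.k2, X.k3, X.k4, X.k5]
  apply (u2.pow 1).mul_left_cancel
  linear_combination
    (-2 * hf A * iA A ^ 2 * T.d1 X.q * X.u - 2 * hf A * iA A ^ 2 * T.d1 X.q * X.ub) * X.kpp + (4
    * X.M * X.q ^ 2 * T.d1 X.q * X.u ^ 2 * X.ub ^ 2 - 2 * X.M * T.d1 X.q * X.u * X.ub - X.M * T.d1 X.q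
    * X.u ^ 2 - X.M * T.d1 X.q * X.ub ^ 2 - X.a ^ 2 * iA A ^ 2 * T.d1 X.q * X.u * X.ub ^ 2 - X.a ^ 2
    * iA A ^ 2 * T.d1 X.q * X.u ^ 2 * X.ub - 2 * X.a ^ 2 * X.q * T.d1 X.q * X.u ^ 2 * X.ub ^ 2 + iA A ^ 2
    * X.p ^ 2 * T.d1 X.q * X.u * X.ub ^ 2 + iA A ^ 2 * X.p ^ 2 * T.d1 X.q * X.u ^ 2 * X.ub + 2 * X.q
    * T.d1 X.q * X.u * X.ub - 2 * X.q ^ 3 * T.d1 X.q * X.u ^ 2 * X.ub ^ 2) * hhf (A := A) + (-2 * X.M
    * iA A * X.p * T.d1 X.q * X.u * X.ub ^ 2 - X.M * iA A ^ 2 * T.d1 X.q * X.u * X.ub + X.M * iA A ^ 2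
    * T.d1 X.q * X.ub ^ 2 + 2 * X.M * T.d1 X.q * X.u * X.ub + 2 * X.M * T.d1 X.q * X.ub ^ 2 + X.a ^ 2
    * iA A ^ 2 * T.d1 X.q * X.u * X.ub ^ 2 + iA A * X.p * X.q * T.d1 X.q * X.u * X.ub ^ 2 - iA A
    * X.p * T.d1 X.q * X.u * X.ub - 2 * iA A * X.p * T.d1 X.q * X.ub ^ 2 - 2 * X.q * T.d1 X.q * X.u
    * X.ub - 2 * X.q * T.d1 X.q * X.ub ^ 2 + 2 * T.d1 X.q * X.ub) * X.hu + (-2 * X.M * iA A * X.p
    * T.d1 X.q * X.u ^ 2 * X.ub - X.M * iA A ^ 2 * T.d1 X.q * X.u * X.ub + X.M * iA A ^ 2 * T.d1 X.q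
    * X.u ^ 2 + 4 * X.M * X.q * T.d1 X.q * X.u ^ 2 * X.ub - 2 * X.M * T.d1 X.q * X.u * X.ub + 2 * X.M
    * T.d1 X.q * X.u ^ 2 - X.a ^ 2 * iA A ^ 2 * T.d1 X.q * X.u ^ 2 * X.ub - 2 * X.a ^ 2 * T.d1 X.q
    * X.u ^ 2 * X.ub + iA A * X.p * X.q * T.d1 X.q * X.u ^ 2 * X.ub - iA A * X.p * T.d1 X.q * X.u
    * X.ub + 2 * X.q * T.d1 X.q * X.u * X.ub - 2 * X.q ^ 2 * T.d1 X.q * X.u ^ 2 * X.ub - 2 * T.d1 X.q
    * X.ub) * X.hub + (2 * X.M * iA A * X.p * T.d1 X.q * X.u * X.ub ^ 2 - 2 * X.M * iA A * X.p * T.d1 X.q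
    * X.u ^ 2 * X.ub - 2 * X.M * T.d1 X.q * X.u * X.ub + X.M * T.d1 X.q * X.u ^ 2 + X.M * T.d1 X.q
    * X.ub ^ 2 + 2 * X.a ^ 2 * iA A * X.p * T.d1 X.q * X.u ^ 2 * X.ub ^ 2 - 2 * X.a ^ 2 * T.d1 X.q
    * X.u ^ 2 * X.ub) * iA_sq (A := A)

theorem T_a : T.V X.xT X.a = 0 := by
  simp only [T.V_six, X.xT_v, X.k0, X.k1, X.k2, X.k3, X.k4, X.k5]
  all_goals ring

theorem T_ai : T.V X.xT X.ai = 0 := by
  simp only [T.V_six, X.xT_v, X.k0, X.k1, X.k2, X.k3, X.k4, X.k5]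
  all_goals ring

theorem T_M : T.V X.xT X.M = 0 := by
  simp only [T.V_six, X.xT_v, X.k0, X.k1, X.k2, X.k3, X.k4, X.k5]
  all_goals ring

theorem R_r : T.V X.xR X.q = 1 := by
  simp only [T.V_six, X.xR_v, dmul, dsq, d_iA, d_hf, map_add, map_sub, map_neg, map_zero, Derivation.map_one_eq_zero,
    X.k0, X.k1, X.k2, X.k3, X.k4, X.k5]
  linear_combination
    (1) * X.hsv

theorem R_x : T.V X.xR (X.p * X.ai) = 0 := by
  simp only [T.V_six, X.xR_v, dmul, dsq, d_iA, d_hf, map_add, map_sub, map_neg, map_zero, Derivation.map_one_eq_zero,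
    X.k0, X.k1, X.k2, X.k3, X.k4, X.k5]
  all_goals ring

theorem R_s : T.V X.xR (-(T.d2 X.p * (X.q + iA A * X.p) * X.ai)) = 0 := by
  simp only [T.V_six, X.xR_v, dmul, dsq, d_iA, d_hf, map_add, map_sub, map_neg, map_zero, Derivation.map_one_eq_zero,
    X.k0, X.k1, X.k2, X.k3, X.k4, X.k5]
  linear_combination
    (X.ai * iA A * X.p * T.d2 X.p * X.u - X.ai * T.d2 X.p + X.ai * T.d2 X.p * X.q * X.u) * X.hsv
    + (4 * X.ai * iA A * X.p * T.d2 X.p * X.ub - 3 * X.ai * T.d2 X.p + 4 * X.ai * T.d2 X.p * X.q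
    * X.ub) * X.hu + (2 * X.ai * iA A * X.p * T.d2 X.p * X.u + 4 * X.ai * T.d2 X.p - 4 * X.ai * T.d2 X.p
    * X.q * X.u) * X.hub

theorem R_N : T.V X.xR (-X.sv) = 0 := by
  simp only [T.V_six, X.xR_v, dmul, dsq, d_iA, d_hf, map_add, map_sub, map_neg, map_zero, Derivation.map_one_eq_zero,
    X.k0, X.k1, X.k2, X.k3, X.k4, X.k5]
  all_goals ring

theorem R_a : T.V X.xR X.a = 0 := by
  simp only [T.V_six, X.xR_v, dmul, dsq, d_iA, d_hf, map_add, map_sub, map_neg, map_zero, Derivation.map_one_eq_zero,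
    X.k0, X.k1, X.k2, X.k3, X.k4, X.k5]
  all_goals ring

theorem R_M : T.V X.xR X.M = 0 := by
  simp only [T.V_six, X.xR_v, dmul, dsq, d_iA, d_hf, map_add, map_sub, map_neg, map_zero, Derivation.map_one_eq_zero,
    X.k0, X.k1, X.k2, X.k3, X.k4, X.k5]
  all_goals ring

theorem P_r : T.V X.xP X.q = 0 := by
  simp only [T.V_six, X.xP_v, dmul, dsq, d_iA, d_hf, map_add, map_sub, map_neg, map_zero, Derivation.map_one_eq_zero,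
    X.k0, X.k1, X.k2, X.k3, X.k4, X.k5]
  all_goals ring

theorem P_x : T.V X.xP (X.p * X.ai) = -(-(T.d3 X.p * (X.q - iA A * X.p) * X.ai)) := by
  simp only [T.V_six, X.xP_v, dmul, dsq, d_iA, d_hf, map_add, map_sub, map_neg, map_zero, Derivation.map_one_eq_zero,
    X.k0, X.k1, X.k2, X.k3, X.k4, X.k5]
  all_goals ring

theorem P_s : T.V X.xP (-(T.d2 X.p * (X.q + iA A * X.p) * X.ai)) = 2 * (X.p * X.ai) := by
  simp only [T.V_six, X.xP_v, dmul, dsq, d_iA, d_hf, map_add, map_sub, map_neg, map_zero, Derivation.map_one_eq_zero,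
    X.k0, X.k1, X.k2, X.k3, X.k4, X.k5]
  linear_combination
    (-X.ai * iA A * X.p ^ 2 * X.ub - X.ai * iA A * X.q + X.ai * iA A * X.q ^ 2 * X.ub + X.ai * iA A ^ 2
    * X.p + X.ai * iA A ^ 2 * X.p * X.q * X.ub - X.ai * X.p * X.q * X.ub) * X.kpp + (-X.a * iA A
    * X.p ^ 2 * X.u * X.ub ^ 2 - X.a * iA A * X.q * X.u * X.ub + X.a * iA A * X.q ^ 2 * X.u * X.ub ^ 2
    + X.a * iA A ^ 2 * X.p * X.q * X.u * X.ub ^ 2 + X.a * iA A ^ 2 * X.p * X.u * X.ub - 2 * X.a * iA A ^ 2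
    * X.p ^ 3 * X.u ^ 2 * X.ub ^ 2 - X.a * X.p * X.q * X.u * X.ub ^ 2 + 2 * X.a * X.p * X.q ^ 2 * X.u ^ 2
    * X.ub ^ 2) * X.hai + (2 * X.a * iA A * X.p ^ 2 * X.u * X.ub ^ 2 + X.a * iA A * X.q * X.ub ^ 2
    - X.a * iA A * X.ub + 2 * X.a * X.p * X.q * X.u * X.ub ^ 2 - X.a * X.p * X.ub ^ 2 + X.ai * iA A
    * X.p ^ 2 * X.q * X.ub ^ 2 + 3 * X.ai * iA A * X.p ^ 2 * X.ub - 2 * X.ai * iA A * X.p ^ 4 * X.u
    * X.ub ^ 2 + 2 * X.ai * X.p * X.q ^ 2 * X.ub ^ 2 - 2 * X.ai * X.p ^ 3 * X.q * X.u * X.ub ^ 2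
    + X.ai * X.p ^ 3 * X.ub ^ 2) * X.hu + (X.a * iA A * X.ub + 2 * X.ai * iA A * X.p ^ 2 * X.q * X.u
    * X.ub - X.ai * iA A * X.p ^ 2 * X.ub + 2 * X.ai * X.p + 2 * X.ai * X.p * X.q * X.ub - 2 * X.ai
    * X.p * X.q ^ 2 * X.u * X.ub) * X.hub + (2 * X.a * X.p * X.q * X.u * X.ub ^ 2 - X.a * X.p * X.ub ^ 2
    - 2 * X.ai * X.p ^ 3 * X.q * X.u * X.ub ^ 2 + X.ai * X.p ^ 3 * X.ub ^ 2) * iA_sq (A := A)

theorem P_sb : T.V X.xP (-(T.d3 X.p * (X.q - iA A * X.p) * X.ai)) = 0 := by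
  simp only [T.V_six, X.xP_v, dmul, dsq, d_iA, d_hf, map_add, map_sub, map_neg, map_zero, Derivation.map_one_eq_zero,
    X.k0, X.k1, X.k2, X.k3, X.k4, X.k5]
  linear_combination
    (-X.ai * iA A * T.d3 X.p ^ 2 * X.q - X.ai * X.p * T.d3 X.p ^ 2) * X.hub + (-X.ai * X.p * T.d3 X.p ^ 2
    + 2 * X.ai * X.p * T.d3 X.p ^ 2 * X.q * X.ub) * iA_sq (A := A)

theorem P_N : T.V X.xP (-X.sv) = 0 := by
  simp only [T.V_six, X.xP_v, dmul, dsq, d_iA, d_hf, map_add, map_sub, map_neg, map_zero, Derivation.map_one_eq_zero,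
    X.k0, X.k1, X.k2, X.k3, X.k4, X.k5]
  linear_combination
    (X.p * T.d3 X.p * X.sv * X.ub) * iA_sq (A := A)

theorem P_a : T.V X.xP X.a = 0 := by
  simp only [T.V_six, X.xP_v, dmul, dsq, d_iA, d_hf, map_add, map_sub, map_neg, map_zero, Derivation.map_one_eq_zero,
    X.k0, X.k1, X.k2, X.k3, X.k4, X.k5]
  all_goals ring

theorem P_M : T.V X.xP X.M = 0 := by
  simp only [T.V_six, X.xP_v, dmul, dsq, d_iA, d_hf, map_add, map_sub, map_neg, map_zero, Derivation.map_one_eq_zero,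
    X.k0, X.k1, X.k2, X.k3, X.k4, X.k5]
  all_goals ring

theorem R_asb : T.V X.xR (T.d3 X.p * (X.q - iA A * X.p)) = 0 := by
  simp only [T.V_six, X.xR_v, dmul, dsq, d_iA, d_hf, map_add, map_sub, map_neg, map_zero, Derivation.map_one_eq_zero,
    X.k0, X.k1, X.k2, X.k3, X.k4, X.k5]
  linear_combination
    (iA A * X.p * T.d3 X.p * X.ub + T.d3 X.p - T.d3 X.p * X.q * X.ub) * X.hsv + (-2 * iA A * X.p
    * T.d3 X.p * X.ub) * X.hu + (-T.d3 X.p) * X.hub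

theorem P_as : T.V X.xP (T.d2 X.p * (X.q + iA A * X.p)) = -(2 * X.p) := by
  simp only [T.V_six, X.xP_v, dmul, dsq, d_iA, d_hf, map_add, map_sub, map_neg, map_zero, Derivation.map_one_eq_zero,
    X.k0, X.k1, X.k2, X.k3, X.k4, X.k5]
  linear_combination
    (iA A * X.p ^ 2 * X.ub + iA A * X.q - iA A * X.q ^ 2 * X.ub - iA A ^ 2 * X.p - iA A ^ 2 * X.p
    * X.q * X.ub + X.p * X.q * X.ub) * X.kpp + (-2 * X.a ^ 2 * iA A * X.p ^ 2 * X.u * X.ub ^ 2 - X.a ^ 2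
    * iA A * X.q * X.ub ^ 2 + X.a ^ 2 * iA A * X.ub - 2 * X.a ^ 2 * X.p * X.q * X.u * X.ub ^ 2 + X.a ^ 2
    * X.p * X.ub ^ 2 - iA A * X.p ^ 2 * X.q * X.ub ^ 2 - 3 * iA A * X.p ^ 2 * X.ub + 2 * iA A * X.p ^ 4
    * X.u * X.ub ^ 2 - 2 * X.p * X.q ^ 2 * X.ub ^ 2 + 2 * X.p ^ 3 * X.q * X.u * X.ub ^ 2 - X.p ^ 3
    * X.ub ^ 2) * X.hu + (-X.a ^ 2 * iA A * X.ub - 2 * iA A * X.p ^ 2 * X.q * X.u * X.ub + iA A * X.p ^ 2
    * X.ub - 2 * X.p - 2 * X.p * X.q * X.ub + 2 * X.p * X.q ^ 2 * X.u * X.ub) * X.hub + (-2 * X.a ^ 2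
    * X.p * X.q * X.u * X.ub ^ 2 + X.a ^ 2 * X.p * X.ub ^ 2 + 2 * X.p ^ 3 * X.q * X.u * X.ub ^ 2
    - X.p ^ 3 * X.ub ^ 2) * iA_sq (A := A)

theorem Q_asb : T.V X.xQ (T.d3 X.p * (X.q - iA A * X.p)) = -(2 * X.p) := by
  simp only [T.V_six, X.xQ_v, dmul, dsq, d_iA, d_hf, map_add, map_sub, map_neg, map_zero, Derivation.map_one_eq_zero,
    X.k0, X.k1, X.k2, X.k3, X.k4, X.k5]
  linear_combination
    (-iA A * X.p ^ 2 * X.u - iA A * X.q + iA A * X.q ^ 2 * X.u - iA A ^ 2 * X.p - iA A ^ 2 * X.p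
    * X.q * X.u + X.p * X.q * X.u) * X.kpp + (-2 * X.a ^ 2 * iA A * X.p ^ 2 * X.u * X.ub ^ 2 + X.a ^ 2
    * iA A * X.q * X.u * X.ub - 2 * X.a ^ 2 * iA A * X.q * X.ub ^ 2 + 2 * X.a ^ 2 * iA A * X.ub - 2
    * X.a ^ 2 * X.p * X.q * X.u * X.ub ^ 2 + X.a ^ 2 * X.p * X.u * X.ub + 2 * X.a ^ 2 * X.p * X.ub ^ 2
    - iA A * X.p ^ 2 * X.q * X.u * X.ub + 2 * iA A * X.p ^ 2 * X.q * X.ub ^ 2 - 3 * iA A * X.p ^ 2
    * X.ub + 2 * iA A * X.p ^ 4 * X.u * X.ub ^ 2 - X.p - X.p * X.q * X.ub + 2 * X.p ^ 3 * X.q * X.u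
    * X.ub ^ 2 - X.p ^ 3 * X.u * X.ub - 2 * X.p ^ 3 * X.ub ^ 2) * X.hu + (2 * X.a ^ 2 * iA A * X.q
    * X.u * X.ub - 2 * X.a ^ 2 * iA A * X.ub - 2 * iA A * X.p ^ 2 * X.q * X.u * X.ub + iA A * X.p ^ 2
    * X.u + 2 * iA A * X.p ^ 2 * X.ub - X.p - X.p * X.q * X.u) * X.hub + (-4 * X.a ^ 2 * X.p * X.q
    * X.u * X.ub ^ 2 + X.a ^ 2 * X.p * X.u * X.ub + 2 * X.a ^ 2 * X.p * X.ub ^ 2 + 4 * X.p ^ 3 * X.q
    * X.u * X.ub ^ 2 - X.p ^ 3 * X.u * X.ub - 2 * X.p ^ 3 * X.ub ^ 2) * iA_sq (A := A)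

end KX
end Vale.Agent.P354NP
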