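import Vale.Agent.P354NP.Kx

set_option linter.unusedSimpArgs false

namespace Vale.Agent.P354NP

variable {A : Type*} [CommRing A] [StarRing A] [Algebra ℂ A]

/-- `- Re ze`. -/
noncomputable def q0 (ze : A) : A := -(hf A * (ze + star ze))
/-- `Im ze`. -/
noncomputable def p0 (ze : A) : A := -(hf A * iA A * (ze - star ze))

theorem sq0 (ze : A) : star (q0 ze) = q0 ze := by
  simp only [q0, star_neg, star_mul', star_add, star_star, shf]; ring
theorem sp0 (si : star (iA A) = -iA A) (ze : A) : star (p0 ze) = p0 ze := by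
  simp only [p0, star_neg, star_mul', star_sub, star_star, shf, si]; ring
theorem qp0 (ze : A) : q0 ze - iA A * p0 ze = -ze := by
  unfold q0 p0
  linear_combination hf A * (ze - star ze) * iA_sq (A := A) - ze * hhf (A := A)

/-- Without acceleration and NUT charge the real and imaginary parts of `ze` are the coordinates. -/
theorem PX.free {T : TD A} (P : PX T) (ha : P.al = 0) (hn : P.n2 = 0)
    (hu : IsUnit (P.ci ^ 2 + P.ci * star P.ci + star P.ci ^ 2)) :
    T.d1 (p0 T.ze) = 0 ∧ T.d2 (q0 T.ze) = 0 := by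
  have h1 : star P.ci = P.ci := by
    apply (PD.uI.mul hu).mul_left_cancel
    unfold PX.n2 at hn
    linear_combination hn
  have uc : IsUnit P.ci := IsUnit.of_mul_eq_one P.c (by rw [mul_comm, P.cci])
  have h2 := P.hZ
  rw [ha] at h2
  have h3 := congrArg star h2
  simp only [star_mul', star_sub, star_one, star_zero, h1, P.si, P.sp, P.sq] at h3
  have ep : P.ci * p0 T.ze = -P.p := by
    unfold p0
    linear_combination -(hf A * iA A) * (h2 - h3) + 2 * hf A * P.p * iA_sq (A := A)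
      - P.p * hhf (A := A)
  have eq : P.ci * q0 T.ze = -P.q := by
    unfold q0
    linear_combination -hf A * (h2 + h3) - P.q * hhf (A := A)
  constructor
  · have := congrArg T.d1 ep
    rw [dmul, P.kc.k1, map_neg, P.x1, mul_zero, add_zero, neg_zero] at this
    exact uc.mul_right_eq_zero.mp this
  · have := congrArg T.d2 eq
    rw [dmul, P.kc.k2, map_neg, P.x2, mul_zero, add_zero, neg_zero] at this
    exact uc.mul_right_eq_zero.mp this

/-- The base point free data. -/
structure Fre (T : TD A) where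
  sv : A
  si : star (iA A) = -iA A
  x1 : T.d1 (p0 T.ze) = 0
  x2 : T.d2 (q0 T.ze) = 0
  hsv : T.d1 (q0 T.ze) * sv = 1

namespace Fre
open PD PX
variable {T : TD A} (F : Fre T)

/-- The PD structure with scale `l`. -/
noncomputable def px (l li : A) (hl : l * li = 1) (kl : T.Const l) (sl : star l = l) : PX T where
  c := -li
  ci := -l
  al := 0
  p := l * p0 T.ze
  q := l * q0 T.ze
  oi := 1
  oj := 1
  sv := li * F.sv
  si := F.si
  cci := by linear_combination hl
  kc := kl.neg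
  kal := TD.Const.zero
  sal := star_zero A
  sp := by rw [star_mul', sl, sp0 F.si]
  sq := by rw [star_mul', sl, sq0]
  hZ := by linear_combination -l * qp0 T.ze
  hoi := by ring
  hoj := by ring
  hsv := by rw [dmul, kl.k1]; linear_combination (l * li) * F.hsv + hl
  x1 := by rw [dmul, kl.k1, F.x1]; ring
  x2 := by rw [dmul, kl.k2, F.x2]; ring

section
variable {l li : A} (hl : l * li = 1) (kl : T.Const l) (sl : star l = l)

theorem px_m2 : (F.px l li hl kl sl).m2 = 2 * l ^ 3 := by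
  simp only [m2, px, star_neg, sl]; ring
theorem px_n2 : (F.px l li hl kl sl).n2 = 0 := by
  simp only [n2, px, star_neg, sl]; ring

theorem px_P : (F.px l li hl kl sl).k - (F.px l li hl kl sl).ep * (l * p0 T.ze) ^ 2
    = l ^ 4 * (2 * T.d2 (p0 T.ze) * T.d3 (p0 T.ze) * (p0 T.ze ^ 2 + q0 T.ze ^ 2)) := by
  have h := (F.px l li hl kl sl).vP
  rw [eP, F.px_n2] at h
  simp only [px, dmul, kl.k2, kl.k3] at h ⊢
  linear_combination h

theorem px_Q : (F.px l li hl kl sl).k + (F.px l li hl kl sl).ep * (l * q0 T.ze) ^ 2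
    = l ^ 4 * (-(2 * T.d0 (q0 T.ze) * T.d1 (q0 T.ze) * (p0 T.ze ^ 2 + q0 T.ze ^ 2))
      + 2 * q0 T.ze) := by
  have h := (F.px l li hl kl sl).vQ
  rw [eQ, F.px_n2, F.px_m2] at h
  simp only [px, dmul, kl.k0, kl.k1] at h ⊢
  linear_combination h
end

include F in
theorem uS0 : IsUnit (p0 T.ze ^ 2 + q0 T.ze ^ 2) := by
  have h := (F.px 1 1 (mul_one 1) TD.Const.one (star_one A)).hS
  simp only [px, one_mul] at h
  exact IsUnit.of_mul_eq_one _ h

include F in
/-- The defining relation of the scale makes it constant. -/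
theorem const_l {l : A} (ul : IsUnit l)
    (h : l ^ 2 * (-(2 * T.d0 (q0 T.ze) * T.d1 (q0 T.ze) * (p0 T.ze ^ 2 + q0 T.ze ^ 2)) + 2 * q0 T.ze
      - 2 * T.d2 (p0 T.ze) * T.d3 (p0 T.ze) * (p0 T.ze ^ 2 + q0 T.ze ^ 2))
      = 2 * (p0 T.ze ^ 2 + q0 T.ze ^ 2)) : T.Const l := by
  have h1 := F.px_P (mul_one 1) TD.Const.one (star_one A)
  have h2 := F.px_Q (mul_one 1) TD.Const.one (star_one A)
  have ke := (F.px 1 1 (mul_one 1) TD.Const.one (star_one A)).kep
  generalize (F.px 1 1 (mul_one 1) TD.Const.one (star_one A)).ep = e at h1 h2 ke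
  have h3 : l ^ 2 * e = 2 := by
    apply F.uS0.mul_left_cancel
    linear_combination h + l ^ 2 * (h2 - h1)
  have ue : IsUnit e := by
    have : IsUnit (l ^ 2 * e) := by rw [h3]; exact u2
    exact isUnit_of_mul_isUnit_right this
  refine TD.Const.of_D fun a => ?_
  have h4 := congrArg (T.D a) h3
  rw [dmul, ke.D, dsq, d2n] at h4
  apply ((u2.mul ul).mul ue).mul_right_eq_zero.mp
  linear_combination h4

/-- THE KERR CLASS from the local scale `l` and the local angular momentum `a`. -/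
noncomputable def kx (l li a ai : A) (hl : l * li = 1) (sl : star l = l) (ha : a * ai = 1)
    (sa : star a = a)
    (h : l ^ 2 * (-(2 * T.d0 (q0 T.ze) * T.d1 (q0 T.ze) * (p0 T.ze ^ 2 + q0 T.ze ^ 2)) + 2 * q0 T.ze
      - 2 * T.d2 (p0 T.ze) * T.d3 (p0 T.ze) * (p0 T.ze ^ 2 + q0 T.ze ^ 2))
      = 2 * (p0 T.ze ^ 2 + q0 T.ze ^ 2))
    (h' : 2 * a ^ 2 = l ^ 4 * (2 * T.d2 (p0 T.ze) * T.d3 (p0 T.ze) * (p0 T.ze ^ 2 + q0 T.ze ^ 2))
      + 2 * l ^ 2 * p0 T.ze ^ 2) : KX T where
  toPX := F.px l li hl (F.const_l (IsUnit.of_mul_eq_one _ hl) h) sl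
  a := a
  ai := ai
  M := hf A * l ^ 3
  hal := rfl
  hn := F.px_n2 _ _ _
  hep := by
    have h1 := F.px_P hl (F.const_l (IsUnit.of_mul_eq_one _ hl) h) sl
    have h2 := F.px_Q hl (F.const_l (IsUnit.of_mul_eq_one _ hl) h) sl
    apply (((IsUnit.of_mul_eq_one _ hl).pow 2).mul F.uS0).mul_left_cancel
    linear_combination h2 - h1 + l ^ 2 * h
  hk := by
    have h1 := F.px_P hl (F.const_l (IsUnit.of_mul_eq_one _ hl) h) sl
    have h2 := F.px_Q hl (F.const_l (IsUnit.of_mul_eq_one _ hl) h) sl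
    apply F.uS0.mul_left_cancel
    linear_combination q0 T.ze ^ 2 * h1 + p0 T.ze ^ 2 * h2 + l ^ 2 * p0 T.ze ^ 2 * h
      - (p0 T.ze ^ 2 + q0 T.ze ^ 2) * h'
  hm := by
    rw [F.px_m2]; linear_combination -(2 * l ^ 3) * hhf (A := A)
  hai := ha
  sa := sa

end Fre
end Vale.Agent.P354NP
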