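import Vale.Agent.P354NP.ToKC
import Vale.Agent.P354XG.An

set_option linter.unusedSimpArgs false

namespace Vale.Agent.P354NP

open Vale.Agent.P354XG

variable {A B : Type} [CommRing A] [StarRing A] [Algebra ℂ A] [CommRing B] [StarRing B]
  [Algebra ℂ B] {T : TD A} {T' : TD B} {φ : A →ₐ[ℂ] B}

omit [StarRing A] [StarRing B] in
theorem m_i (φ : A →ₐ[ℂ] B) : φ (iA A) = iA B := φ.commutes _
omit [StarRing A] [StarRing B] in
theorem m_hf (φ : A →ₐ[ℂ] B) : φ (hf A) = hf B := φ.commutes _

theorem m_d (h : TH T T' φ) : (∀ f, φ (T.d0 f) = T'.d0 (φ f)) ∧ (∀ f, φ (T.d1 f) = T'.d1 (φ f)) ∧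
    (∀ f, φ (T.d2 f) = T'.d2 (φ f)) ∧ (∀ f, φ (T.d3 f) = T'.d3 (φ f)) :=
  ⟨h.D 0, h.D 1, h.D 2, h.D 3⟩

theorem TD.Const.map {x : A} (hc : T.Const x) (h : TH T T' φ) : T'.Const (φ x) :=
  TD.Const.of_D fun a => by rw [← h.D, hc.D, map_zero]

namespace PX
variable (P : PX T) (h : TH T T' φ)

/-- The image of the PD structure. -/
def map : PX T' where
  c := φ P.c
  ci := φ P.ci
  al := φ P.al
  p := φ P.p
  q := φ P.q
  oi := φ P.oi
  oj := φ P.oj
  sv := φ P.sv
  si := by rw [← m_i φ, ← h.st, P.si, map_neg]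
  cci := by rw [← map_mul, P.cci, map_one]
  kc := P.kc.map h
  kal := P.kal.map h
  sal := by rw [← h.st, P.sal]
  sp := by rw [← h.st, P.sp]
  sq := by rw [← h.st, P.sq]
  hZ := by simpa only [map_mul, map_sub, map_one, m_i, h.ze] using congrArg φ P.hZ
  hoi := by simpa only [map_mul, map_sub, map_one] using congrArg φ P.hoi
  hoj := by simpa only [map_mul, map_add, map_one] using congrArg φ P.hoj
  hsv := by simpa only [map_mul, map_one, m_d h] using congrArg φ P.hsv
  x1 := by simpa only [map_zero, m_d h] using congrArg φ P.x1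
  x2 := by simpa only [map_zero, m_d h] using congrArg φ P.x2

theorem map_v : φ P.c = (P.map h).c ∧ φ P.ci = (P.map h).ci ∧ φ P.al = (P.map h).al ∧
    φ P.p = (P.map h).p ∧ φ P.q = (P.map h).q ∧ φ P.oi = (P.map h).oi ∧ φ P.oj = (P.map h).oj ∧
    φ P.sv = (P.map h).sv := ⟨rfl, rfl, rfl, rfl, rfl, rfl, rfl, rfl⟩

theorem map_u : φ P.u = (P.map h).u := by simp only [u, map_mul, P.map_v h, h.zi]
theorem map_ub : φ P.ub = (P.map h).ub := by simp only [ub, h.st, P.map_u h]
theorem map_m2 : φ P.m2 = (P.map h).m2 := by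
  simp only [m2, map_neg, map_add, map_pow, h.st, P.map_v h]
theorem map_n2 : φ P.n2 = (P.map h).n2 := by
  simp only [n2, map_neg, map_mul, map_sub, map_pow, m_i, h.st, P.map_v h]
theorem map_P1 : φ P.P1 = (P.map h).P1 := by
  simp only [P1, map_mul, map_sub, map_add, map_pow, map_ofNat, m_d h, P.map_v h, P.map_m2 h,
    P.map_n2 h]
theorem map_Q1 : φ P.Q1 = (P.map h).Q1 := by
  simp only [Q1, map_mul, map_neg, map_add, map_pow, map_ofNat, m_d h, P.map_v h, P.map_m2 h,
    P.map_n2 h]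
theorem map_k : φ P.k = (P.map h).k := by
  simp only [k, map_mul, map_add, map_pow, P.map_v h, P.map_P1 h, P.map_Q1 h, P.map_u h, P.map_ub h]
theorem map_ep : φ P.ep = (P.map h).ep := by
  simp only [ep, map_mul, map_sub, map_one, map_pow, P.map_v h, P.map_P1 h, P.map_Q1 h, P.map_u h,
    P.map_ub h]
theorem map_Pp : φ P.Pp = (P.map h).Pp := by
  simp only [Pp, map_mul, map_sub, map_add, map_pow, P.map_v h, P.map_k h, P.map_ep h, P.map_m2 h,
    P.map_n2 h]
theorem map_dP : φ P.dP = (P.map h).dP := by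
  simp only [dP, map_mul, map_sub, map_add, map_pow, map_ofNat, P.map_v h, P.map_k h, P.map_ep h,
    P.map_m2 h, P.map_n2 h]
theorem map_PA (x : A) : φ (P.PA x) = (P.map h).PA (φ x) := by
  simp only [PA, map_mul, map_sub, map_add, map_pow, P.map_v h, P.map_k h, P.map_ep h, P.map_m2 h,
    P.map_n2 h]
theorem map_dPA (x : A) : φ (P.dPA x) = (P.map h).dPA (φ x) := by
  simp only [dPA, map_mul, map_sub, map_add, map_pow, map_ofNat, P.map_v h, P.map_k h, P.map_ep h,
    P.map_m2 h, P.map_n2 h]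
theorem map_c2 : φ P.c2 = (P.map h).c2 := by
  simp only [c2, map_mul, map_neg, map_pow, P.map_v h, P.map_k h]
theorem map_P2 (x y : A) : φ (P.P2 x y) = (P.map h).P2 (φ x) (φ y) := by
  simp only [P2, c0, c1, map_mul, map_sub, map_add, map_neg, map_pow, P.map_v h, P.map_c2 h,
    P.map_ep h, P.map_m2 h]
theorem map_gN (x j : A) : φ (P.gN x j) = (P.map h).gN (φ x) (φ j) := by
  simp only [gN, map_mul, map_add, map_neg, map_pow, map_ofNat, m_hf, P.map_v h, P.map_c2 h,
    P.map_ep h, P.map_m2 h]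
theorem map_nu (a : Fin 6) : φ (P.nu a) = (P.map h).nu a := by
  fin_cases a <;> simp only [Fin.zero_eta, Fin.mk_one, Fin.reduceFinMk, nu_v, map_mul, map_sub,
    map_neg, map_one, map_zero, map_pow, m_i, m_d h, P.map_v h, P.map_u h, P.map_ub h, P.map_Pp h]
theorem map_be (a : Fin 6) : φ (P.be a) = (P.map h).be a := by
  fin_cases a <;> simp only [Fin.zero_eta, Fin.mk_one, Fin.reduceFinMk, be_v, map_mul, map_sub,
    map_add, map_neg, map_one, map_pow, m_i, m_hf, m_d h, P.map_v h, P.map_u h, P.map_ub h,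
    P.map_dP h]

theorem Pole.map {P : PX T} {x y : A} (g : P.Pole x y) (h : TH T T' φ) :
    (P.map h).Pole (φ x) (φ y) where
  kx := g.kx.map h
  ky := g.ky.map h
  hx := by rw [← P.map_PA, g.hx, map_zero]
  hy := by rw [← P.map_PA, g.hy, map_zero]
  u := by rw [← map_sub]; exact g.u.map φ

theorem map_map {C : Type} [CommRing C] [StarRing C] [Algebra ℂ C] {T'' : TD C} {ψ : B →ₐ[ℂ] C}
    {χ : A →ₐ[ℂ] C} (h' : TH T' T'' ψ) (h'' : TH T T'' χ) (e : ∀ f, ψ (φ f) = χ f) :
    (P.map h).map h' = P.map h'' := by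
  simp only [map, e]

/-- Rescaling of the coordinates when there is no acceleration. -/
def scale (ha : P.al = 0) (l li : A) (hl : l * li = 1) (kl : T.Const l) (sl : star l = l) :
    PX T where
  c := li * P.c
  ci := l * P.ci
  al := 0
  p := l * P.p
  q := l * P.q
  oi := 1
  oj := 1
  sv := li * P.sv
  si := P.si
  cci := by linear_combination (P.c * P.ci) * hl + P.cci
  kc := kl.mul P.kc
  kal := TD.Const.zero
  sal := star_zero A
  sp := by rw [star_mul', sl, P.sp]
  sq := by rw [star_mul', sl, P.sq]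
  hZ := by have := P.hZ; rw [ha] at this; linear_combination l * this
  hoi := by ring
  hoj := by ring
  hsv := by rw [dmul, kl.k1]; linear_combination (l * li) * P.hsv + hl
  x1 := by rw [dmul, kl.k1, P.x1]; ring
  x2 := by rw [dmul, kl.k2, P.x2]; ring

/-- The Kerr class from a PD structure without acceleration and NUT charge. -/
noncomputable def kx (ha : P.al = 0) (hn : P.n2 = 0) (l li a ai : A) (hl : l * li = 1)
    (kl : T.Const l) (sl : star l = l) (hai : a * ai = 1) (sa : star a = a)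
    (he : l ^ 2 * P.ep = 2) (hk : l ^ 4 * P.k = 2 * a ^ 2) : KX T :=
  have oi1 : P.oi = 1 := by have := P.hoi; rw [ha] at this; linear_combination this
  have m : (P.scale ha l li hl kl sl).m2 = l ^ 3 * P.m2 := by
    simp only [m2, scale, star_mul', sl]; ring
  have n : (P.scale ha l li hl kl sl).n2 = 0 := by
    have : (P.scale ha l li hl kl sl).n2 = l ^ 3 * P.n2 := by
      simp only [n2, scale, star_mul', sl]; ring
    rw [this, hn, mul_zero]
  have ke : (P.scale ha l li hl kl sl).k - 2 * a ^ 2 = 0 ∧ (P.scale ha l li hl kl sl).ep - 2 = 0 := by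
    have h1 := (P.scale ha l li hl kl sl).vP
    have h2 := (P.scale ha l li hl kl sl).vQ
    have g1 := P.vP
    have g2 := P.vQ
    rw [eP, n] at h1
    rw [eQ, n, m] at h2
    rw [eP, hn, ha, oi1] at g1
    rw [eQ, hn, ha, oi1] at g2
    apply (P.scale ha l li hl kl sl).KK
    · generalize (P.scale ha l li hl kl sl).k = k' at h1 ⊢
      generalize (P.scale ha l li hl kl sl).ep = e' at h1 ⊢
      simp only [scale, dmul, kl.k2, kl.k3] at h1 ⊢
      linear_combination h1 - l ^ 4 * g1 + hk - l ^ 2 * P.p ^ 2 * he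
    · generalize (P.scale ha l li hl kl sl).k = k' at h2 ⊢
      generalize (P.scale ha l li hl kl sl).ep = e' at h2 ⊢
      simp only [scale, dmul, kl.k0, kl.k1] at h2 ⊢
      linear_combination h2 - l ^ 4 * g2 + hk + l ^ 2 * P.q ^ 2 * he
  { toPX := P.scale ha l li hl kl sl
    a := a
    ai := ai
    M := hf A * hf A * (l ^ 3 * P.m2)
    hal := rfl
    hn := n
    hep := sub_eq_zero.mp ke.2
    hk := sub_eq_zero.mp ke.1
    hm := by
      rw [m]; linear_combination -(l ^ 3 * P.m2 * (2 * hf A + 1)) * hhf (A := A)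
    hai := hai
    sa := sa }

end PX

theorem KX.isK (X : KX T) (hr : ∀ x : ℝ, star (algebraMap ℂ A x) = algebraMap ℂ A x) :
    IsK T X.K where
  is := X.kc_is hr
  c _ := rfl
  th := Derivation.ext fun f => (X.kc_th f).symm
  tp := Derivation.ext fun f => (X.kc_tp f).symm
  et := Derivation.ext fun f => (X.kc_et f).symm
  ep := Derivation.ext fun f => (X.kc_ep f).symm
  H := rfl
  B := rfl
  rh := X.kc_rh.symm
  rh2 := X.kc_rh2.symm
  ta := X.kc_ta.symm
  ta2 := X.kc_ta2.symm
  P2 := X.kc_P2.symm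

end Vale.Agent.P354NP
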