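import Vale.Agent.P354NP.Clos

set_option linter.unusedSimpArgs false

namespace Vale.Agent.P354NP

variable {A : Type*} [CommRing A] [StarRing A] [Algebra ℂ A]

/-- One half. -/
noncomputable def hf (A : Type*) [CommRing A] [Algebra ℂ A] : A := algebraMap ℂ A (1 / 2)

omit [StarRing A] in
theorem hhf : 2 * hf A = 1 := by
  unfold hf
  rw [← map_ofNat (algebraMap ℂ A) 2, ← map_mul]
  norm_num

omit [StarRing A] in
theorem d_hf (D : Derivation ℂ A A) : D (hf A) = 0 := D.map_algebraMap _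

omit [Algebra ℂ A] in
theorem sinv {a b : A} (h : a * b = 1) (ha : star a = a) : star b = b := by
  have h1 := congrArg star h
  rw [star_mul', ha, star_one] at h1
  linear_combination b * h1 - star b * h

theorem shf : star (hf A) = hf A := sinv hhf (star_ofNat 2)

theorem TD.Const.star {T : TD A} {x : A} (h : T.Const x) : T.Const (star x) where
  k0 := by rw [T.d0s, h.k0, star_zero]
  k1 := by rw [T.d1s, h.k1, star_zero]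
  k2 := by rw [T.d2s, h.k3, star_zero]
  k3 := by rw [T.d3s, h.k2, star_zero]
  kH := by rw [T.Hs, h.kHb, star_zero]
  kHb := by rw [T.Hbs, h.kH, star_zero]

/-- Exact Plebanski-Demianski structure: the defects vanish. -/
structure PX (T : TD A) extends PD T where
  x1 : T.d1 p = 0
  x2 : T.d2 q = 0

namespace PX
open PD
variable {T : TD A} (P : PX T)

theorem x3 : T.d3 P.q = 0 := by rw [← P.sq, T.d3s, P.x2, star_zero]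
theorem x0 : T.d0 P.p = 0 := Kill.h0 (φ := RingHom.id A) ⟨P.x1, P.x2, P.x3⟩

/-- The inverse of `q - i p`. -/
def u : A := P.c * T.zi * P.oi
/-- The inverse of `q + i p`. -/
def ub : A := star P.u

theorem hu : (P.q - iA A * P.p) * P.u = 1 := by
  unfold u
  rw [← P.hZ]
  linear_combination (T.ze * T.zi * ((1 - P.al * P.p * P.q) * P.oi)) * P.cci
    + ((1 - P.al * P.p * P.q) * P.oi) * T.zezi + P.hoi

theorem hub : (P.q + iA A * P.p) * P.ub = 1 := by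
  have h := congrArg star P.hu
  simp only [star_mul', star_sub, P.si, P.sp, P.sq, star_one] at h
  unfold ub
  linear_combination h

theorem su : star P.u = P.ub := rfl
theorem sub : star P.ub = P.u := star_star _
theorem soi : star P.oi = P.oi :=
  sinv P.hoi (by simp only [star_sub, star_mul', star_one, P.sal, P.sp, P.sq])
theorem soj : star P.oj = P.oj :=
  sinv P.hoj (by simp only [star_add, star_mul', star_one, P.sal, P.sp, P.sq])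
theorem ssv : star P.sv = P.sv := sinv P.hsv (by rw [T.s1, P.sq])

theorem clr (a b c d : ℕ) {x y : A}
    (h : (P.q - iA A * P.p) ^ a * (P.q + iA A * P.p) ^ b * (1 - P.al * P.p * P.q) ^ c * 2 ^ d * x
      = (P.q - iA A * P.p) ^ a * (P.q + iA A * P.p) ^ b * (1 - P.al * P.p * P.q) ^ c * 2 ^ d * y) :
    x = y :=
  ((((P.uz.pow a).mul (P.uzb.pow b)).mul (P.uO.pow c)).mul (u2.pow d)).mul_left_cancel h

theorem du (D : Derivation ℂ A A) : D P.u = -(P.u * P.u * (D P.q - iA A * D P.p)) := by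
  rw [dinv D P.hu]; simp only [map_sub, dmul, d_iA]; ring
theorem dub (D : Derivation ℂ A A) : D P.ub = -(P.ub * P.ub * (D P.q + iA A * D P.p)) := by
  rw [dinv D P.hub]; simp only [map_add, dmul, d_iA]; ring
theorem doi (D : Derivation ℂ A A) (h : D P.al = 0) :
    D P.oi = P.oi * P.oi * P.al * (P.p * D P.q + P.q * D P.p) := by
  rw [dinv D P.hoi]; simp only [map_sub, dmul, h, D.map_one_eq_zero]; ring

theorem u_0 : T.d0 P.u = -T.d0 P.q * P.u ^ 2 := by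
  rw [P.du T.d0, P.x0]; ring
theorem u_1 : T.d1 P.u = -T.d1 P.q * P.u ^ 2 := by
  rw [P.du T.d1, P.x1]; ring
theorem u_2 : T.d2 P.u = iA A * T.d2 P.p * P.u ^ 2 := by
  rw [P.du T.d2, P.x2]; ring
theorem u_3 : T.d3 P.u = iA A * T.d3 P.p * P.u ^ 2 := by
  rw [P.du T.d3, P.x3]; ring
theorem ub_0 : T.d0 P.ub = -T.d0 P.q * P.ub ^ 2 := by
  rw [P.dub T.d0, P.x0]; ring
theorem ub_1 : T.d1 P.ub = -T.d1 P.q * P.ub ^ 2 := by
  rw [P.dub T.d1, P.x1]; ring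
theorem ub_2 : T.d2 P.ub = -iA A * T.d2 P.p * P.ub ^ 2 := by
  rw [P.dub T.d2, P.x2]; ring
theorem ub_3 : T.d3 P.ub = -iA A * T.d3 P.p * P.ub ^ 2 := by
  rw [P.dub T.d3, P.x3]; ring
theorem oi_0 : T.d0 P.oi = P.al * P.oi ^ 2 * P.p * T.d0 P.q := by
  rw [P.doi T.d0 P.kal.k0, P.x0]; ring
theorem oi_1 : T.d1 P.oi = P.al * P.oi ^ 2 * P.p * T.d1 P.q := by
  rw [P.doi T.d1 P.kal.k1, P.x1]; ring
theorem oi_2 : T.d2 P.oi = P.al * P.oi ^ 2 * T.d2 P.p * P.q := by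
  rw [P.doi T.d2 P.kal.k2, P.x2]; ring
theorem oi_3 : T.d3 P.oi = P.al * P.oi ^ 2 * T.d3 P.p * P.q := by
  rw [P.doi T.d3 P.kal.k3, P.x3]; ring

theorem vr : T.r = -(T.d0 P.q * (P.u + P.al * P.p * P.oi)) := by
  have h := P.E0
  rw [P.x0] at h
  linear_combination
    (P.oi * P.u) * h + (T.r * P.al * P.oi * P.p * P.q - T.r * P.oi - T.d0 P.q * P.al * P.oi * P.p)
    * P.hu + (-T.r - T.d0 P.q * P.u) * P.hoi

theorem vr2 : T.r2 = -(T.d1 P.q * (P.u + P.al * P.p * P.oi)) := by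
  have h := P.E1
  rw [P.x1] at h
  linear_combination
    (P.oi * P.u) * h + (T.r2 * P.al * P.oi * P.p * P.q - T.r2 * P.oi - T.d1 P.q * P.al * P.oi * P.p)
    * P.hu + (-T.r2 - T.d1 P.q * P.u) * P.hoi

theorem vt : T.t = -(T.d2 P.p * (P.al * P.q * P.oi - iA A * P.u)) := by
  have h := P.E2
  rw [P.x2] at h
  apply (u2.pow 1).mul_left_cancel
  linear_combination
    (2 * P.oi * P.u) * h + (2 * T.t * P.al * P.oi * P.p * P.q - 2 * T.t * P.oi - T.d2 P.p * P.al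
    * iA A * P.oi * P.p + T.d2 P.p * P.al * iA A ^ 2 * P.oi * P.p ^ 2 * P.ub - T.d2 P.p * P.al * iA A ^ 3
    * P.oi * P.p * P.q * P.ub - 2 * T.d2 P.p * P.al * P.oi * P.q) * P.hu + (T.d2 P.p * P.al * iA A
    * P.oi * P.p + 2 * T.d2 P.p * P.al * iA A * P.oi * P.p * P.q * P.u - T.d2 P.p * P.al * iA A ^ 2
    * P.oi * P.p ^ 2 * P.u + T.d2 P.p * P.al * iA A ^ 3 * P.oi * P.p * P.q * P.u - 2 * T.d2 P.p * P.al
    * P.oi * P.p ^ 2 * P.u - 2 * T.d2 P.p * iA A * P.oi * P.u + 2 * T.d2 P.p * iA A * P.u) * P.hub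
    + (-2 * T.t + 2 * T.d2 P.p * iA A * P.q * P.u * P.ub - 2 * T.d2 P.p * P.p * P.u * P.ub) * P.hoi
    + (T.d2 P.p * P.al * iA A * P.oi * P.p * P.q * P.u - T.d2 P.p * P.al * iA A * P.oi * P.p * P.q
    * P.ub + 2 * T.d2 P.p * P.al * iA A * P.oi * P.p ^ 3 * P.u * P.ub - 2 * T.d2 P.p * P.al * iA A ^ 2
    * P.oi * P.p ^ 2 * P.q * P.u * P.ub - 2 * T.d2 P.p * P.al * P.oi * P.p ^ 2 * P.u + 2 * T.d2 P.p
    * P.oi * P.p * P.u * P.ub - 2 * T.d2 P.p * P.p * P.u * P.ub) * iA_sq (A := A)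

theorem vt2 : T.t2 = -(T.d3 P.p * (P.al * P.q * P.oi - iA A * P.u)) := by
  have h := P.E3
  rw [P.x3] at h
  apply (u2.pow 1).mul_left_cancel
  linear_combination
    (2 * P.oi * P.u) * h + (2 * T.t2 * P.al * P.oi * P.p * P.q - 2 * T.t2 * P.oi - T.d3 P.p * P.al
    * iA A * P.oi * P.p + T.d3 P.p * P.al * iA A ^ 2 * P.oi * P.p ^ 2 * P.ub - T.d3 P.p * P.al * iA A ^ 3
    * P.oi * P.p * P.q * P.ub - 2 * T.d3 P.p * P.al * P.oi * P.q) * P.hu + (T.d3 P.p * P.al * iA A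
    * P.oi * P.p + 2 * T.d3 P.p * P.al * iA A * P.oi * P.p * P.q * P.u - T.d3 P.p * P.al * iA A ^ 2
    * P.oi * P.p ^ 2 * P.u + T.d3 P.p * P.al * iA A ^ 3 * P.oi * P.p * P.q * P.u - 2 * T.d3 P.p * P.al
    * P.oi * P.p ^ 2 * P.u - 2 * T.d3 P.p * iA A * P.oi * P.u + 2 * T.d3 P.p * iA A * P.u) * P.hub
    + (-2 * T.t2 + 2 * T.d3 P.p * iA A * P.q * P.u * P.ub - 2 * T.d3 P.p * P.p * P.u * P.ub) * P.hoi
    + (T.d3 P.p * P.al * iA A * P.oi * P.p * P.q * P.u - T.d3 P.p * P.al * iA A * P.oi * P.p * P.q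
    * P.ub + 2 * T.d3 P.p * P.al * iA A * P.oi * P.p ^ 3 * P.u * P.ub - 2 * T.d3 P.p * P.al * iA A ^ 2
    * P.oi * P.p ^ 2 * P.q * P.u * P.ub - 2 * T.d3 P.p * P.al * P.oi * P.p ^ 2 * P.u + 2 * T.d3 P.p
    * P.oi * P.p * P.u * P.ub - 2 * T.d3 P.p * P.p * P.u * P.ub) * iA_sq (A := A)

theorem vrb : star T.r = -(T.d0 P.q * (P.ub + P.al * P.p * P.oi)) := by
  have h := P.E0b
  rw [P.x0] at h
  linear_combination
    (P.oi * P.ub) * h + (star T.r * P.al * P.oi * P.p * P.q - star T.r * P.oi - T.d0 P.q * P.al * P.oi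
    * P.p) * P.hub + (-star T.r - T.d0 P.q * P.ub) * P.hoi

theorem vr2b : star T.r2 = -(T.d1 P.q * (P.ub + P.al * P.p * P.oi)) := by
  have h := P.E1b
  rw [P.x1] at h
  linear_combination
    (P.oi * P.ub) * h + (star T.r2 * P.al * P.oi * P.p * P.q - star T.r2 * P.oi - T.d1 P.q * P.al
    * P.oi * P.p) * P.hub + (-star T.r2 - T.d1 P.q * P.ub) * P.hoi

theorem vt2b : star T.t2 = -(T.d2 P.p * (P.al * P.q * P.oi + iA A * P.ub)) := by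
  have h := P.E2b
  rw [P.x2] at h
  apply (u2.pow 1).mul_left_cancel
  linear_combination
    (2 * P.oi * P.ub) * h + (-T.d2 P.p * P.al * iA A * P.oi * P.p + T.d2 P.p * P.al * iA A ^ 2 * P.oi
    * P.p ^ 2 * P.ub + T.d2 P.p * P.al * iA A ^ 3 * P.oi * P.p * P.q * P.ub + 2 * T.d2 P.p * iA A
    * P.oi * P.ub - 2 * T.d2 P.p * iA A * P.ub) * P.hu + (2 * star T.t2 * P.al * P.oi * P.p * P.q
    - 2 * star T.t2 * P.oi + T.d2 P.p * P.al * iA A * P.oi * P.p - 2 * T.d2 P.p * P.al * iA A * P.oi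
    * P.p * P.q * P.u - T.d2 P.p * P.al * iA A ^ 2 * P.oi * P.p ^ 2 * P.u - T.d2 P.p * P.al * iA A ^ 3
    * P.oi * P.p * P.q * P.u - 2 * T.d2 P.p * P.al * P.oi * P.p ^ 2 * P.u - 2 * T.d2 P.p * P.al * P.oi
    * P.q) * P.hub + (-2 * star T.t2 - 2 * T.d2 P.p * iA A * P.q * P.u * P.ub - 2 * T.d2 P.p * P.p
    * P.u * P.ub) * P.hoi + (-T.d2 P.p * P.al * iA A * P.oi * P.p * P.q * P.u + T.d2 P.p * P.al * iA A
    * P.oi * P.p * P.q * P.ub + 2 * T.d2 P.p * P.al * iA A * P.oi * P.p ^ 3 * P.u * P.ub + 2 * T.d2 P.p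
    * P.al * iA A ^ 2 * P.oi * P.p ^ 2 * P.q * P.u * P.ub - 2 * T.d2 P.p * P.al * P.oi * P.p ^ 2
    * P.u + 2 * T.d2 P.p * P.oi * P.p * P.u * P.ub - 2 * T.d2 P.p * P.p * P.u * P.ub) * iA_sq (A := A)

theorem vtb : star T.t = -(T.d3 P.p * (P.al * P.q * P.oi + iA A * P.ub)) := by
  have h := P.E3b
  rw [P.x3] at h
  apply (u2.pow 1).mul_left_cancel
  linear_combination
    (2 * P.oi * P.ub) * h + (-T.d3 P.p * P.al * iA A * P.oi * P.p + T.d3 P.p * P.al * iA A ^ 2 * P.oi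
    * P.p ^ 2 * P.ub + T.d3 P.p * P.al * iA A ^ 3 * P.oi * P.p * P.q * P.ub + 2 * T.d3 P.p * iA A
    * P.oi * P.ub - 2 * T.d3 P.p * iA A * P.ub) * P.hu + (2 * star T.t * P.al * P.oi * P.p * P.q
    - 2 * star T.t * P.oi + T.d3 P.p * P.al * iA A * P.oi * P.p - 2 * T.d3 P.p * P.al * iA A * P.oi
    * P.p * P.q * P.u - T.d3 P.p * P.al * iA A ^ 2 * P.oi * P.p ^ 2 * P.u - T.d3 P.p * P.al * iA A ^ 3
    * P.oi * P.p * P.q * P.u - 2 * T.d3 P.p * P.al * P.oi * P.p ^ 2 * P.u - 2 * T.d3 P.p * P.al * P.oi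
    * P.q) * P.hub + (-2 * star T.t - 2 * T.d3 P.p * iA A * P.q * P.u * P.ub - 2 * T.d3 P.p * P.p
    * P.u * P.ub) * P.hoi + (-T.d3 P.p * P.al * iA A * P.oi * P.p * P.q * P.u + T.d3 P.p * P.al * iA A
    * P.oi * P.p * P.q * P.ub + 2 * T.d3 P.p * P.al * iA A * P.oi * P.p ^ 3 * P.u * P.ub + 2 * T.d3 P.p
    * P.al * iA A ^ 2 * P.oi * P.p ^ 2 * P.q * P.u * P.ub - 2 * T.d3 P.p * P.al * P.oi * P.p ^ 2
    * P.u + 2 * T.d3 P.p * P.oi * P.p * P.u * P.ub - 2 * T.d3 P.p * P.p * P.u * P.ub) * iA_sq (A := A)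

theorem pb_2H : T.d2 (T.d3 P.p) = T.d3 (T.d2 P.p) := by
  have h := T.c23 P.p
  rw [P.x0, P.x1, P.Hp, P.Hbp] at h
  linear_combination h

theorem s_1G : T.d1 (T.d0 P.q) = T.d0 (T.d1 P.q) := by
  have h := T.c01 P.q
  rw [P.x2, P.x3, P.Hq, P.Hbq] at h
  linear_combination -h

/-- Twice the mass parameter. -/
def m2 : A := -(P.ci ^ 3 + star P.ci ^ 3)
/-- Twice the NUT parameter. -/
noncomputable def n2 : A := -(iA A * (P.ci ^ 3 - star P.ci ^ 3))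

theorem sm2 : star P.m2 = P.m2 := by
  simp only [m2, star_neg, star_add, star_pow, star_star]; ring
theorem sn2 : star P.n2 = P.n2 := by
  simp only [n2, star_neg, star_sub, star_mul', star_pow, star_star, P.si]; ring

theorem km2 : T.Const P.m2 := by
  have h := P.kc
  have hb := P.kc.star
  constructor <;> simp only [m2, map_neg, map_add, dcu, h.k0, h.k1, h.k2, h.k3, h.kH, h.kHb, hb.k0,
    hb.k1, hb.k2, hb.k3, hb.kH, hb.kHb] <;> ring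

theorem kn2 : T.Const P.n2 := by
  have h := P.kc
  have hb := P.kc.star
  constructor <;> simp only [n2, map_neg, map_sub, dmul, d_iA, dcu, h.k0, h.k1, h.k2, h.k3, h.kH,
    h.kHb, hb.k0, hb.k1, hb.k2, hb.k3, hb.kH, hb.kHb] <;> ring

theorem vzi : T.zi = P.ci * ((1 - P.al * P.p * P.q) * P.u) := by
  unfold u
  linear_combination -(T.zi * ((1 - P.al * P.p * P.q) * P.oi)) * P.cci - T.zi * P.hoi

theorem vps : 2 * T.zi ^ 3 = -(P.m2 - iA A * P.n2) * ((1 - P.al * P.p * P.q) * P.u) ^ 3 := by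
  rw [P.vzi]
  unfold m2 n2
  linear_combination ((P.ci ^ 3 - star P.ci ^ 3) * ((1 - P.al * P.p * P.q) * P.u) ^ 3) * iA_sq (A := A)

/-- `P(p)` without the `k, ε` terms. -/
noncomputable def P1 : A := 2 * T.d2 P.p * T.d3 P.p * (P.p ^ 2 + P.q ^ 2) * P.oi ^ 2 - P.n2 * P.p
  - P.al * P.m2 * P.p ^ 3
/-- `Q(q)` without the `k, ε` terms. -/
noncomputable def Q1 : A := -(2 * T.d0 P.q * T.d1 P.q * (P.p ^ 2 + P.q ^ 2) * P.oi ^ 2) + P.m2 * P.q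
  + P.al * P.n2 * P.q ^ 3
/-- The constant `k`. -/
noncomputable def k : A := (P.q ^ 2 * P.P1 + P.p ^ 2 * P.Q1) * (P.u * P.ub * P.oi * P.oj)
/-- The constant `ε`. -/
noncomputable def ep : A := ((1 - P.al ^ 2 * P.p ^ 4) * P.Q1 - (1 - P.al ^ 2 * P.q ^ 4) * P.P1)
  * (P.u * P.ub * P.oi * P.oj)

/-- The quartic `P(p)`. -/
noncomputable def Pp : A := P.k + P.n2 * P.p - P.ep * P.p ^ 2 + P.al * P.m2 * P.p ^ 3
  - P.al ^ 2 * P.k * P.p ^ 4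
/-- The quartic `Q(q)`. -/
noncomputable def Qx : A := P.k - P.m2 * P.q + P.ep * P.q ^ 2 - P.al * P.n2 * P.q ^ 3
  - P.al ^ 2 * P.k * P.q ^ 4
/-- `P'(p)`. -/
noncomputable def dP : A := P.n2 - 2 * P.ep * P.p + 3 * P.al * P.m2 * P.p ^ 2
  - 4 * P.al ^ 2 * P.k * P.p ^ 3
/-- `Q'(q)`. -/
noncomputable def dQ : A := -P.m2 + 2 * P.ep * P.q - 3 * P.al * P.n2 * P.q ^ 2
  - 4 * P.al ^ 2 * P.k * P.q ^ 3
/-- `P''(p)`. -/
noncomputable def ddP : A := -(2 * P.ep) + 6 * P.al * P.m2 * P.p - 12 * P.al ^ 2 * P.k * P.p ^ 2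

theorem eP : P.Pp = P.k + P.n2 * P.p - P.ep * P.p ^ 2 + P.al * P.m2 * P.p ^ 3
  - P.al ^ 2 * P.k * P.p ^ 4 := rfl
theorem eQ : P.Qx = P.k - P.m2 * P.q + P.ep * P.q ^ 2 - P.al * P.n2 * P.q ^ 3
  - P.al ^ 2 * P.k * P.q ^ 4 := rfl
theorem edP : P.dP = P.n2 - 2 * P.ep * P.p + 3 * P.al * P.m2 * P.p ^ 2
  - 4 * P.al ^ 2 * P.k * P.p ^ 3 := rfl
theorem edQ : P.dQ = -P.m2 + 2 * P.ep * P.q - 3 * P.al * P.n2 * P.q ^ 2
  - 4 * P.al ^ 2 * P.k * P.q ^ 3 := rfl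
theorem eddP : P.ddP = -(2 * P.ep) + 6 * P.al * P.m2 * P.p - 12 * P.al ^ 2 * P.k * P.p ^ 2 := rfl

theorem hS : (P.p ^ 2 + P.q ^ 2) * (P.u * P.ub) = 1 := by
  linear_combination (P.q + iA A * P.p) * P.ub * P.hu + P.hub + P.p ^ 2 * P.u * P.ub * iA_sq (A := A)

theorem hSS : (P.p ^ 2 + P.q ^ 2) * ((1 - P.al * P.p * P.q) * (1 + P.al * P.p * P.q))
    * (P.u * P.ub * P.oi * P.oj) = 1 := by
  linear_combination ((1 - P.al * P.p * P.q) * P.oi * ((1 + P.al * P.p * P.q) * P.oj)) * P.hS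
    + ((1 + P.al * P.p * P.q) * P.oj) * P.hoi + P.hoj

theorem vP : P.Pp = 2 * T.d2 P.p * T.d3 P.p * (P.p ^ 2 + P.q ^ 2) * P.oi ^ 2 := by
  have h : P.k * (1 - P.al ^ 2 * P.p ^ 4) - P.ep * P.p ^ 2 = P.P1 := by
    unfold k ep; linear_combination P.P1 * P.hSS
  unfold P1 at h
  unfold Pp
  linear_combination h

theorem vQ : P.Qx = -(2 * T.d0 P.q * T.d1 P.q * (P.p ^ 2 + P.q ^ 2) * P.oi ^ 2) := by
  have h : P.k * (1 - P.al ^ 2 * P.q ^ 4) + P.ep * P.q ^ 2 = P.Q1 := by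
    unfold k ep; linear_combination P.Q1 * P.hSS
  unfold Q1 at h
  unfold Qx
  linear_combination h

theorem vpp : 2 * T.d2 P.p * T.d3 P.p = (1 - P.al * P.p * P.q) ^ 2 * P.u * P.ub * P.Pp := by
  rw [P.vP]
  linear_combination -(2 * T.d2 P.p * T.d3 P.p * ((1 - P.al * P.p * P.q) * P.oi) ^ 2) * P.hS
    - 2 * T.d2 P.p * T.d3 P.p * ((1 - P.al * P.p * P.q) * P.oi + 1) * P.hoi

theorem vss : 2 * T.d0 P.q * T.d1 P.q = -((1 - P.al * P.p * P.q) ^ 2 * P.u * P.ub * P.Qx) := by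
  rw [P.vQ]
  linear_combination -(2 * T.d0 P.q * T.d1 P.q * ((1 - P.al * P.p * P.q) * P.oi) ^ 2) * P.hS
    - 2 * T.d0 P.q * T.d1 P.q * ((1 - P.al * P.p * P.q) * P.oi + 1) * P.hoi

theorem vs : 2 * T.d0 P.q = -((1 - P.al * P.p * P.q) ^ 2 * P.u * P.ub * P.Qx * P.sv) := by
  linear_combination P.sv * P.vss - 2 * T.d0 P.q * P.hsv

theorem sP1 : star P.P1 = P.P1 := by
  simp only [P1, star_sub, star_add, star_mul', star_pow, star_ofNat, T.s2, T.s3, P.sp, P.sq, P.sal,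
    P.soi, P.sm2, P.sn2]; ring
theorem sQ1 : star P.Q1 = P.Q1 := by
  simp only [Q1, star_neg, star_add, star_mul', star_pow, star_ofNat, T.s0, T.s1, P.sp, P.sq, P.sal,
    P.soi, P.sm2, P.sn2]
theorem sk : star P.k = P.k := by
  simp only [k, star_add, star_mul', star_pow, P.sp, P.sq, P.sP1, P.sQ1, P.su, P.sub, P.soi, P.soj]
  ring
theorem sep : star P.ep = P.ep := by
  simp only [ep, star_sub, star_one, star_mul', star_pow, P.sp, P.sq, P.sal, P.sP1, P.sQ1, P.su,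
    P.sub, P.soi, P.soj]
  ring
theorem sPp : star P.Pp = P.Pp := by
  simp only [Pp, star_sub, star_add, star_mul', star_pow, P.sp, P.sal, P.sk, P.sep, P.sm2, P.sn2]
theorem sdP : star P.dP = P.dP := by
  simp only [dP, star_sub, star_add, star_mul', star_pow, star_ofNat, P.sp, P.sal, P.sk, P.sep,
    P.sm2, P.sn2]
theorem sdQ : star P.dQ = P.dQ := by
  simp only [dQ, star_sub, star_add, star_neg, star_mul', star_pow, star_ofNat, P.sq, P.sal, P.sk,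
    P.sep, P.sm2, P.sn2]

theorem s_0 : T.d0 (T.d0 P.q) =
    -2 * P.al * P.oi * P.p * T.d0 P.q ^ 2 := by
  have h := congrArg T.d0 P.vr
  have hb := congrArg T.d0 P.vrb
  simp only [dmul, map_add, map_sub, map_neg, d_iA, P.kal.k0, P.u_0, P.ub_0, P.oi_0, P.x0, P.x1,
    P.x2, P.x3, T.d0s, T.r_0, star_mul', star_sub, star_star, star_ofNat] at h hb
  simp only [P.vrb, P.vr2b, P.vtb, P.vt2b] at h hb
  simp only [P.vr, P.vr2, P.vt, P.vt2] at h hb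
  apply (u2.pow 1).mul_left_cancel
  linear_combination
    (P.al * iA A * P.p ^ 2 * P.q - P.al * P.p * P.q ^ 2 - iA A * P.p + P.q) * h + (-P.al * iA A * P.p ^ 2
    * P.q - P.al * P.p * P.q ^ 2 + iA A * P.p + P.q) * hb + (-T.d0 (T.d0 P.q) + T.d0 (T.d0 P.q) * P.al
    * P.p * P.q - 2 * P.al * P.oi * P.p * T.d0 P.q ^ 2 + 2 * P.al ^ 2 * P.oi * P.p ^ 2 * P.q * T.d0 P.q ^ 2)
    * P.hu + (-T.d0 (T.d0 P.q) + T.d0 (T.d0 P.q) * P.al * P.p * P.q - 2 * P.al * P.oi * P.p * T.d0 P.q ^ 2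
    + 2 * P.al ^ 2 * P.oi * P.p ^ 2 * P.q * T.d0 P.q ^ 2) * P.hub + (-2 * T.d0 (T.d0 P.q) * P.al
    * P.p * P.q - 4 * P.al ^ 2 * P.oi * P.p ^ 2 * P.q * T.d0 P.q ^ 2) * P.hoi

theorem s_2 : T.d2 (T.d0 P.q) =
    -P.al * P.oi * T.d2 P.p * P.q * T.d0 P.q - iA A * T.d2 P.p * T.d0 P.q * P.ub := by
  have h := congrArg T.d2 P.vr
  have hb := congrArg T.d2 P.vrb
  simp only [dmul, map_add, map_sub, map_neg, d_iA, P.kal.k2, P.u_2, P.ub_2, P.oi_2, P.x0, P.x1,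
    P.x2, P.x3, T.d2s, T.r_2, T.r_3, T.b_eq, star_mul', star_sub, star_star, star_ofNat] at h hb
  simp only [P.vrb, P.vr2b, P.vtb, P.vt2b] at h hb
  simp only [P.vr, P.vr2, P.vt, P.vt2] at h hb
  apply (u2.pow 1).mul_left_cancel
  linear_combination
    (P.al * iA A * P.p ^ 2 * P.q - P.al * P.p * P.q ^ 2 - iA A * P.p + P.q) * h + (-P.al * iA A * P.p ^ 2
    * P.q - P.al * P.p * P.q ^ 2 + iA A * P.p + P.q) * hb + (-T.d2 (T.d0 P.q) + T.d2 (T.d0 P.q) * P.al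
    * P.p * P.q + P.al * iA A * P.oi * P.p * T.d2 P.p * T.d0 P.q + P.al * iA A * P.p * T.d2 P.p * P.q
    * T.d0 P.q * P.ub - P.al ^ 2 * iA A * P.oi * P.p ^ 2 * T.d2 P.p * P.q * T.d0 P.q - iA A * T.d2 P.p
    * T.d0 P.q * P.ub) * P.hu + (-T.d2 (T.d0 P.q) + T.d2 (T.d0 P.q) * P.al * P.p * P.q - P.al * iA A
    * P.oi * P.p * T.d2 P.p * T.d0 P.q + P.al * iA A * P.p * T.d2 P.p * P.q * T.d0 P.q * P.ub - 2
    * P.al * P.oi * T.d2 P.p * P.q * T.d0 P.q + 2 * P.al * T.d2 P.p * P.q * T.d0 P.q + P.al ^ 2 * iA A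
    * P.oi * P.p ^ 2 * T.d2 P.p * P.q * T.d0 P.q + 2 * P.al ^ 2 * P.oi * P.p * T.d2 P.p * P.q ^ 2
    * T.d0 P.q - iA A * T.d2 P.p * T.d0 P.q * P.ub) * P.hub + (-2 * T.d2 (T.d0 P.q) * P.al * P.p
    * P.q - 2 * P.al * T.d2 P.p * P.q * T.d0 P.q + 2 * P.al * T.d2 P.p * P.q ^ 2 * T.d0 P.q * P.ub
    - 2 * P.al ^ 2 * P.oi * P.p * T.d2 P.p * P.q ^ 2 * T.d0 P.q) * P.hoi

theorem s2_1 : T.d1 (T.d1 P.q) =
    -2 * P.al * P.oi * P.p * T.d1 P.q ^ 2 := by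
  have h := congrArg T.d1 P.vr2
  have hb := congrArg T.d1 P.vr2b
  simp only [dmul, map_add, map_sub, map_neg, d_iA, P.kal.k1, P.u_1, P.ub_1, P.oi_1, P.x0, P.x1,
    P.x2, P.x3, T.d1s, T.r2_1, star_mul', star_sub, star_star, star_ofNat] at h hb
  simp only [P.vrb, P.vr2b, P.vtb, P.vt2b] at h hb
  simp only [P.vr, P.vr2, P.vt, P.vt2] at h hb
  apply (u2.pow 1).mul_left_cancel
  linear_combination
    (P.al * iA A * P.p ^ 2 * P.q - P.al * P.p * P.q ^ 2 - iA A * P.p + P.q) * h + (-P.al * iA A * P.p ^ 2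
    * P.q - P.al * P.p * P.q ^ 2 + iA A * P.p + P.q) * hb + (-T.d1 (T.d1 P.q) + T.d1 (T.d1 P.q) * P.al
    * P.p * P.q - 2 * P.al * P.oi * P.p * T.d1 P.q ^ 2 + 2 * P.al ^ 2 * P.oi * P.p ^ 2 * P.q * T.d1 P.q ^ 2)
    * P.hu + (-T.d1 (T.d1 P.q) + T.d1 (T.d1 P.q) * P.al * P.p * P.q - 2 * P.al * P.oi * P.p * T.d1 P.q ^ 2
    + 2 * P.al ^ 2 * P.oi * P.p ^ 2 * P.q * T.d1 P.q ^ 2) * P.hub + (-2 * T.d1 (T.d1 P.q) * P.al
    * P.p * P.q - 4 * P.al ^ 2 * P.oi * P.p ^ 2 * P.q * T.d1 P.q ^ 2) * P.hoi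

theorem s2_2 : T.d2 (T.d1 P.q) =
    -P.al * P.oi * T.d2 P.p * P.q * T.d1 P.q + iA A * T.d2 P.p * T.d1 P.q * P.u := by
  have h := congrArg T.d2 P.vr2
  have hb := congrArg T.d2 P.vr2b
  simp only [dmul, map_add, map_sub, map_neg, d_iA, P.kal.k2, P.u_2, P.ub_2, P.oi_2, P.x0, P.x1,
    P.x2, P.x3, T.d2s, T.r2_2, T.r2_3, T.e_eq, star_mul', star_sub, star_star, star_ofNat] at h hb
  simp only [P.vrb, P.vr2b, P.vtb, P.vt2b] at h hb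
  simp only [P.vr, P.vr2, P.vt, P.vt2] at h hb
  apply (u2.pow 1).mul_left_cancel
  linear_combination
    (P.al * iA A * P.p ^ 2 * P.q - P.al * P.p * P.q ^ 2 - iA A * P.p + P.q) * h + (-P.al * iA A * P.p ^ 2
    * P.q - P.al * P.p * P.q ^ 2 + iA A * P.p + P.q) * hb + (-T.d2 (T.d1 P.q) + T.d2 (T.d1 P.q) * P.al
    * P.p * P.q + P.al * iA A * P.oi * P.p * T.d2 P.p * T.d1 P.q - P.al * iA A * P.p * T.d2 P.p * P.q
    * T.d1 P.q * P.u + 2 * P.al * iA A * P.p * T.d2 P.p * P.q * T.d1 P.q * P.ub - 2 * P.al * P.oi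
    * T.d2 P.p * P.q * T.d1 P.q + 2 * P.al * T.d2 P.p * P.q ^ 2 * T.d1 P.q * P.ub - P.al ^ 2 * iA A
    * P.oi * P.p ^ 2 * T.d2 P.p * P.q * T.d1 P.q + 2 * P.al ^ 2 * P.oi * P.p * T.d2 P.p * P.q ^ 2
    * T.d1 P.q + iA A * T.d2 P.p * T.d1 P.q * P.u) * P.hu + (-T.d2 (T.d1 P.q) + T.d2 (T.d1 P.q) * P.al
    * P.p * P.q - P.al * iA A * P.oi * P.p * T.d2 P.p * T.d1 P.q + P.al * iA A * P.p * T.d2 P.p * P.q
    * T.d1 P.q * P.u + 2 * P.al * T.d2 P.p * P.q * T.d1 P.q - 2 * P.al * T.d2 P.p * P.q ^ 2 * T.d1 P.q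
    * P.u + P.al ^ 2 * iA A * P.oi * P.p ^ 2 * T.d2 P.p * P.q * T.d1 P.q + iA A * T.d2 P.p * T.d1 P.q
    * P.u) * P.hub + (-2 * T.d2 (T.d1 P.q) * P.al * P.p * P.q - 2 * P.al * T.d2 P.p * P.q * T.d1 P.q
    + 2 * P.al * T.d2 P.p * P.q ^ 2 * T.d1 P.q * P.u - 2 * P.al ^ 2 * P.oi * P.p * T.d2 P.p * P.q ^ 2
    * T.d1 P.q) * P.hoi

theorem pi_0 : T.d0 (T.d2 P.p) =
    -P.al * P.oi * P.p * T.d2 P.p * T.d0 P.q - T.d2 P.p * T.d0 P.q * P.ub := by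
  have h := congrArg T.d0 P.vt
  have hb := congrArg T.d0 P.vt2b
  simp only [dmul, map_add, map_sub, map_neg, d_iA, P.kal.k0, P.u_0, P.ub_0, P.oi_0, P.x0, P.x1,
    P.x2, P.x3, T.d0s, T.t_0, T.t2_0, T.b_eq, star_mul', star_sub, star_star, star_ofNat] at h hb
  simp only [P.vrb, P.vr2b, P.vtb, P.vt2b] at h hb
  simp only [P.vr, P.vr2, P.vt, P.vt2] at h hb
  apply (u2.pow 1).mul_left_cancel
  linear_combination
    (-P.al * iA A * P.p * P.q ^ 2 + P.al * iA A ^ 2 * P.p ^ 2 * P.q + iA A * P.q - iA A ^ 2 * P.p)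
    * h + (P.al * iA A * P.p * P.q ^ 2 + P.al * iA A ^ 2 * P.p ^ 2 * P.q - iA A * P.q - iA A ^ 2
    * P.p) * hb + (-T.d0 (T.d2 P.p) * P.al * iA A ^ 2 * P.p * P.q + T.d0 (T.d2 P.p) * iA A ^ 2 - P.al
    * iA A * P.oi * T.d2 P.p * P.q * T.d0 P.q - P.al * iA A ^ 2 * P.p * T.d2 P.p * P.q * T.d0 P.q
    * P.ub + P.al ^ 2 * iA A * P.oi * P.p * T.d2 P.p * P.q ^ 2 * T.d0 P.q + iA A ^ 2 * T.d2 P.p * T.d0 P.q
    * P.ub) * P.hu + (-T.d0 (T.d2 P.p) * P.al * iA A ^ 2 * P.p * P.q + T.d0 (T.d2 P.p) * iA A ^ 2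
    + P.al * iA A * P.oi * T.d2 P.p * P.q * T.d0 P.q - P.al * iA A ^ 2 * P.p * T.d2 P.p * P.q * T.d0 P.q
    * P.ub - P.al ^ 2 * iA A * P.oi * P.p * T.d2 P.p * P.q ^ 2 * T.d0 P.q + iA A ^ 2 * T.d2 P.p * T.d0 P.q
    * P.ub) * P.hub + (2 * T.d0 (T.d2 P.p) * P.al * iA A ^ 2 * P.p * P.q - 2 * P.al * P.p * T.d2 P.p
    * P.q * T.d0 P.q * P.ub + 2 * P.al ^ 2 * iA A ^ 2 * P.oi * P.p ^ 2 * T.d2 P.p * P.q * T.d0 P.q)
    * P.hoi + (2 * T.d0 (T.d2 P.p) + 2 * P.al * P.oi * P.p * T.d2 P.p * P.q * T.d0 P.q * P.ub + 2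
    * P.al * P.oi * P.p * T.d2 P.p * T.d0 P.q - 2 * P.al * P.p * T.d2 P.p * P.q * T.d0 P.q * P.ub
    - 2 * P.al ^ 2 * P.oi * P.p ^ 2 * T.d2 P.p * P.q ^ 2 * T.d0 P.q * P.ub + 2 * T.d2 P.p * T.d0 P.q
    * P.ub) * iA_sq (A := A)

theorem pi_1 : T.d1 (T.d2 P.p) =
    -P.al * P.oi * P.p * T.d2 P.p * T.d1 P.q - T.d2 P.p * T.d1 P.q * P.u := by
  have h := congrArg T.d1 P.vt
  have hb := congrArg T.d1 P.vt2b
  simp only [dmul, map_add, map_sub, map_neg, d_iA, P.kal.k1, P.u_1, P.ub_1, P.oi_1, P.x0, P.x1,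
    P.x2, P.x3, T.d1s, T.t_1, T.t2_1, T.e_eq, star_mul', star_sub, star_star, star_ofNat] at h hb
  simp only [P.vrb, P.vr2b, P.vtb, P.vt2b] at h hb
  simp only [P.vr, P.vr2, P.vt, P.vt2] at h hb
  apply (u2.pow 1).mul_left_cancel
  linear_combination
    (-P.al * iA A * P.p * P.q ^ 2 + P.al * iA A ^ 2 * P.p ^ 2 * P.q + iA A * P.q - iA A ^ 2 * P.p)
    * h + (P.al * iA A * P.p * P.q ^ 2 + P.al * iA A ^ 2 * P.p ^ 2 * P.q - iA A * P.q - iA A ^ 2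
    * P.p) * hb + (-T.d1 (T.d2 P.p) * P.al * iA A ^ 2 * P.p * P.q + T.d1 (T.d2 P.p) * iA A ^ 2 - P.al
    * iA A * P.oi * T.d2 P.p * P.q * T.d1 P.q + P.al * iA A * P.p ^ 2 * T.d2 P.p * T.d1 P.q * P.ub
    - 2 * P.al * iA A * T.d2 P.p * P.q * T.d1 P.q + 2 * P.al * iA A * T.d2 P.p * P.q ^ 2 * T.d1 P.q
    * P.ub - P.al * iA A ^ 2 * P.p * T.d2 P.p * P.q * T.d1 P.q * P.u + P.al * iA A ^ 2 * P.p * T.d2 P.p
    * P.q * T.d1 P.q * P.ub - P.al * P.p * T.d2 P.p * T.d1 P.q + P.al ^ 2 * iA A * P.oi * P.p * T.d2 P.p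
    * P.q ^ 2 * T.d1 P.q + iA A ^ 2 * T.d2 P.p * T.d1 P.q * P.u) * P.hu + (-T.d1 (T.d2 P.p) * P.al
    * iA A ^ 2 * P.p * P.q + T.d1 (T.d2 P.p) * iA A ^ 2 + P.al * iA A * P.oi * T.d2 P.p * P.q * T.d1 P.q
    + P.al * iA A * P.p ^ 2 * T.d2 P.p * T.d1 P.q * P.u + 2 * P.al * iA A * T.d2 P.p * P.q * T.d1 P.q
    - 2 * P.al * iA A * T.d2 P.p * P.q ^ 2 * T.d1 P.q * P.u - 2 * P.al * P.p * T.d2 P.p * P.q * T.d1 P.q
    * P.u + P.al * P.p * T.d2 P.p * T.d1 P.q - P.al ^ 2 * iA A * P.oi * P.p * T.d2 P.p * P.q ^ 2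
    * T.d1 P.q - iA A ^ 2 * T.d2 P.p * T.d1 P.q * P.u - 2 * T.d2 P.p * T.d1 P.q * P.u) * P.hub + (2
    * T.d1 (T.d2 P.p) * P.al * iA A ^ 2 * P.p * P.q - 2 * P.al * P.p * T.d2 P.p * P.q * T.d1 P.q
    * P.u + 2 * P.al ^ 2 * iA A ^ 2 * P.oi * P.p ^ 2 * T.d2 P.p * P.q * T.d1 P.q) * P.hoi + (2 * T.d1 (T.d2 P.p)
    + 2 * P.al * P.oi * P.p * T.d2 P.p * P.q * T.d1 P.q * P.u + 2 * P.al * P.oi * P.p * T.d2 P.p
    * T.d1 P.q - 3 * P.al * P.p * T.d2 P.p * P.q * T.d1 P.q * P.u - P.al * P.p * T.d2 P.p * P.q * T.d1 P.q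
    * P.ub + 2 * P.al * P.p * T.d2 P.p * P.q ^ 2 * T.d1 P.q * P.u * P.ub - 2 * P.al ^ 2 * P.oi * P.p ^ 2
    * T.d2 P.p * P.q ^ 2 * T.d1 P.q * P.u + 2 * iA A * P.p * T.d2 P.p * T.d1 P.q * P.u * P.ub + 2
    * T.d2 P.p * P.q * T.d1 P.q * P.u * P.ub) * iA_sq (A := A)

theorem pi_2 : T.d2 (T.d2 P.p) =
    -2 * P.al * P.oi * T.d2 P.p ^ 2 * P.q := by
  have h := congrArg T.d2 P.vt
  have hb := congrArg T.d2 P.vt2b
  simp only [dmul, map_add, map_sub, map_neg, d_iA, P.kal.k2, P.u_2, P.ub_2, P.oi_2, P.x0, P.x1,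
    P.x2, P.x3, T.d2s, T.t_2, T.t2_3, star_mul', star_sub, star_star, star_ofNat] at h hb
  simp only [P.vrb, P.vr2b, P.vtb, P.vt2b] at h hb
  simp only [P.vr, P.vr2, P.vt, P.vt2] at h hb
  apply (u2.pow 1).mul_left_cancel
  linear_combination
    (-P.al * iA A * P.p * P.q ^ 2 + P.al * iA A ^ 2 * P.p ^ 2 * P.q + iA A * P.q - iA A ^ 2 * P.p)
    * h + (P.al * iA A * P.p * P.q ^ 2 + P.al * iA A ^ 2 * P.p ^ 2 * P.q - iA A * P.q - iA A ^ 2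
    * P.p) * hb + (-T.d2 (T.d2 P.p) * P.al * iA A ^ 2 * P.p * P.q + T.d2 (T.d2 P.p) * iA A ^ 2 + 2
    * P.al * iA A ^ 2 * P.oi * T.d2 P.p ^ 2 * P.q - 2 * P.al ^ 2 * iA A ^ 2 * P.oi * P.p * T.d2 P.p ^ 2
    * P.q ^ 2) * P.hu + (-T.d2 (T.d2 P.p) * P.al * iA A ^ 2 * P.p * P.q + T.d2 (T.d2 P.p) * iA A ^ 2
    + 2 * P.al * iA A ^ 2 * P.oi * T.d2 P.p ^ 2 * P.q - 2 * P.al ^ 2 * iA A ^ 2 * P.oi * P.p * T.d2 P.p ^ 2
    * P.q ^ 2) * P.hub + (2 * T.d2 (T.d2 P.p) * P.al * iA A ^ 2 * P.p * P.q + 4 * P.al ^ 2 * iA A ^ 2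
    * P.oi * P.p * T.d2 P.p ^ 2 * P.q ^ 2) * P.hoi + (2 * T.d2 (T.d2 P.p) + 4 * P.al * P.oi * T.d2 P.p ^ 2
    * P.q) * iA_sq (A := A)

theorem s_3 : T.d3 (T.d0 P.q) =
    -P.al * P.oi * T.d3 P.p * P.q * T.d0 P.q + iA A * T.d3 P.p * T.d0 P.q * P.u := by
  have h := congrArg star P.s_2
  simp only [star_mul', star_sub, star_add, star_neg, star_pow, star_ofNat, T.s0, T.s1, T.s2, T.s3,
    P.si, P.sp, P.sq, P.sal, P.su, P.sub, P.soi] at h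
  linear_combination h

theorem s2_3 : T.d3 (T.d1 P.q) =
    -P.al * P.oi * T.d3 P.p * P.q * T.d1 P.q - iA A * T.d3 P.p * T.d1 P.q * P.ub := by
  have h := congrArg star P.s2_2
  simp only [star_mul', star_sub, star_add, star_neg, star_pow, star_ofNat, T.s0, T.s1, T.s2, T.s3,
    P.si, P.sp, P.sq, P.sal, P.su, P.sub, P.soi] at h
  linear_combination h

theorem pb_0 : T.d0 (T.d3 P.p) =
    -P.al * P.oi * P.p * T.d3 P.p * T.d0 P.q - T.d3 P.p * T.d0 P.q * P.u := by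
  have h := congrArg star P.pi_0
  simp only [star_mul', star_sub, star_add, star_neg, star_pow, star_ofNat, T.s0, T.s1, T.s2, T.s3,
    P.si, P.sp, P.sq, P.sal, P.su, P.sub, P.soi] at h
  linear_combination h

theorem pb_1 : T.d1 (T.d3 P.p) =
    -P.al * P.oi * P.p * T.d3 P.p * T.d1 P.q - T.d3 P.p * T.d1 P.q * P.ub := by
  have h := congrArg star P.pi_1
  simp only [star_mul', star_sub, star_add, star_neg, star_pow, star_ofNat, T.s0, T.s1, T.s2, T.s3,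
    P.si, P.sp, P.sq, P.sal, P.su, P.sub, P.soi] at h
  linear_combination h

theorem pb_3 : T.d3 (T.d3 P.p) =
    -2 * P.al * P.oi * T.d3 P.p ^ 2 * P.q := by
  have h := congrArg star P.pi_2
  simp only [star_mul', star_sub, star_add, star_neg, star_pow, star_ofNat, T.s0, T.s1, T.s2, T.s3,
    P.si, P.sp, P.sq, P.sal, P.su, P.sub, P.soi] at h
  linear_combination h

/-- The value of `þ þ' q`. -/
noncomputable def Gs : A :=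
    -P.dQ * (1 - P.al * P.p * P.q) ^ 2 * hf A * P.u * P.ub - 2 * P.q * T.d0 P.q * T.d1 P.q * P.u
    * P.ub

/-- The value of `ð' ð p`. -/
noncomputable def Hs : A :=
    P.dP * (1 - P.al * P.p * P.q) ^ 2 * hf A * P.u * P.ub - 2 * P.p * T.d3 P.p * T.d2 P.p * P.u * P.ub

theorem Es : -P.Gs * (P.u + P.al * P.p * P.oi) + P.Hs * (P.al * P.q * P.oi - iA A * P.u) =
    P.al * iA A * P.oi * T.d3 P.p * T.d2 P.p * P.q * P.u - P.al * iA A * P.oi * T.d3 P.p * T.d2 P.p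
    * P.q * P.ub + P.al * P.oi * P.p * T.d0 P.q * T.d1 P.q * P.u + P.al * P.oi * P.p * T.d0 P.q * T.d1 P.q
    * P.ub + 2 * P.al ^ 2 * P.oi ^ 2 * P.p ^ 2 * T.d0 P.q * T.d1 P.q - 2 * P.al ^ 2 * P.oi ^ 2 * T.d3 P.p
    * T.d2 P.p * P.q ^ 2 + iA A ^ 2 * T.d3 P.p * T.d2 P.p * P.u * P.ub - T.d3 P.p * T.d2 P.p * P.u ^ 2
    + T.d0 P.q * T.d1 P.q * P.u * P.ub - T.d0 P.q * T.d1 P.q * P.u ^ 2 - T.zi ^ 3 := by
  unfold Gs Hs
  apply P.clr 3 2 0 1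
  linear_combination (norm := (simp only [P.eQ, P.eP, P.edQ, P.edP]; ring1))
    (P.q - iA A * P.p) ^ 3 * (P.q + iA A * P.p) ^ 2 * ((1) * P.vps + (2 * P.al * P.oi * P.p * P.q
    * T.d1 P.q * P.u * P.ub - P.al * P.oi * P.p * T.d1 P.q * P.u - P.al * P.oi * P.p * T.d1 P.q * P.ub
    - 2 * P.al ^ 2 * P.oi ^ 2 * P.p ^ 2 * T.d1 P.q + 2 * P.q * T.d1 P.q * P.u ^ 2 * P.ub - T.d1 P.q
    * P.u * P.ub + T.d1 P.q * P.u ^ 2) * P.vs + (-P.al * iA A * P.oi * P.q * P.u + P.al * iA A * P.oi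
    * P.q * P.ub - 2 * P.al * P.oi * P.p * P.q * P.u * P.ub + 2 * P.al ^ 2 * P.oi ^ 2 * P.q ^ 2 + 2
    * iA A * P.p * P.u ^ 2 * P.ub - iA A ^ 2 * P.u * P.ub + P.u ^ 2) * P.vpp + (-2 * (1 - P.al * P.p
    * P.q) ^ 2 * P.Qx * P.al * P.oi * P.p * P.q * P.u ^ 2 * P.ub ^ 2 + (1 - P.al * P.p * P.q) ^ 2
    * P.Qx * P.al * P.oi * P.p * P.u * P.ub ^ 2 + (1 - P.al * P.p * P.q) ^ 2 * P.Qx * P.al * P.oi
    * P.p * P.u ^ 2 * P.ub + 2 * (1 - P.al * P.p * P.q) ^ 2 * P.Qx * P.al ^ 2 * P.oi ^ 2 * P.p ^ 2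
    * P.u * P.ub - 2 * (1 - P.al * P.p * P.q) ^ 2 * P.Qx * P.q * P.u ^ 3 * P.ub ^ 2 + (1 - P.al * P.p
    * P.q) ^ 2 * P.Qx * P.u ^ 2 * P.ub ^ 2 - (1 - P.al * P.p * P.q) ^ 2 * P.Qx * P.u ^ 3 * P.ub)
    * P.hsv + (P.dP * (1 - P.al * P.p * P.q) ^ 2 * P.al * P.oi * P.q * P.u * P.ub - P.dP * (1 - P.al
    * P.p * P.q) ^ 2 * iA A * P.u ^ 2 * P.ub + P.dQ * (1 - P.al * P.p * P.q) ^ 2 * P.al * P.oi * P.p
    * P.u * P.ub + P.dQ * (1 - P.al * P.p * P.q) ^ 2 * P.u ^ 2 * P.ub) * hhf (A := A) + (P.dP * (1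
    - P.al * P.p * P.q) * P.al * P.q * P.u * P.ub + P.dQ * (1 - P.al * P.p * P.q) * P.al * P.p * P.u
    * P.ub + (1 - P.al * P.p * P.q) * P.Pp * P.al * iA A * P.q * P.u * P.ub ^ 2 - (1 - P.al * P.p
    * P.q) * P.Pp * P.al * iA A * P.q * P.u ^ 2 * P.ub - 2 * (1 - P.al * P.p * P.q) * P.Pp * P.al
    * P.p * P.q * P.u ^ 2 * P.ub ^ 2 + 2 * (1 - P.al * P.p * P.q) * P.Pp * P.al ^ 2 * P.oi * P.q ^ 2
    * P.u * P.ub - 2 * (1 - P.al * P.p * P.q) * P.Qx * P.al * P.p * P.q * P.u ^ 2 * P.ub ^ 2 + (1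
    - P.al * P.p * P.q) * P.Qx * P.al * P.p * P.u * P.ub ^ 2 + (1 - P.al * P.p * P.q) * P.Qx * P.al
    * P.p * P.u ^ 2 * P.ub + 2 * (1 - P.al * P.p * P.q) * P.Qx * P.al ^ 2 * P.oi * P.p ^ 2 * P.u
    * P.ub + 2 * P.Pp * P.al ^ 2 * P.q ^ 2 * P.u * P.ub + 2 * P.Qx * P.al ^ 2 * P.p ^ 2 * P.u * P.ub)
    * P.hoi) + (P.dP * (1 - P.al * P.p * P.q) * (P.q - iA A * P.p) ^ 2 * (P.q + iA A * P.p) ^ 2 * P.al
    * P.q * P.ub - P.dP * (1 - P.al * P.p * P.q) ^ 2 * (P.q - iA A * P.p) * (P.q + iA A * P.p) ^ 2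
    * iA A * P.ub - P.dP * (1 - P.al * P.p * P.q) ^ 2 * (P.q - iA A * P.p) ^ 2 * (P.q + iA A * P.p) ^ 2
    * iA A * P.u * P.ub + P.dQ * (1 - P.al * P.p * P.q) * (P.q - iA A * P.p) ^ 2 * (P.q + iA A * P.p) ^ 2
    * P.al * P.p * P.ub + P.dQ * (1 - P.al * P.p * P.q) ^ 2 * (P.q - iA A * P.p) * (P.q + iA A * P.p) ^ 2
    * P.ub + P.dQ * (1 - P.al * P.p * P.q) ^ 2 * (P.q - iA A * P.p) ^ 2 * (P.q + iA A * P.p) ^ 2
    * P.u * P.ub - (1 - P.al * P.p * P.q) * P.Pp * (P.q - iA A * P.p) * (P.q + iA A * P.p) ^ 2 * P.al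
    * iA A * P.q * P.ub - 2 * (1 - P.al * P.p * P.q) * P.Pp * (P.q - iA A * P.p) * (P.q + iA A * P.p) ^ 2
    * P.al * P.p * P.q * P.ub ^ 2 - (1 - P.al * P.p * P.q) * P.Pp * (P.q - iA A * P.p) ^ 2 * (P.q
    + iA A * P.p) ^ 2 * P.al * iA A * P.q * P.u * P.ub + (1 - P.al * P.p * P.q) * P.Pp * (P.q - iA A
    * P.p) ^ 2 * (P.q + iA A * P.p) ^ 2 * P.al * iA A * P.q * P.ub ^ 2 - 2 * (1 - P.al * P.p * P.q)
    * P.Pp * (P.q - iA A * P.p) ^ 2 * (P.q + iA A * P.p) ^ 2 * P.al * P.p * P.q * P.u * P.ub ^ 2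
    - 2 * (1 - P.al * P.p * P.q) * P.Qx * (P.q - iA A * P.p) * (P.q + iA A * P.p) ^ 2 * P.al * P.p
    * P.q * P.ub ^ 2 + (1 - P.al * P.p * P.q) * P.Qx * (P.q - iA A * P.p) * (P.q + iA A * P.p) ^ 2
    * P.al * P.p * P.ub - 2 * (1 - P.al * P.p * P.q) * P.Qx * (P.q - iA A * P.p) ^ 2 * (P.q + iA A
    * P.p) ^ 2 * P.al * P.p * P.q * P.u * P.ub ^ 2 + (1 - P.al * P.p * P.q) * P.Qx * (P.q - iA A
    * P.p) ^ 2 * (P.q + iA A * P.p) ^ 2 * P.al * P.p * P.u * P.ub + (1 - P.al * P.p * P.q) * P.Qx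
    * (P.q - iA A * P.p) ^ 2 * (P.q + iA A * P.p) ^ 2 * P.al * P.p * P.ub ^ 2 + 2 * (1 - P.al * P.p
    * P.q) ^ 2 * P.Pp * (P.q - iA A * P.p) * (P.q + iA A * P.p) ^ 2 * iA A * P.p * P.u * P.ub ^ 2
    - (1 - P.al * P.p * P.q) ^ 2 * P.Pp * (P.q - iA A * P.p) * (P.q + iA A * P.p) ^ 2 * iA A ^ 2
    * P.ub ^ 2 + (1 - P.al * P.p * P.q) ^ 2 * P.Pp * (P.q - iA A * P.p) * (P.q + iA A * P.p) ^ 2
    * P.u * P.ub + 2 * (1 - P.al * P.p * P.q) ^ 2 * P.Pp * (P.q - iA A * P.p) ^ 2 * (P.q + iA A * P.p) ^ 2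
    * iA A * P.p * P.u ^ 2 * P.ub ^ 2 - (1 - P.al * P.p * P.q) ^ 2 * P.Pp * (P.q - iA A * P.p) ^ 2
    * (P.q + iA A * P.p) ^ 2 * iA A ^ 2 * P.u * P.ub ^ 2 + (1 - P.al * P.p * P.q) ^ 2 * P.Pp * (P.q
    - iA A * P.p) ^ 2 * (P.q + iA A * P.p) ^ 2 * P.u ^ 2 * P.ub + 2 * (1 - P.al * P.p * P.q) ^ 2
    * P.Pp * (P.q + iA A * P.p) ^ 2 * iA A * P.p * P.ub ^ 2 + (1 - P.al * P.p * P.q) ^ 2 * P.Pp * (P.q
    + iA A * P.p) ^ 2 * P.ub - 2 * (1 - P.al * P.p * P.q) ^ 2 * P.Qx * (P.q - iA A * P.p) * (P.q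
    + iA A * P.p) ^ 2 * P.q * P.u * P.ub ^ 2 - (1 - P.al * P.p * P.q) ^ 2 * P.Qx * (P.q - iA A * P.p)
    * (P.q + iA A * P.p) ^ 2 * P.u * P.ub + (1 - P.al * P.p * P.q) ^ 2 * P.Qx * (P.q - iA A * P.p)
    * (P.q + iA A * P.p) ^ 2 * P.ub ^ 2 - 2 * (1 - P.al * P.p * P.q) ^ 2 * P.Qx * (P.q - iA A * P.p) ^ 2
    * (P.q + iA A * P.p) ^ 2 * P.q * P.u ^ 2 * P.ub ^ 2 + (1 - P.al * P.p * P.q) ^ 2 * P.Qx * (P.q
    - iA A * P.p) ^ 2 * (P.q + iA A * P.p) ^ 2 * P.u * P.ub ^ 2 - (1 - P.al * P.p * P.q) ^ 2 * P.Qx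
    * (P.q - iA A * P.p) ^ 2 * (P.q + iA A * P.p) ^ 2 * P.u ^ 2 * P.ub - 2 * (1 - P.al * P.p * P.q) ^ 2
    * P.Qx * (P.q + iA A * P.p) ^ 2 * P.q * P.ub ^ 2 - (1 - P.al * P.p * P.q) ^ 2 * P.Qx * (P.q + iA A
    * P.p) ^ 2 * P.ub + (1 - P.al * P.p * P.q) ^ 3 * (P.q - iA A * P.p) * (P.q + iA A * P.p) ^ 2
    * iA A * P.n2 * P.u - (1 - P.al * P.p * P.q) ^ 3 * (P.q - iA A * P.p) * (P.q + iA A * P.p) ^ 2
    * P.m2 * P.u + (1 - P.al * P.p * P.q) ^ 3 * (P.q - iA A * P.p) ^ 2 * (P.q + iA A * P.p) ^ 2 * iA A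
    * P.n2 * P.u ^ 2 - (1 - P.al * P.p * P.q) ^ 3 * (P.q - iA A * P.p) ^ 2 * (P.q + iA A * P.p) ^ 2
    * P.m2 * P.u ^ 2 + (1 - P.al * P.p * P.q) ^ 3 * (P.q + iA A * P.p) ^ 2 * iA A * P.n2 - (1 - P.al
    * P.p * P.q) ^ 3 * (P.q + iA A * P.p) ^ 2 * P.m2 + 2 * P.Pp * (P.q - iA A * P.p) ^ 2 * (P.q + iA A
    * P.p) ^ 2 * P.al ^ 2 * P.q ^ 2 * P.ub + 2 * P.Qx * (P.q - iA A * P.p) ^ 2 * (P.q + iA A * P.p) ^ 2
    * P.al ^ 2 * P.p ^ 2 * P.ub) * P.hu + (P.dP * (1 - P.al * P.p * P.q) * (P.q - iA A * P.p) ^ 2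
    * (P.q + iA A * P.p) * P.al * P.q - P.dP * (1 - P.al * P.p * P.q) ^ 2 * (P.q - iA A * P.p) * (P.q
    + iA A * P.p) * iA A + P.dQ * (1 - P.al * P.p * P.q) * (P.q - iA A * P.p) ^ 2 * (P.q + iA A * P.p)
    * P.al * P.p + P.dQ * (1 - P.al * P.p * P.q) ^ 2 * (P.q - iA A * P.p) * (P.q + iA A * P.p) - (1
    - P.al * P.p * P.q) * P.Pp * (P.q - iA A * P.p) * (P.q + iA A * P.p) * P.al * iA A * P.q - 2
    * (1 - P.al * P.p * P.q) * P.Pp * (P.q - iA A * P.p) * (P.q + iA A * P.p) * P.al * P.p * P.q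
    * P.ub - 2 * (1 - P.al * P.p * P.q) * P.Pp * (P.q - iA A * P.p) * P.al * P.p * P.q + (1 - P.al
    * P.p * P.q) * P.Pp * (P.q - iA A * P.p) ^ 2 * (P.q + iA A * P.p) * P.al * iA A * P.q * P.ub
    + (1 - P.al * P.p * P.q) * P.Pp * (P.q - iA A * P.p) ^ 2 * P.al * iA A * P.q + (1 - P.al * P.p
    * P.q) * P.Qx * (P.q - iA A * P.p) * (P.q + iA A * P.p) * P.al * P.p - 2 * (1 - P.al * P.p * P.q)
    * P.Qx * (P.q - iA A * P.p) * (P.q + iA A * P.p) * P.al * P.p * P.q * P.ub - 2 * (1 - P.al * P.p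
    * P.q) * P.Qx * (P.q - iA A * P.p) * P.al * P.p * P.q + (1 - P.al * P.p * P.q) * P.Qx * (P.q
    - iA A * P.p) ^ 2 * (P.q + iA A * P.p) * P.al * P.p * P.ub + (1 - P.al * P.p * P.q) * P.Qx * (P.q
    - iA A * P.p) ^ 2 * P.al * P.p - (1 - P.al * P.p * P.q) ^ 2 * P.Pp * (P.q - iA A * P.p) * (P.q
    + iA A * P.p) * iA A ^ 2 * P.ub - (1 - P.al * P.p * P.q) ^ 2 * P.Pp * (P.q - iA A * P.p) * iA A ^ 2
    + (1 - P.al * P.p * P.q) ^ 2 * P.Pp * (P.q + iA A * P.p) + 2 * (1 - P.al * P.p * P.q) ^ 2 * P.Pp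
    * (P.q + iA A * P.p) * iA A * P.p * P.ub + 2 * (1 - P.al * P.p * P.q) ^ 2 * P.Pp * iA A * P.p
    + (1 - P.al * P.p * P.q) ^ 2 * P.Qx * (P.q - iA A * P.p) + (1 - P.al * P.p * P.q) ^ 2 * P.Qx
    * (P.q - iA A * P.p) * (P.q + iA A * P.p) * P.ub - (1 - P.al * P.p * P.q) ^ 2 * P.Qx * (P.q + iA A
    * P.p) - 2 * (1 - P.al * P.p * P.q) ^ 2 * P.Qx * (P.q + iA A * P.p) * P.q * P.ub - 2 * (1 - P.al
    * P.p * P.q) ^ 2 * P.Qx * P.q + 2 * P.Pp * (P.q - iA A * P.p) ^ 2 * (P.q + iA A * P.p) * P.al ^ 2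
    * P.q ^ 2 + 2 * P.Qx * (P.q - iA A * P.p) ^ 2 * (P.q + iA A * P.p) * P.al ^ 2 * P.p ^ 2) * P.hub
    + (4 * P.al * P.ep * iA A * P.p ^ 4 * P.q + 4 * P.al * P.ep * P.p ^ 3 * P.q ^ 2 + 3 * P.al * iA A
    * P.m2 * P.p ^ 4 - 4 * P.al * iA A * P.n2 * P.p ^ 3 * P.q + P.al * P.m2 * P.p ^ 3 * P.q - 4 * P.al
    * P.n2 * P.p ^ 2 * P.q ^ 2 - P.al ^ 2 * P.ep * iA A * P.p ^ 5 * P.q ^ 2 - 3 * P.al ^ 2 * P.ep
    * P.p ^ 4 * P.q ^ 3 + P.al ^ 2 * iA A * P.k * P.p ^ 3 * P.q ^ 2 - 3 * P.al ^ 2 * iA A * P.k * P.p ^ 5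
    - 4 * P.al ^ 2 * iA A * P.m2 * P.p ^ 5 * P.q + P.al ^ 2 * iA A * P.n2 * P.p ^ 4 * P.q ^ 2 + 3
    * P.al ^ 2 * P.k * P.p ^ 2 * P.q ^ 3 - P.al ^ 2 * P.k * P.p ^ 4 * P.q - 4 * P.al ^ 2 * P.m2 * P.p ^ 4
    * P.q ^ 2 + 3 * P.al ^ 2 * P.n2 * P.p ^ 3 * P.q ^ 3 - 4 * P.al ^ 3 * iA A * P.k * P.p ^ 4 * P.q ^ 3
    + 4 * P.al ^ 3 * iA A * P.k * P.p ^ 6 * P.q + P.al ^ 3 * iA A * P.m2 * P.p ^ 6 * P.q ^ 2 - 4
    * P.al ^ 3 * P.k * P.p ^ 3 * P.q ^ 4 + 4 * P.al ^ 3 * P.k * P.p ^ 5 * P.q ^ 2 + 3 * P.al ^ 3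
    * P.m2 * P.p ^ 5 * P.q ^ 3 + 2 * P.al ^ 4 * iA A * P.k * P.p ^ 5 * P.q ^ 4 - P.al ^ 4 * iA A
    * P.k * P.p ^ 7 * P.q ^ 2 + 2 * P.al ^ 4 * P.k * P.p ^ 4 * P.q ^ 5 - 3 * P.al ^ 4 * P.k * P.p ^ 6
    * P.q ^ 3 - 3 * P.ep * iA A * P.p ^ 3 - P.ep * P.p ^ 2 * P.q + iA A * P.k * P.p + 3 * iA A * P.n2
    * P.p ^ 2 - P.k * P.q + P.n2 * P.p * P.q) * iA_sq (A := A)

theorem Et : -T.d0 (T.d1 P.q) * (P.u + P.al * P.p * P.oi) + T.d3 (T.d2 P.p) * (P.al * P.q * P.oi - iA A * P.u) =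
    P.al * iA A * P.oi * T.d3 P.p * T.d2 P.p * P.q * P.u - P.al * iA A * P.oi * T.d3 P.p * T.d2 P.p
    * P.q * P.ub + P.al * P.oi * P.p * T.d0 P.q * T.d1 P.q * P.u + P.al * P.oi * P.p * T.d0 P.q * T.d1 P.q
    * P.ub + 2 * P.al ^ 2 * P.oi ^ 2 * P.p ^ 2 * T.d0 P.q * T.d1 P.q - 2 * P.al ^ 2 * P.oi ^ 2 * T.d3 P.p
    * T.d2 P.p * P.q ^ 2 + iA A ^ 2 * T.d3 P.p * T.d2 P.p * P.u * P.ub - T.d3 P.p * T.d2 P.p * P.u ^ 2
    + T.d0 P.q * T.d1 P.q * P.u * P.ub - T.d0 P.q * T.d1 P.q * P.u ^ 2 - T.zi ^ 3 := by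
  have h1 := congrArg T.d0 P.vr2
  have h2 := congrArg T.d3 P.vt
  have hc := T.c_eq
  have e : T.d3 T.t = T.c := rfl
  simp only [dmul, map_add, map_sub, map_neg, d_iA, P.kal.k0, P.kal.k3, P.u_0,
    P.oi_0, P.u_3, P.oi_3, T.r2_0a, e, P.x0, P.x3] at h1 h2
  simp only [P.vr2b, P.vtb] at hc
  simp only [P.vr, P.vt] at hc
  linear_combination
    (-1) * h1 + (1) * h2 + (-1) * hc + (T.d3 P.p * T.d2 P.p * P.u ^ 2) * iA_sq (A := A)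

theorem sGs : star P.Gs = P.Gs := by
  simp only [Gs, star_sub, star_one, star_neg, star_mul', star_pow, star_ofNat, T.s0, T.s1, P.sp,
    P.sq, P.sal, P.sdQ, P.su, P.sub, shf]; ring
theorem sHs : star P.Hs = P.Hs := by
  simp only [Hs, star_sub, star_one, star_neg, star_mul', star_pow, star_ofNat, T.s2, T.s3, P.sp,
    P.sq, P.sal, P.sdP, P.su, P.sub, shf]; ring

theorem uD1 : IsUnit ((P.al * P.q * P.oi - iA A * P.u) * (P.ub + P.al * P.p * P.oi)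
    - (P.al * P.q * P.oi + iA A * P.ub) * (P.u + P.al * P.p * P.oi)) := by
  have h := P.uD.mul (IsUnit.of_mul_eq_one (a := P.u * P.ub * P.oi ^ 2)
    ((P.p ^ 2 + P.q ^ 2) * (1 - P.al * P.p * P.q) ^ 2)
    (by linear_combination ((1 - P.al * P.p * P.q) * P.oi) ^ 2 * P.hS
          + ((1 - P.al * P.p * P.q) * P.oi + 1) * P.hoi))
  have e : ((1 + iA A * P.al * P.p ^ 2) * (P.al * P.q ^ 2 - iA A)
      - (1 - iA A * P.al * P.p ^ 2) * (P.al * P.q ^ 2 + iA A)) * (P.u * P.ub * P.oi ^ 2)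
      = (P.al * P.q * P.oi - iA A * P.u) * (P.ub + P.al * P.p * P.oi)
      - (P.al * P.q * P.oi + iA A * P.ub) * (P.u + P.al * P.p * P.oi) := by
    linear_combination
      (P.al * iA A * P.oi * P.p * P.ub - P.al * iA A * P.oi ^ 2 * P.p * P.ub + P.al * iA A ^ 3 * P.oi
      * P.p * P.ub + P.al * iA A ^ 3 * P.oi ^ 2 * P.p * P.ub - P.al * P.oi + 2 * P.al * P.oi ^ 2 - 2
      * P.al ^ 2 * P.oi ^ 2 * P.p * P.q ^ 2 * P.ub) * P.hu + (-P.al * iA A * P.oi * P.p * P.u - 3 * P.al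
      * iA A * P.oi ^ 2 * P.p * P.u - P.al * iA A ^ 3 * P.oi * P.p * P.u - P.al * iA A ^ 3 * P.oi ^ 2
      * P.p * P.u + P.al * P.oi - 2 * P.al * P.oi * P.q * P.u - 2 * P.al * P.oi ^ 2 + 2 * P.al * P.oi ^ 2
      * P.q * P.u) * P.hub + (2 * P.al * P.oi * P.q * P.ub - 2 * P.al * P.oi * P.q ^ 2 * P.u * P.ub
      - 2 * iA A * P.oi * P.u * P.ub - 2 * iA A * P.u * P.ub) * P.hoi + (-P.al * iA A * P.oi * P.p
      * P.u + P.al * iA A * P.oi * P.p * P.ub - P.al * iA A * P.oi ^ 2 * P.p * P.u + P.al * iA A * P.oi ^ 2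
      * P.p * P.ub + 2 * P.al * iA A ^ 2 * P.oi * P.p ^ 2 * P.u * P.ub + 2 * P.al * iA A ^ 2 * P.oi ^ 2
      * P.p ^ 2 * P.u * P.ub) * iA_sq (A := A)
  rwa [e] at h

theorem GH : T.d0 (T.d1 P.q) = P.Gs ∧ T.d3 (T.d2 P.p) = P.Hs := by
  have h : -(T.d0 (T.d1 P.q) - P.Gs) * (P.u + P.al * P.p * P.oi)
      + (T.d3 (T.d2 P.p) - P.Hs) * (P.al * P.q * P.oi - iA A * P.u) = 0 := by
    linear_combination P.Et - P.Es
  have hb := congrArg star h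
  simp only [star_add, star_sub, star_neg, star_mul', star_zero, T.s0, T.s1, T.s2, T.s3, P.sp, P.sq,
    P.sal, P.si, P.su, P.soi, P.sGs, P.sHs, P.pb_2H] at hb
  constructor
  · apply P.uD1.mul_left_cancel
    linear_combination (P.al * P.q * P.oi + iA A * P.ub) * h - (P.al * P.q * P.oi - iA A * P.u) * hb
  · apply P.uD1.mul_left_cancel
    linear_combination (P.ub + P.al * P.p * P.oi) * h - (P.u + P.al * P.p * P.oi) * hb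

theorem s2_0 : T.d0 (T.d1 P.q) = P.Gs := P.GH.1
theorem s_1 : T.d1 (T.d0 P.q) = P.Gs := P.s_1G.trans P.GH.1
theorem pi_3 : T.d3 (T.d2 P.p) = P.Hs := P.GH.2
theorem pb_2 : T.d2 (T.d3 P.p) = P.Hs := P.pb_2H.trans P.GH.2

end PX
end Vale.Agent.P354NP
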