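import Vale.Agent.P354NP.Alg

set_option linter.unusedSimpArgs false

namespace Vale.Agent.P354NP

open Vale.Agent.P354XG Vale.Agent.P354XR

variable {A AN AS AO : Type} [CommRing A] [StarRing A] [Algebra ℂ A] [CommRing AN] [StarRing AN]
  [Algebra ℂ AN] [CommRing AS] [StarRing AS] [Algebra ℂ AS] [CommRing AO] [StarRing AO]
  [Algebra ℂ AO] {T : TD A} {K : KC A} {S : Ideal A} {ka : A} {ev : A →ₐ[ℂ] A}

theorem closed_dlog (T : TD A) {u v : A} (h : u * v = 1) (a b : Fin 6) :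
    T.ext (fun k => v * T.D k u) a b = 0 := by
  have := T.ext_smul v (fun k => T.D k u) a b
  rw [T.ext_d, dinv _ h, dinv _ h] at this
  exact this.trans (by ring)

theorem lc_unit (L : Lc T S AN) {a b : A} (e : vl S a = vl S b) (hb : IsUnit (L.φ b)) :
    IsUnit (L.φ a) := by
  obtain ⟨j, hj⟩ := hb.exists_right_inv
  have h := hb.mul (L.inv (j * L.φ (a - b)) (L.S'.mul_mem_left _ (L.le _ (vle.mp e))))
  have e2 : L.φ b * (1 + j * L.φ (a - b)) = L.φ a := by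
    rw [map_sub]; linear_combination (L.φ a - L.φ b) * hj
  rwa [e2] at h

variable (L : Lp T K S AN AS AO) {P : PX T} {x y : A}
include L

/-- The two poles are opposite. -/
theorem per_G (g : P.Pole x y) (u : IsUnit (P.P2 x y)) : x ^ 2 - y ^ 2 = 0 := by
  obtain ⟨j, hj⟩ := u.exists_right_inv
  have k : T.Const (x ^ 2 - y ^ 2) := (g.kx.pow 2).sub (g.ky.pow 2)
  have cl := g.closed_G hj
  obtain ⟨m, hm⟩ : ∃ m, m = (x ^ 2 - y ^ 2) • P.be + (-(hf A * (P.dPA x - P.dPA y))) • P.lam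
    + P.gG x y j • P.nu := ⟨_, rfl⟩
  have m4 : m 4 = (x ^ 2 - y ^ 2) * -iA A := by
    simp only [hm, Pi.add_apply, Pi.smul_apply, smul_eq_mul, P.be_v, P.lam_v, P.nu_v]; ring
  have m5 : m 5 = (x ^ 2 - y ^ 2) * iA A := by
    simp only [hm, Pi.add_apply, Pi.smul_apply, smul_eq_mul, P.be_v, P.lam_v, P.nu_v]; ring
  rw [← hm] at cl
  have h1 := L.pn (fun a => L.n.φ (m a)) _ _ (fun a b => by rw [← L.n.hom.ext, cl, map_zero])
    (k.mul TD.Const.iA.neg) (k.mul TD.Const.iA) (by rw [m4]) (by rw [m5])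
  have h2 := L.ps (fun a => L.s.φ (m a)) (fun a b => by rw [← L.s.hom.ext, cl, map_zero])
  simp only [L.cn, L.cs] at h1 h2
  apply (PD.u2.mul PD.uI).mul_right_eq_zero.mp
  linear_combination h1 - h2

/-- The period of `dπ / π`. -/
theorem per_w (c : Cl P K S ka) (h : Near T K S ka) {v : AO} (hv : L.o.φ (T.d2 P.p) * v = 1) :
    L.per (fun a => v * L.o.T'.D a (L.o.φ (T.d2 P.p))) = 1 := by
  obtain ⟨ai, hai⟩ := h.ua.exists_right_inv
  have ka := (h.ka'.inv hai).map L.o.hom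
  have a1 := congrArg L.o.φ hai
  have a2 := congrArg L.o.φ P.hub
  rw [map_mul, map_one] at a1 a2
  have h1 := L.w (L.o.φ (-(T.d2 P.p * (P.q + iA A * P.p) * ai))) (-(v * L.o.φ P.ub * L.o.φ K.a))
    (by
      simp only [map_neg, map_mul _ _ ai, map_mul _ (T.d2 P.p)]
      linear_combination (L.o.φ (P.q + iA A * P.p) * L.o.φ P.ub) * (L.o.φ K.a * L.o.φ ai) * hv
        + (L.o.φ K.a * L.o.φ ai) * a2 + a1)
    (by
      rw [← map_sub]
      refine L.o.le _ (vle.mp ?_)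
      have b1 := congrArg (vl S) hai
      have b2 := congrArg (vl S) (n_hzb h)
      simp only [map_neg, map_mul, map_add, map_one, c.p, c.q, c.pi h] at b1 b2 ⊢
      linear_combination vl S K.s * (vl S K.a * vl S ai) * b2 + vl S K.s * b1)
  have h2 := L.ps (fun a => L.s.φ P.ub * L.s.T'.D a (L.s.φ (P.q + iA A * P.p)))
    (closed_dlog _ (by rw [← map_mul, P.hub, map_one]))
  have h3 := L.add (fun a => v * L.o.T'.D a (L.o.φ (T.d2 P.p)))
    (fun a => L.ψs (L.s.φ P.ub * L.s.T'.D a (L.s.φ (P.q + iA A * P.p))))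
  rw [h2, add_zero] at h3
  rw [← h3, ← h1]
  congr 1
  funext a
  simp only [Pi.add_apply, map_neg, map_mul _ _ ai, map_mul _ (T.d2 P.p), map_mul L.ψs, L.hs.D, L.cs,
    dmul, ka.D]
  generalize L.o.φ (P.q + iA A * P.p) = z at a2 ⊢
  linear_combination -(v * L.o.T'.D a (L.o.φ (T.d2 P.p)) * (L.o.φ K.a * L.o.φ ai)) * a2
    - v * L.o.T'.D a (L.o.φ (T.d2 P.p)) * a1
    - L.o.φ P.ub * L.o.T'.D a z * (L.o.φ K.a * L.o.φ ai) * hv - L.o.φ P.ub * L.o.T'.D a z * a1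

theorem per_wb (c : Cl P K S ka) (h : Near T K S ka) {v : AO} (hv : L.o.φ (T.d3 P.p) * v = 1) :
    L.per (fun a => v * L.o.T'.D a (L.o.φ (T.d3 P.p))) = -1 := by
  obtain ⟨ai, hai⟩ := h.ua.exists_right_inv
  have ka := (h.ka'.inv hai).map L.o.hom
  have a1 := congrArg L.o.φ hai
  have a2 := congrArg L.o.φ P.hu
  rw [map_mul, map_one] at a1 a2
  have h1 := L.wb (L.o.φ (-(T.d3 P.p * (P.q - iA A * P.p) * ai))) (-(v * L.o.φ P.u * L.o.φ K.a))
    (by
      simp only [map_neg, map_mul _ _ ai, map_mul _ (T.d3 P.p)]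
      linear_combination (L.o.φ (P.q - iA A * P.p) * L.o.φ P.u) * (L.o.φ K.a * L.o.φ ai) * hv
        + (L.o.φ K.a * L.o.φ ai) * a2 + a1)
    (by
      rw [← map_sub]
      refine L.o.le _ (vle.mp ?_)
      have b1 := congrArg (vl S) hai
      have b2 := congrArg (vl S) (n_hz h)
      simp only [map_neg, map_mul, map_sub, map_one, c.p, c.q, c.pb h] at b1 b2 ⊢
      linear_combination vl S K.sb * (vl S K.a * vl S ai) * b2 + vl S K.sb * b1)
  have h2 := L.ps (fun a => L.s.φ P.u * L.s.T'.D a (L.s.φ (P.q - iA A * P.p)))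
    (closed_dlog _ (by rw [← map_mul, P.hu, map_one]))
  have h3 := L.add (fun a => v * L.o.T'.D a (L.o.φ (T.d3 P.p)))
    (fun a => L.ψs (L.s.φ P.u * L.s.T'.D a (L.s.φ (P.q - iA A * P.p))))
  rw [h2, add_zero] at h3
  rw [← h3, ← h1]
  congr 1
  funext a
  simp only [Pi.add_apply, map_neg, map_mul _ _ ai, map_mul _ (T.d3 P.p), map_mul L.ψs, L.hs.D, L.cs,
    dmul, ka.D]
  generalize L.o.φ (P.q - iA A * P.p) = z at a2 ⊢
  linear_combination -(v * L.o.T'.D a (L.o.φ (T.d3 P.p)) * (L.o.φ K.a * L.o.φ ai)) * a2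
    - v * L.o.T'.D a (L.o.φ (T.d3 P.p)) * a1
    - L.o.φ P.u * L.o.T'.D a z * (L.o.φ K.a * L.o.φ ai) * hv - L.o.φ P.u * L.o.T'.D a z * a1

/-- No conical defect. -/
theorem per_N (c : Cl P K S ka) (h : Near T K S ka) (g : P.Pole x y) (vx : vl S x = vl S K.a)
    (vy : vl S y = -vl S K.a) : P.dPA x + P.dPA y = 0 := by
  have uN : IsUnit (L.n.φ ((P.p - y) * P.P2 x y)) := by
    rw [map_mul]
    refine (lc_unit L.n (b := K.a * (1 + K.x)) ?_ ?_).mul ((c.uP2 h x y).map _)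
    · simp only [map_sub, map_mul, map_add, map_one, c.p, vy]; ring
    · rw [map_mul]; exact (h.ua.map _).mul L.un
  have uS : IsUnit (L.s.φ ((P.p - x) * P.P2 y x)) := by
    rw [map_mul]
    refine (lc_unit L.s (b := -K.a * (1 - K.x)) ?_ ?_).mul ((c.uP2 h y x).map _)
    · simp only [map_sub, map_mul, map_neg, map_one, c.p, vx]; ring
    · rw [map_mul]; exact (h.ua.neg.map _).mul L.us
  obtain ⟨jn, hn⟩ := uN.exists_right_inv
  obtain ⟨js, hs⟩ := uS.exists_right_inv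
  have hn' := congrArg L.ψn hn
  have hs' := congrArg L.ψs hs
  rw [map_mul, map_one, L.cn, map_mul, map_sub, P.map_P2 L.o.hom] at hn'
  rw [map_mul, map_one, L.cs, map_mul, map_sub, P.map_P2 L.o.hom] at hs'
  rw [map_mul, map_sub, P.map_P2 L.n.hom] at hn
  rw [map_mul, map_sub, P.map_P2 L.s.hom] at hs
  have pN := L.pn _ (-iA A) (iA A) ((g.map L.n.hom).closed_N hn) TD.Const.iA.neg TD.Const.iA
    (by simp only [Pi.add_apply, Pi.smul_apply, smul_eq_mul, PX.be_v, PX.nu_v, map_neg, m_i]; ring)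
    (by simp only [Pi.add_apply, Pi.smul_apply, smul_eq_mul, PX.be_v, PX.nu_v, m_i]; ring)
  have pS := L.ps _ ((g.symm.map L.s.hom).closed_N hs)
  simp only [Pi.add_apply, Pi.smul_apply, smul_eq_mul, map_add, map_mul, PX.map_be _ L.hn,
    PX.map_nu _ L.hn, PX.map_gN _ L.hn, P.map_map L.n.hom L.hn L.o.hom L.cn, L.cn] at pN
  simp only [Pi.add_apply, Pi.smul_apply, smul_eq_mul, map_add, map_mul, PX.map_be _ L.hs,
    PX.map_nu _ L.hs, PX.map_gN _ L.hs, P.map_map L.s.hom L.hs L.o.hom L.cs, L.cs] at pS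
  have gO := g.map L.o.hom
  have uP : IsUnit (P.map L.o.hom).Pp := by
    rw [gO.fac, mul_assoc]
    exact (isUnit_of_mul_isUnit_left (IsUnit.of_mul_eq_one _ hs')).mul (IsUnit.of_mul_eq_one _ hn')
  obtain ⟨j, hj⟩ := uP.exists_right_inv
  have f1 := gO.gN_mul hn'
  have f2 := gO.symm.gN_mul hs'
  have upp : IsUnit (L.o.φ (T.d2 P.p) * L.o.φ (T.d3 P.p)) := by
    have e := (P.map L.o.hom).vpp
    have u : IsUnit (2 * L.o.T'.d2 (P.map L.o.hom).p * L.o.T'.d3 (P.map L.o.hom).p) := by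
      rw [e]
      exact ((((P.map L.o.hom).uO.pow 2).mul (IsUnit.of_mul_eq_one _
        ((mul_comm _ _).trans (P.map L.o.hom).hu))).mul (IsUnit.of_mul_eq_one _
        ((mul_comm _ _).trans (P.map L.o.hom).hub))).mul (IsUnit.of_mul_eq_one _ hj)
    rw [mul_assoc] at u
    rw [(m_d L.o.hom).2.2.1, (m_d L.o.hom).2.2.2]
    exact isUnit_of_mul_isUnit_right u
  obtain ⟨v, hv⟩ := (isUnit_of_mul_isUnit_left upp).exists_right_inv
  obtain ⟨vb, hvb⟩ := (isUnit_of_mul_isUnit_right upp).exists_right_inv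
  have w1 := per_w L c h hv
  have w2 := per_wb L c h hvb
  have ph := gO.phase hj hn' hs'
  rw [(m_d L.o.hom).2.2.1] at hv w1
  rw [(m_d L.o.hom).2.2.2] at hvb w2
  have k1 := TD.Const.hf.mul ((P.kdPA g.ky).sub (P.kdPA g.kx))
  have k2 := TD.Const.hf.mul ((P.kdPA g.kx).add (P.kdPA g.ky))
  obtain ⟨BN, hBN⟩ : ∃ BN : Fin 6 → AO, BN = fun a => (P.map L.o.hom).be a
    + (P.map L.o.hom).gN (L.o.φ x) (L.ψn jn) * (P.map L.o.hom).nu a := ⟨_, rfl⟩
  obtain ⟨BS, hBS⟩ : ∃ BS : Fin 6 → AO, BS = fun a => (P.map L.o.hom).be a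
    + (P.map L.o.hom).gN (L.o.φ y) (L.ψs js) * (P.map L.o.hom).nu a := ⟨_, rfl⟩
  rw [← hBN] at pN
  rw [← hBS] at pS
  have e1 : BN = BS + L.o.φ (hf A * (P.dPA y - P.dPA x)) • (j • (P.map L.o.hom).nu) := by
    funext a
    simp only [hBN, hBS, Pi.add_apply, Pi.smul_apply, smul_eq_mul, map_mul, map_sub, m_hf,
      P.map_dPA L.o.hom]
    linear_combination j * (P.map L.o.hom).nu a * (f1 - f2) - ((P.map L.o.hom).gN (L.o.φ x) (L.ψn jn)
      - (P.map L.o.hom).gN (L.o.φ y) (L.ψs js)) * (P.map L.o.hom).nu a * hj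
  have e2 : (fun a => v * L.o.T'.D a (L.o.T'.d2 (L.o.φ P.p)))
      = (fun a => vb * L.o.T'.D a (L.o.T'.d3 (L.o.φ P.p))) + L.o.φ (iA A) • (BN + BS
        + L.o.φ (hf A * (P.dPA x + P.dPA y)) • (j • (P.map L.o.hom).nu)) := by
    funext a
    have p := ph a
    simp only [Pi.add_apply, Pi.smul_apply, smul_eq_mul, ← P.map_v L.o.hom] at p
    simp only [hBN, hBS, Pi.add_apply, Pi.smul_apply, smul_eq_mul, map_mul, map_add, m_hf, m_i,
      P.map_dPA L.o.hom]
    generalize (P.map L.o.hom).be a + (P.map L.o.hom).gN (L.o.φ x) (L.ψn jn) * (P.map L.o.hom).nu a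
      + ((P.map L.o.hom).be a + (P.map L.o.hom).gN (L.o.φ y) (L.ψs js) * (P.map L.o.hom).nu a)
      + hf AO * ((P.map L.o.hom).dPA (L.o.φ x) + (P.map L.o.hom).dPA (L.o.φ y))
        * (j * (P.map L.o.hom).nu a) = W at p ⊢
    linear_combination v * vb * p - v * L.o.T'.D a (L.o.T'.d2 (L.o.φ P.p)) * hvb
      + vb * L.o.T'.D a (L.o.T'.d3 (L.o.φ P.p)) * hv
      + iA AO * W * (L.o.T'.d3 (L.o.φ P.p) * vb * hv + hvb)
  have q1 := congrArg L.per e1
  have q2 := congrArg L.per e2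
  rw [L.add, L.smul _ _ k1, pN, pS] at q1
  rw [L.add, L.smul _ _ TD.Const.iA, L.add, L.add, L.smul _ _ k2, pN, pS, w1, w2] at q2
  have um : IsUnit (L.per (j • (P.map L.o.hom).nu)) := by
    have : IsUnit (hf A * (P.dPA y - P.dPA x) * L.per (j • (P.map L.o.hom).nu)) := by
      have e : hf A * (P.dPA y - P.dPA x) * L.per (j • (P.map L.o.hom).nu) = -(2 * iA A) := by
        linear_combination -q1
      rw [e]; exact (PD.u2.mul PD.uI).neg
    exact isUnit_of_mul_isUnit_right this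
  apply (PD.uI.mul um).mul_right_eq_zero.mp
  linear_combination -2 * q2 + 4 * iA_sq (A := A)
    - iA A * L.per (j • (P.map L.o.hom).nu) * (P.dPA x + P.dPA y) * hhf (A := A)

omit L in
/-- The algebraic part of the rigidity theorem. -/
theorem alg : ALG := by
  intro A AN AS AO _ _ _ _ _ _ _ _ _ _ _ _ T K S ka ev h e L
  obtain ⟨P, ha, hp, hq, hc⟩ := ex_px h e
  have c : Cl P K S ka := ⟨vl0.mpr ha, hp.trans (map_mul _ _ _), hq, hc⟩
  obtain ⟨x, y, g, vx, vy⟩ := c.poles h e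
  obtain ⟨-, h1, h2⟩ := g.kill (per_G L g (c.uP2 h x y)) (per_N L c h g vx vy)
    (n_unit' h ((PD.u2.mul PD.u2).mul h.uM) (by
      rw [c.m2 h, map_mul, map_mul, map_ofNat]; ring))
  exact c.fin h e h1 h2

end Vale.Agent.P354NP
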