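import Vale.Agent.P354RI.Defs
import Vale.Agent.P354MG.Gg

/-!
Pull backs of forms and the homotopy formula.
-/

open scoped ContDiff
open Set Filter Topology

noncomputable section

namespace Vale.Agent.P354NP

open Vale.Agent.P354XG hiding Dom Dom0 Bd bdSub domI Keeps Low dom0_mk dom0_zero dom0_cst dom_of
  dom_zero dom_cst bd_alg dom_sum dom0_sum keeps_pd keeps_zero keeps_sum bd_closure dom_pb_aff
  bd_fn bd_par Conn gron gron0 dom_of_sys dom_sub_ev0
open Vale.Agent.P354MG Vale.Agent.P354XD Vale.Agent.P354RI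
open Vale.Agent.P354XO (rs_d sum_zc)

variable {J E : Type} [NormedAddCommGroup E] [NormedSpace ℝ E] {F : Filter J} {K : J → Set E6}
  {K' : J → Set E} {X Y : J × E → E6} {μ : ℕ → J → ℝ} {α : Fin 6 → Sm (nb F K)}

/-- The pull back of the form α, applied to the direction v. -/
def fm (h : Mp F K' K X) (α : Fin 6 → Sm (nb F K)) (v : E) : Sm (nb F K') :=
  ∑ i, pd v (h.co (zc i)) * h.pb (α i)

theorem rs_pb (h : Mp F K' K X) {a : Sm (nb F K)} {f : J × E6 → ℂ} (r : Rs a f) :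
    Rs (h.pb a) fun p => f (p.1, X p) := (h.rep_pb a).trans (h.ev r)

theorem chain (h : Mp F K' K X) (v : E) (a : Sm (nb F K)) :
    pd v (h.pb a) = fm h (fun i => (hp _).d i a) v := by
  refine ((rs_pb h (rs_rep a)).pd v).ext (Rs.sum _ fun i => Rs.mul (h.rep_pd_co (zc i) v)
    (rs_pb h (rs_d i a))) ?_
  filter_upwards [h.sm, h.ev (rep_sm a).diff] with p h2 h3
  have : fderiv ℝ (sl (fun p => rep a (p.1, X p)) p.1) p.2 = _ :=
    (HasFDerivAt.comp (g := sl (rep a) p.1) p.2 h3.hasFDerivAt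
      (h2.differentiableAt (by simp)).hasFDerivAt).fderiv
  rw [pdF, this]
  exact sum_zc _ _

theorem fm_ext (h : Mp F K' K X) (α : Fin 6 → Sm (nb F K)) (v w : E) :
    pd v (fm h α w) - pd w (fm h α v) = ∑ i, ∑ k, pd v (h.co (zc i)) * pd w (h.co (zc k)) *
      h.pb ((hp _).d i (α k) - (hp _).d k (α i)) := by
  simp only [fm, map_sum, D_mul, chain, pd_comm v w, map_sub, mul_sub, Finset.sum_sub_distrib,
    Finset.sum_add_distrib, Finset.mul_sum, add_sub_add_right_eq_sub]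
  rw [Finset.sum_comm]
  simp only [mul_assoc, mul_left_comm]

theorem fm_aff {x0 : J → E6} {L : E →L[ℝ] E6} (h : Mp F K' K (aff x0 L)) (v : E) :
    fm h α v = ∑ i, algebraMap ℂ _ (zc i (L v)) * h.pb (α i) := by
  refine Finset.sum_congr rfl fun i _ => congrArg (· * _) ?_
  refine Rs.ext (h.rep_pd_co (zc i) v) (rs_alg _) (.of_forall fun p => ?_)
  have : fderiv ℝ (fun y => aff x0 L (p.1, y)) p.2 = L := (L.hasFDerivAt.const_add (x0 p.1)).fderiv
  simp only [this]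

theorem lev_fm {Z : J × (ℝ × E) → E6} (h : Mp F (cyl K') K Z) {t : ℝ} (ht : t ∈ Icc (0 : ℝ) 1)
    (h1 : Mp F K' K X) (e : ∀ p : J × E, Z (p.1, t, p.2) = X p) (w : E) :
    (mp_lev ht).pb (fm h α (0, w)) = fm h1 α w := by
  have k : ∀ {a : Sm (nb F (cyl K'))} {f}, Rs a f → Rs ((mp_lev ht).pb a) fun p => f (p.1, t, p.2) :=
    fun {a f} r => (Mp.rep_pb _ a).trans (((mp_lev ht).ev r).mono fun p h => by simpa [aff] using h)
  simp only [fm, map_sum, map_mul]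
  refine Finset.sum_congr rfl fun i _ => ?_
  have e1 : (mp_lev ht).pb (h.co (zc i)) = h1.co (zc i) :=
    (k (rs_mk (h.sm_co _))).ext (rs_mk (h1.sm_co _)) (.of_forall fun p => by simp [e])
  rw [show ((0, w) : ℝ × E) = ContinuousLinearMap.inr ℝ ℝ E w from rfl, ← pd_pb_aff, e1,
    (k (rs_pb h (rs_rep (α i)))).ext (rs_pb h1 (rs_rep (α i))) (.of_forall fun p => by simp [e])]

variable [FiniteDimensional ℝ E]

theorem dom_ext [Gr F] (h : Mp F K' K X) (t : Tame h) (hμ : Wgt μ) (c : Cl μ α) (v w : E) :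
    Dom μ (pd v (fm h α w) - pd w (fm h α v)) := by
  rw [fm_ext]
  exact dom_sum hμ _ fun i _ => dom_sum hμ _ fun k _ =>
    ((t _ v).bmul wgt_one (t _ w)).bmul hμ ((c i k).pb h t hμ)

/-- The homotopy formula. -/
theorem homot [Gr F] {Z : J × (ℝ × E) → E6} (h : Mp F (cyl K') K Z) (t : Tame h)
    (h0 : Mp F K' K Y) (h1 : Mp F K' K X) (e0 : ∀ p : J × E, Z (p.1, 0, p.2) = Y p)
    (e1 : ∀ p : J × E, Z (p.1, 1, p.2) = X p) (hμ : Wgt μ) (c : Cl μ α) (w : E) :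
    Dom μ (pd w (int (fm h α (1, 0))) - (fm h1 α w - fm h0 α w)) := by
  have := (dom_ext h t hμ c (0, w) (1, 0)).int hμ
  rwa [int_sub, ← pd_int, int_pd, lev1, lev0, lev_fm h (right_mem_Icc.2 zero_le_one) h1 e1,
    lev_fm h (left_mem_Icc.2 zero_le_one) h0 e0] at this

/-! ### The straight homotopy -/

/-- The segments from Y to X. -/
def sg (X Y : J × E → E6) (p : J × (ℝ × E)) : E6 :=
  Y (p.1, p.2.2) + p.2.1 • (X (p.1, p.2.2) - Y (p.1, p.2.2))

omit [FiniteDimensional ℝ E] in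
theorem rs_up {b : Sm (nb F K')} {f : J × E → ℂ} (r : Rs b f) :
    Rs (up b) fun p => f (p.1, p.2.2) :=
  (mp_up.rep_pb b).trans ((mp_up.ev r).mono fun p h => by simpa [aff] using h)

variable (h1 : Mp F K' K X) (h0 : Mp F K' K Y)
  (hs : ∀ᶠ j in F, ∀ x ∈ K' j, segment ℝ (Y (j, x)) (X (j, x)) ⊆ K j)
include h1 h0 hs

omit [FiniteDimensional ℝ E] in
theorem mp_sg : Mp F (cyl K') K (sg X Y) := by
  have u : ∀ {P : J × E → Prop}, (∀ᶠ p in nb F K', P p) → ∀ᶠ p in nb F (cyl K'), P (p.1, p.2.2) :=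
    fun h => (mp_up.ev h).mono fun p h => by simpa [aff] using h
  refine ⟨?_, hs.mono fun j h x hx => h _ hx.2 ?_⟩
  · filter_upwards [u h1.sm, u h0.sm] with p e1 e2
    have e1 := ContDiffAt.comp p.2 e1 contDiffAt_snd
    have e2 := ContDiffAt.comp p.2 e2 contDiffAt_snd
    exact e2.add (contDiffAt_fst.smul (e1.sub e2))
  · rw [segment_eq_image']
    exact ⟨x.1, hx.1, rfl⟩

omit [FiniteDimensional ℝ E] in
theorem co_sg (l : E6 →L[ℝ] ℂ) :
    (mp_sg h1 h0 hs).co l = up (h0.co l) + par * up (h1.co l - h0.co l) :=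
  (rs_mk ((mp_sg h1 h0 hs).sm_co l)).ext ((rs_up (rs_mk (h0.sm_co l))).add (Rs.mul rep_par
    (rs_up ((rs_mk (h1.sm_co l)).sub (rs_mk (h0.sm_co l)))))) (.of_forall fun p => by simp [sg])

omit [FiniteDimensional ℝ E] in
theorem pd_sg (l : E6 →L[ℝ] ℂ) : pd (1, 0) ((mp_sg h1 h0 hs).co l) = up (h1.co l - h0.co l) := by
  have z : ∀ b : Sm (nb F K'), pd (0 : E) b = 0 := fun b => by
    simpa using pd_smul_dir 0 (0 : E) b
  rw [co_sg h1 h0 hs, D_add, D_mul, pd_up, pd_up, z, z, pd_par]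
  simp

/-- The integral of α along the segments. -/
def pot (α : Fin 6 → Sm (nb F K)) : Sm (nb F K') := int (fm (mp_sg h1 h0 hs) α (1, 0))

theorem rs_pot {f : Fin 6 → J × E6 → ℂ} (r : ∀ i, Rs (α i) (f i)) : Rs (pot h1 h0 hs α) fun p =>
    ∫ s in (0 : ℝ)..1, ∑ i, zc i (X p - Y p) * f i (p.1, Y p + s • (X p - Y p)) := by
  refine (rep_mk _ (rep_sm _).int).trans (intF_congr (g := fun p => ∑ i, zc i
    (X (p.1, p.2.2) - Y (p.1, p.2.2)) * f i (p.1, sg X Y p)) ?_)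
  simp only [fm, pd_sg h1 h0 hs, map_sub (zc _)]
  exact Rs.sum _ fun i => (rs_up ((rs_mk (h1.sm_co _)).sub (rs_mk (h0.sm_co _)))).mul
    (rs_pb _ (r i))

variable [Gr F] (t : Tame h0) (e : ∀ l, Bd (h1.co l - h0.co l)) (hμ : Wgt μ)
include t e

omit [FiniteDimensional ℝ E] in
theorem tame_sg : Tame (mp_sg h1 h0 hs) := fun l v => by
  rw [co_sg h1 h0 hs, D_add, show v = (v.1, v.2) from rfl, pd_up]
  exact (t l _).up.add wgt_one ((bd_par.bmul wgt_one (e l).up).pd _)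

include hμ

theorem pd_pot (c : Cl μ α) (w : E) :
    Dom μ (pd w (pot h1 h0 hs α) - (fm h1 α w - fm h0 α w)) :=
  homot _ (tame_sg h1 h0 hs t e) h0 h1 (fun p => by simp [sg]) (fun p => by simp [sg]) hμ c w

theorem dom_pot (d : ∀ i, Dom μ (α i) ∨ h1.co (zc i) = h0.co (zc i)) :
    Dom μ (pot h1 h0 hs α) := by
  refine Dom.int hμ (dom_sum hμ _ fun i _ => ?_)
  rw [pd_sg h1 h0 hs]
  rcases d i with d | d
  · exact (e _).up.bmul hμ (d.pb _ (tame_sg h1 h0 hs t e) hμ)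
  · rw [d, sub_self, map_zero, zero_mul]; exact dom_zero hμ

end Vale.Agent.P354NP
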