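import Vale.Agent.P354NP.Frm

namespace Vale.Agent.P354NP

variable {A : Type*} [CommRing A] [StarRing A] [Algebra ℂ A]

namespace TD.Const
variable {T : TD A} {x y : A}

theorem of_D (h : ∀ a, T.D a x = 0) : T.Const x := ⟨h 0, h 1, h 2, h 3, h 4, h 5⟩
theorem D (h : T.Const x) (a : Fin 6) : T.D a x = 0 := PX.D_const h a
theorem add (h : T.Const x) (g : T.Const y) : T.Const (x + y) :=
  of_D fun a => by rw [map_add, h.D, g.D, add_zero]
theorem sub (h : T.Const x) (g : T.Const y) : T.Const (x - y) :=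
  of_D fun a => by rw [map_sub, h.D, g.D, sub_zero]
theorem neg (h : T.Const x) : T.Const (-x) := of_D fun a => by rw [map_neg, h.D, neg_zero]
theorem mul (h : T.Const x) (g : T.Const y) : T.Const (x * y) :=
  of_D fun a => by rw [dmul, h.D, g.D]; ring
theorem alg (z : ℂ) : T.Const (algebraMap ℂ A z) := of_D fun a => (T.D a).map_algebraMap z
theorem hf : T.Const (hf A) := alg _
theorem iA : T.Const (iA A) := alg _
theorem one : T.Const (1 : A) := of_D fun a => (T.D a).map_one_eq_zero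
theorem zero : T.Const (0 : A) := of_D fun a => map_zero (T.D a)
theorem pow (h : T.Const x) : ∀ n : ℕ, T.Const (x ^ n)
  | 0 => by rw [pow_zero]; exact one
  | n + 1 => by rw [pow_succ]; exact (pow h n).mul h
theorem inv (h : T.Const x) (e : x * y = 1) : T.Const y :=
  of_D fun a => by rw [dinv _ e, h.D]; ring
/-- A root of a constant which is a unit is constant. -/
theorem sqrt (h : T.Const y) (hu : IsUnit x) (e : x ^ 2 = y) : T.Const x :=
  of_D fun a => by
    have h1 := h.D a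
    rw [← e, dsq] at h1
    exact (PD.u2.mul hu).mul_right_eq_zero.mp h1

end TD.Const

namespace PX
open PD
variable {T : TD A} (P : PX T)

/-- The quartic `P` at a point. -/
noncomputable def PA (x : A) : A := P.k + P.n2 * x - P.ep * x ^ 2 + P.al * P.m2 * x ^ 3
  - P.al ^ 2 * P.k * x ^ 4
/-- Its derivative at a point. -/
noncomputable def dPA (x : A) : A := P.n2 - 2 * P.ep * x + 3 * P.al * P.m2 * x ^ 2
  - 4 * P.al ^ 2 * P.k * x ^ 3

/-- Coefficients of the quotient of `P` by `(X - x)(X - y)`. -/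
noncomputable def c2 : A := -(P.al ^ 2 * P.k)
/-- Linear coefficient of the quotient. -/
noncomputable def c1 (x y : A) : A := P.al * P.m2 + (x + y) * P.c2
/-- Constant coefficient of the quotient. -/
noncomputable def c0 (x y : A) : A := -P.ep + (x + y) * P.c1 x y - x * y * P.c2
/-- The quotient at `p`. -/
noncomputable def P2 (x y : A) : A := P.c2 * P.p ^ 2 + P.c1 x y * P.p + P.c0 x y

/-- Two constant simple roots of `P`. -/
structure Pole (x y : A) : Prop where
  kx : T.Const x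
  ky : T.Const y
  hx : P.PA x = 0
  hy : P.PA y = 0
  u : IsUnit (x - y)

theorem kdPA {x : A} (h : T.Const x) : T.Const (P.dPA x) :=
  TD.Const.of_D fun a => by
    simp only [dPA, map_add, map_sub, dmul, dsq, dcu, d2n, d3n, d4n, h.D, P.kal.D, P.km2.D, P.kn2.D,
      P.kk.D, P.kep.D]; ring

variable {P} {x y : A}

theorem Pole.symm (h : P.Pole x y) : P.Pole y x :=
  ⟨h.ky, h.kx, h.hy, h.hx, by rw [← neg_sub]; exact h.u.neg⟩

theorem P2_symm : P.P2 y x = P.P2 x y := by simp only [P2, c0, c1]; ring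

theorem Pole.n2 (h : P.Pole x y) : P.n2 = -((x + y) * P.c0 x y) + x * y * P.c1 x y := by
  apply h.u.mul_left_cancel
  have h1 := h.hx
  have h2 := h.hy
  simp only [PA, c0, c1, c2] at h1 h2 ⊢
  linear_combination h1 - h2

theorem Pole.k (h : P.Pole x y) : P.k = x * y * P.c0 x y := by
  have h1 := h.hx
  have h2 := h.n2
  simp only [PA, c0, c1, c2] at h1 h2 ⊢
  linear_combination h1 - x * h2

theorem Pole.fac (h : P.Pole x y) : P.Pp = (P.p - x) * (P.p - y) * P.P2 x y := by
  have h1 := h.k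
  have h2 := h.n2
  simp only [Pp, P2, c0, c1, c2] at h1 h2 ⊢
  linear_combination h1 + P.p * h2

theorem Pole.dfac (h : P.Pole x y) : P.dP = (2 * P.p - x - y) * P.P2 x y
    + (P.p - x) * (P.p - y) * (2 * P.c2 * P.p + P.c1 x y) := by
  have h2 := h.n2
  simp only [dP, P2, c0, c1, c2] at h2 ⊢
  linear_combination h2

theorem Pole.dP2 (h : P.Pole x y) (a : Fin 6) :
    T.D a (P.P2 x y) = (2 * P.c2 * P.p + P.c1 x y) * T.D a P.p := by
  simp only [P2, c0, c1, c2, map_add, map_sub, map_neg, dmul, dsq, h.kx.D, h.ky.D, P.kal.D, P.km2.D,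
    P.kk.D, P.kep.D]
  ring

/-- The coefficient of `nu` in the global form. -/
noncomputable def gG (P : PX T) (x y j : A) : A :=
  hf A * ((x ^ 2 - y ^ 2) * (4 * P.c2 * P.p + 3 * P.al * P.m2 + 4 * P.c2 * (x + y))
    - (P.dPA x - P.dPA y)) * j

/-- GLOBAL closed form; its value on `H` is `-i (x² - y²)`. -/
theorem Pole.closed_G (h : P.Pole x y) {j : A} (hj : P.P2 x y * j = 1) (a b : Fin 6) :
    T.ext ((x ^ 2 - y ^ 2) • P.be + (-(hf A * (P.dPA x - P.dPA y))) • P.lam + P.gG x y j • P.nu)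
      a b = 0 := by
  refine P.closed ((h.kx.pow 2).sub (h.ky.pow 2))
    ((TD.Const.hf.mul ((P.kdPA h.kx).sub (P.kdPA h.ky))).neg)
    (g1 := hf A * (x ^ 2 - y ^ 2) * (4 * P.c2) * j - P.gG x y j * j * (2 * P.c2 * P.p + P.c1 x y))
    (fun a => ?_) ?_ a b
  · simp only [gG, c2, map_add, map_sub, map_neg, dmul, dsq, d3n, d4n, d_hf, h.kx.D, h.ky.D, P.kal.D,
      P.km2.D, P.kk.D, (P.kdPA h.kx).D, (P.kdPA h.ky).D, dinv _ hj, h.dP2]
    ring
  · rw [h.fac, h.dfac]
    have e : P.gG x y j * P.P2 x y = hf A * ((x ^ 2 - y ^ 2)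
        * (4 * P.c2 * P.p + 3 * P.al * P.m2 + 4 * P.c2 * (x + y)) - (P.dPA x - P.dPA y)) := by
      unfold gG
      linear_combination hf A * ((x ^ 2 - y ^ 2) * (4 * P.c2 * P.p + 3 * P.al * P.m2
        + 4 * P.c2 * (x + y)) - (P.dPA x - P.dPA y)) * hj
    have e2 : (P.p - x) * (P.p - y) * ((x ^ 2 - y ^ 2) * (4 * P.c2))
        + (2 * P.p - x - y) * ((x ^ 2 - y ^ 2)
        * (4 * P.c2 * P.p + 3 * P.al * P.m2 + 4 * P.c2 * (x + y)) - (P.dPA x - P.dPA y))
        = (x ^ 2 - y ^ 2) * P.ddP - 2 * (P.dPA x - P.dPA y) * P.p := by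
      simp only [dPA, ddP, c2]; ring
    linear_combination (2 * P.p - x - y) * e + hf A * e2
      + (P.p - x) * (P.p - y) * (hf A * (x ^ 2 - y ^ 2) * (4 * P.c2)
        - P.gG x y j * (2 * P.c2 * P.p + P.c1 x y)) * hj

/-- The coefficient of `nu` in the form which is regular at the pole `x`. -/
noncomputable def gN (P : PX T) (x j : A) : A :=
  hf A * (-(2 * P.ep) + 3 * P.al * P.m2 * (P.p + x) + 4 * P.c2 * (P.p ^ 2 + P.p * x + x ^ 2)) * j

theorem Pole.gN_mul (h : P.Pole x y) {j : A} (hj : (P.p - y) * P.P2 x y * j = 1) :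
    P.gN x j * P.Pp = hf A * (P.dP - P.dPA x) := by
  rw [h.fac]
  have e : P.dP - P.dPA x = (P.p - x) * (-(2 * P.ep) + 3 * P.al * P.m2 * (P.p + x)
      + 4 * P.c2 * (P.p ^ 2 + P.p * x + x ^ 2)) := by simp only [dP, dPA, c2]; ring
  rw [e, gN]
  linear_combination hf A * (P.p - x) * (-(2 * P.ep) + 3 * P.al * P.m2 * (P.p + x)
      + 4 * P.c2 * (P.p ^ 2 + P.p * x + x ^ 2)) * hj

/-- The form `be + gN nu` is closed where `p - y` is a unit. -/
theorem Pole.closed_N (h : P.Pole x y) {j : A} (hj : (P.p - y) * P.P2 x y * j = 1) (a b : Fin 6) :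
    T.ext (P.be + P.gN x j • P.nu) a b = 0 := by
  have key := P.closed (x := 1) (y := 0) (g := P.gN x j) TD.Const.one TD.Const.zero
    (g1 := hf A * (3 * P.al * P.m2 + 4 * P.c2 * (2 * P.p + x)) * j
      - P.gN x j * j * (P.P2 x y + (P.p - y) * (2 * P.c2 * P.p + P.c1 x y)))
    (fun a => by
      simp only [gN, c2, map_add, map_sub, map_neg, dmul, dsq, d2n, d3n, d4n, d_hf, h.kx.D, h.ky.D,
        P.kal.D, P.km2.D, P.kk.D, P.kep.D, dinv _ hj, h.dP2]
      ring)
    (by
      rw [h.fac, h.dfac]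
      have e : P.gN x j * ((P.p - y) * P.P2 x y) = hf A * (-(2 * P.ep)
          + 3 * P.al * P.m2 * (P.p + x) + 4 * P.c2 * (P.p ^ 2 + P.p * x + x ^ 2)) := by
        unfold gN
        linear_combination hf A * (-(2 * P.ep) + 3 * P.al * P.m2 * (P.p + x)
          + 4 * P.c2 * (P.p ^ 2 + P.p * x + x ^ 2)) * hj
      have e2 : (P.p - x) * (3 * P.al * P.m2 + 4 * P.c2 * (2 * P.p + x)) + (-(2 * P.ep)
          + 3 * P.al * P.m2 * (P.p + x) + 4 * P.c2 * (P.p ^ 2 + P.p * x + x ^ 2)) = P.ddP := by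
        simp only [ddP, c2]; ring
      linear_combination e + hf A * e2 + (P.p - x) * (hf A * (3 * P.al * P.m2
        + 4 * P.c2 * (2 * P.p + x)) - P.gN x j * (P.P2 x y + (P.p - y)
          * (2 * P.c2 * P.p + P.c1 x y))) * hj)
    a b
  simpa only [one_smul, zero_smul, add_zero] using key

/-- Off the axis `nu / P` is closed. -/
theorem closed_mu (P : PX T) {j : A} (hj : P.Pp * j = 1) (a b : Fin 6) :
    T.ext (j • P.nu) a b = 0 := by
  have hD : ∀ a, T.D a P.Pp = P.dP * T.D a P.p := fun a => by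
    rw [P.dPp _ (P.kal.D a) (P.km2.D a) (P.kn2.D a), P.kk.D, P.kep.D]; ring
  rw [P.ext_gnu (g1 := -(j * j * P.dP)) (fun a => by rw [dinv _ hj, hD]; ring)]
  linear_combination -(j * P.dP * P.w a b) * hj

/-- Off the axis: the phase of `ð p` against the two regular forms. -/
theorem Pole.phase (h : P.Pole x y) {j jx jy : A} (hj : P.Pp * j = 1)
    (hx : (P.p - y) * P.P2 x y * jx = 1) (hy : (P.p - x) * P.P2 y x * jy = 1) (a : Fin 6) :
    T.D a (T.d2 P.p) * T.d3 P.p - T.d2 P.p * T.D a (T.d3 P.p)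
      = iA A * (T.d2 P.p * T.d3 P.p) * ((P.be + P.gN x jx • P.nu) a + (P.be + P.gN y jy • P.nu) a
        + hf A * (P.dPA x + P.dPA y) * (j • P.nu) a) := by
  have e1 := h.gN_mul hx
  have e2 := h.symm.gN_mul hy
  have e3 := P.vpp
  have e4 := hhf (A := A)
  rw [P.dpi]
  simp only [Pi.add_apply, Pi.smul_apply, smul_eq_mul]
  have f1 : P.gN x jx = hf A * (P.dP - P.dPA x) * j := by
    linear_combination j * e1 - P.gN x jx * hj
  have f2 : P.gN y jy = hf A * (P.dP - P.dPA y) * j := by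
    linear_combination j * e2 - P.gN y jy * hj
  rw [f1, f2]
  linear_combination -(iA A * hf A * P.dP * j * P.nu a) * e3
    - iA A * hf A * P.dP * (1 - P.al * P.p * P.q) ^ 2 * P.u * P.ub * P.nu a * hj

/-- No NUT charge and no acceleration. -/
theorem Pole.kill (h : P.Pole x y) (h1 : x ^ 2 - y ^ 2 = 0) (h2 : P.dPA x + P.dPA y = 0)
    (hm : IsUnit P.m2) : y = -x ∧ P.al = 0 ∧ P.n2 = 0 := by
  have e : y = -x := by
    apply h.u.mul_left_cancel
    linear_combination h1
  have hu : IsUnit (2 * x) := by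
    have := h.u
    rwa [e, sub_neg_eq_add, ← two_mul] at this
  have hx := h.hx
  have hy := h.hy
  rw [e] at hy h2
  simp only [PA, dPA] at hx hy h2
  have o : P.n2 + P.al * P.m2 * x ^ 2 = 0 := by
    apply hu.mul_right_eq_zero.mp
    linear_combination hx - hy
  have a0 : P.al = 0 := by
    apply ((hu.pow 2).mul hm).mul_right_eq_zero.mp
    linear_combination h2 - 2 * o
  exact ⟨e, a0, by rw [a0] at o; linear_combination o⟩

end PX
end Vale.Agent.P354NP
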