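import Vale.Agent.P354NP.Poi
import Vale.Agent.P354RI.Fun
import Vale.Agent.P354XO.Cht

/-!
The potential of an almost closed form on the cone.
-/

open scoped ContDiff
open Set Filter Topology

noncomputable section

namespace Vale.Agent.P354NP

open Vale.Agent.P354XG hiding Dom Dom0 Bd bdSub domI Keeps Low dom0_mk dom0_zero dom0_cst dom_of
  dom_zero dom_cst bd_alg dom_sum dom0_sum keeps_pd keeps_zero keeps_sum bd_closure dom_pb_aff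
  bd_fn bd_par Conn gron gron0 dom_of_sys dom_sub_ev0
open Vale.Agent.P354MG Vale.Agent.P354XD Vale.Agent.P354RI
open Vale.Agent.P354XO (Om sc sc_ap)

variable {J : Type} {l : ℂ × ℂ →L[ℂ] ℂ} {R : ℝ}

/-- The retraction to the fibres over the base curve, and its linear part. -/
def rt (R : ℝ) (l : ℂ × ℂ →L[ℂ] ℂ) (x : E6) : E6 := (x.1, R, l x.2.2, l x.2.2)
def Pl (l : ℂ × ℂ →L[ℂ] ℂ) : E6 →L[ℝ] E6 :=
  (ContinuousLinearMap.fst ℝ ℝ _).prod ((0 : E6 →L[ℝ] ℝ).prod (((l.prod l).restrictScalars ℝ).comp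
    ((ContinuousLinearMap.snd ℝ ℝ _).comp (ContinuousLinearMap.snd ℝ ℝ _))))

theorem Pl_ap (x : E6) : Pl l x = (x.1, 0, l x.2.2, l x.2.2) := rfl
theorem aff_rt (p : J × E6) : aff (fun _ => (0, R, 0, 0)) (Pl l) p = rt R l p.2 := by
  simp [aff, Pl_ap, rt]
theorem rt_sc (z : ℂ) (x : E6) : rt R l (sc z x) = sc z (rt R l x) := by simp [rt, sc_ap]

structure Ln (l : ℂ × ℂ →L[ℂ] ℂ) : Prop where
  dg : ∀ z, l (z, z) = z
  le : ∀ w, ‖l w‖ ≤ ‖w‖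

theorem ln1 : Ln (.fst ℂ ℂ ℂ) := ⟨fun _ => rfl, norm_fst_le⟩
theorem ln2 : Ln (.snd ℂ ℂ ℂ) := ⟨fun _ => rfl, norm_snd_le⟩

theorem Ln.seg (L : Ln l) {x y : E6} (h : y ∈ segment ℝ (rt R l x) x) : y.1 = x.1 ∧
    (x.1, y.2.1) ∈ segment ℝ (x.1, R) (x.1, x.2.1) ∧ y.2.1 ∈ segment ℝ R x.2.1 ∧
    l y.2.2 = l x.2.2 ∧ ‖y.2.2‖ ≤ ‖x.2.2‖ := by
  obtain ⟨a, b, ha, hb, e, rfl⟩ := h
  refine ⟨by simp [rt, ← add_mul, e], ⟨a, b, ha, hb, e, by simp [rt, ← add_mul, e]⟩,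
    ⟨a, b, ha, hb, e, rfl⟩, ?_, ?_⟩
  · show l (a • (l x.2.2, l x.2.2) + b • x.2.2) = _
    rw [map_add, l.map_smul_of_tower, l.map_smul_of_tower, L.dg, ← add_smul, e, one_smul]
  · exact mem_closedBall_zero_iff.1 (convex_closedBall 0 _ (mem_closedBall_zero_iff.2
      (max_le (L.le _) (L.le _))) (mem_closedBall_zero_iff.2 le_rfl) ha hb e)

/-- The integral along the segments. -/
def pF (R : ℝ) (l : ℂ × ℂ →L[ℂ] ℂ) (f : Fin 6 → J × E6 → ℂ) (p : J × E6) : ℂ :=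
  ∫ s in (0 : ℝ)..1, ∑ i, zc i (p.2 - rt R l p.2) * f i (p.1, rt R l p.2 + s • (p.2 - rt R l p.2))

theorem Ln.pF0 (L : Ln l) (f : Fin 6 → J × E6 → ℂ) (j : J) (t : ℝ) :
    pF R l f (j, t, R, 1, 1) = 0 := by simp [pF, rt, L.dg]

theorem pd_co {E E' : Type} [NormedAddCommGroup E] [NormedSpace ℝ E] [NormedAddCommGroup E']
    [NormedSpace ℝ E'] {F : Filter J} {K : J → Set E} {K' : J → Set E'} {x0 : J → E}
    {L : E' →L[ℝ] E} (h : Mp F K' K (aff x0 L)) (l : E →L[ℝ] ℂ) (v : E') :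
    pd v (h.co l) = algebraMap ℂ _ (l (L v)) := by
  refine Rs.ext (h.rep_pd_co l v) (rs_alg _) (.of_forall fun p => ?_)
  have : fderiv ℝ (fun y => aff x0 L (p.1, y)) p.2 = L := (L.hasFDerivAt.const_add (x0 p.1)).fderiv
  simp only [this]

section
variable {F : Filter J} {K K' : J → Set E6} {α : Fin 6 → Sm (nb F K)}
  (hs : ∀ᶠ j in F, ∀ x ∈ K' j, segment ℝ (rt R l x) x ⊆ K j)
include hs

theorem m1 : Mp F K' K (aff (fun _ => 0) (.id ℝ E6)) :=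
  mp_res (hs.mono fun _ h x hx => h x hx (right_mem_segment _ _ _))
theorem m0 : Mp F K' K (aff (fun _ => (0, R, 0, 0)) (Pl l)) :=
  mp_aff _ _ (hs.mono fun j h x hx =>
    mem_of_eq_of_mem (aff_rt (j, x)) (h x hx (left_mem_segment _ _ _)))
theorem ms : ∀ᶠ j in F, ∀ x ∈ K' j, segment ℝ (aff (fun _ => (0, R, 0, 0)) (Pl l) (j, x))
    (aff (fun _ => 0) (.id ℝ E6) (j, x)) ⊆ K j :=
  hs.mono fun j h x hx => by rw [aff_rt]; simpa [aff] using h x hx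

def pl (α : Fin 6 → Sm (nb F K)) : Sm (nb F K') := pot (m1 hs) (m0 hs) (ms hs) α

theorem rs_pl {f : Fin 6 → J × E6 → ℂ} (r : ∀ i, Rs (α i) (f i)) : Rs (pl hs α) (pF R l f) :=
  (rs_pot _ _ _ r).congr (.of_forall fun p => by simp only [aff_rt, pF]; simp [aff])

theorem rs_co (k : E6 →L[ℝ] ℂ) :
    Rs ((m1 hs).co k - (m0 hs).co k) fun p => k (p.2 - rt R l p.2) :=
  ((rs_mk ((m1 hs).sm_co k)).sub (rs_mk ((m0 hs).sm_co k))).congr
    (.of_forall fun p => by simp only [aff_rt, map_sub]; simp [aff])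

variable [Gr F] {μ : ℕ → J → ℝ}
  (b : ∀ᶠ k in atTop, ∀ θ, ∃ C, ∀ᶠ j in ph F k θ, ∀ x ∈ K' j, ‖x - rt R l x‖ ≤ C) (hμ : Wgt μ)
include b

theorem bd_co (k : E6 →L[ℝ] ℂ) : Bd ((m1 hs).co k - (m0 hs).co k) := by
  refine dom_of wgt_one ?_ fun v => ?_
  · filter_upwards [b, evk (ev_nb_on (rs_co hs k))] with n h1 h2 θ
    obtain ⟨C, h1⟩ := h1 θ
    refine ⟨‖k‖ * |C|, by positivity, (h1.and (h2 θ)).mono fun j h x hx => ?_⟩
    rw [h.2 x hx, w1, mul_one]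
    exact k.le_of_opNorm_le_of_le le_rfl ((h.1 x hx).trans (le_abs_self C))
  · rw [D_sub, pd_co, pd_co, ← map_sub]; exact bd_alg _

include hμ

theorem pd_pl (c : Cl μ α) (w : E6) :
    Dom μ (pd w (pl hs α) - (fm (m1 hs) α w - fm (m0 hs) α w)) :=
  pd_pot _ _ _ (fun k v => by rw [pd_co]; exact bd_alg _) (bd_co hs b) hμ c w

theorem dom_pl (d : ∀ i, i ≠ 0 → Dom μ (α i)) : Dom μ (pl hs α) := by
  refine dom_pot _ _ _ (fun k v => by rw [pd_co]; exact bd_alg _) (bd_co hs b) hμ fun i => ?_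
  by_cases h : i = 0
  · exact Or.inr (sub_eq_zero.1 ((rs_co hs _).ext rs_zero (.of_forall fun p => by simp [h, zc, rt])))
  · exact Or.inl (d i h)

end

/-! ### The cut off -/

def ps (w : ℂ × ℂ) : ℂ :=
  Real.smoothTransition (2 * ‖w.1‖ ^ 2 / (‖w.1‖ ^ 2 + ‖w.2‖ ^ 2) - 1 / 2)

theorem ps_sm {w : ℂ × ℂ} (h : w ≠ 0) : ContDiffAt ℝ ∞ ps w := by
  have n : ‖w.1‖ ^ 2 + ‖w.2‖ ^ 2 ≠ 0 := fun e => h (Prod.ext
    (norm_eq_zero.1 (by nlinarith [norm_nonneg w.1, norm_nonneg w.2]))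
    (norm_eq_zero.1 (by nlinarith [norm_nonneg w.1, norm_nonneg w.2])))
  have a : ContDiffAt ℝ ∞ (fun w : ℂ × ℂ => ‖w.1‖ ^ 2) w := (contDiff_fst.norm_sq ℝ).contDiffAt
  have b : ContDiffAt ℝ ∞ (fun w : ℂ × ℂ => ‖w.2‖ ^ 2) w := (contDiff_snd.norm_sq ℝ).contDiffAt
  exact Complex.ofRealCLM.contDiff.contDiffAt.comp w (Real.smoothTransition.contDiffAt.comp w
    (((contDiffAt_const.mul a).div (a.add b) n).sub contDiffAt_const))

theorem ps_sc {z : ℂ} (h : z ≠ 0) (w : ℂ × ℂ) : ps (z • w) = ps w := by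
  have : ‖z‖ ^ 2 ≠ 0 := by simpa using h
  simp only [ps, Prod.smul_fst, Prod.smul_snd, norm_smul, mul_pow]
  rw [← mul_add, mul_left_comm, mul_div_mul_left _ _ this]

theorem ps_0 {w : ℂ × ℂ} (h : 2 * ‖w.1‖ < ‖w.2‖) : ps w = 0 := by
  have := norm_nonneg w.1
  rw [ps, Real.smoothTransition.zero_of_nonpos, Complex.ofReal_zero]
  rw [sub_nonpos, div_le_iff₀ (by nlinarith)]
  nlinarith

theorem ps_1 {w : ℂ × ℂ} (h : 2 * ‖w.2‖ < ‖w.1‖) : ps w = 1 := by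
  have := norm_nonneg w.2
  rw [ps, Real.smoothTransition.one_of_one_le, Complex.ofReal_one]
  rw [le_sub_iff_add_le, le_div_iff₀ (by nlinarith)]
  nlinarith

theorem ev_0 {x : E6} (h : 2 * ‖x.2.2.1‖ < ‖x.2.2.2‖) : ∀ᶠ y in 𝓝 x, ps y.2.2 = 0 :=
  ((isOpen_lt (f := fun y : E6 => 2 * ‖y.2.2.1‖) (by fun_prop) (by fun_prop)).eventually_mem h).mono
    fun _ => ps_0

theorem ev_1 {x : E6} (h : 2 * ‖x.2.2.2‖ < ‖x.2.2.1‖) : ∀ᶠ y in 𝓝 x, ps y.2.2 = 1 :=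
  ((isOpen_lt (f := fun y : E6 => 2 * ‖y.2.2.2‖) (by fun_prop) (by fun_prop)).eventually_mem h).mono
    fun _ => ps_1

theorem lt_0 {w : ℂ × ℂ} (h : w ≠ 0) (e : w.1 = 0) : 2 * ‖w.1‖ < ‖w.2‖ := by
  simpa [e] using fun k => h (Prod.ext e k)
theorem lt_1 {w : ℂ × ℂ} (h : w ≠ 0) (e : w.2 = 0) : 2 * ‖w.2‖ < ‖w.1‖ := by
  simpa [e] using fun k => h (Prod.ext k e)

/-- The glued potential. -/
def uF (R : ℝ) (f : Fin 6 → J × E6 → ℂ) (p : J × E6) : ℂ :=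
  pF R (.fst ℂ ℂ ℂ) f p + (1 - ps p.2.2.2) * (pF R (.snd ℂ ℂ ℂ) f p - pF R (.fst ℂ ℂ ℂ) f p)

theorem uF_congr {f : Fin 6 → J × E6 → ℂ} {p q : J × E6} (c : ℂ →+* ℂ) (h : p.2.2.2 ≠ 0)
    (e : c (ps q.2.2.2) = ps p.2.2.2)
    (k1 : p.2.2.2.1 ≠ 0 → c (pF R (.fst ℂ ℂ ℂ) f q) = pF R (.fst ℂ ℂ ℂ) f p)
    (k2 : p.2.2.2.2 ≠ 0 → c (pF R (.snd ℂ ℂ ℂ) f q) = pF R (.snd ℂ ℂ ℂ) f p) :
    c (uF R f q) = uF R f p := by
  simp only [uF, map_add, map_mul, map_sub, map_one, e]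
  by_cases h1 : p.2.2.2.1 = 0
  · rw [ps_0 (lt_0 h h1), k2 fun h2 => h (Prod.ext h1 h2)]; ring
  by_cases h2 : p.2.2.2.2 = 0
  · rw [ps_1 (lt_1 h h2), k1 h1]; ring
  rw [k1 h1, k2 h2]

/-! ### The global region -/

variable {m : Dm J} [Gr m.sF] (o : m.Ok) {α : Fin 6 → m.S} (L : Ln l)

section
include o L

theorem seg_om : ∀ᶠ j in m.F, ∀ x ∈ {x ∈ Om (m.D j) | l x.2.2 ≠ 0},
    segment ℝ (rt m.R1 l x) x ⊆ Om (m.D j) := by
  refine o.op.mono fun j k x hx y hy => ?_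
  obtain ⟨a, b, -, c, -⟩ := L.seg hy
  exact ⟨a ▸ (k.2 _ hx.1.1).2.1 b, fun e => hx.2 (by rw [← c, e, map_zero])⟩

theorem pF_congr {P : J × E6 → Prop} (h : ∀ᶠ j in m.F, ∀ x ∈ Om (m.D j), P (j, x)) :
    ∀ᶠ j in m.F, ∀ x ∈ Om (m.D j), l x.2.2 ≠ 0 → ∀ s ∈ uIcc (0 : ℝ) 1,
      P (j, rt m.R1 l x + s • (x - rt m.R1 l x)) :=
  (h.and (seg_om o L)).mono fun j k x hx n s hs => k.1 _ (k.2 x ⟨hx, n⟩ (by
    rw [segment_eq_image']; exact ⟨s, by rwa [uIcc_of_le zero_le_one] at hs, rfl⟩))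

end

theorem sm_uF (o : m.Ok) (α : Fin 6 → m.S) : SmF m.G (uF m.R1 fun i => rep (α i)) := by
  refine o.ev ?_
  filter_upwards [ev_nb_on (rs_pl (seg_om o ln1) fun i => rs_rep (α i)).sm,
    ev_nb_on (rs_pl (seg_om o ln2) fun i => rs_rep (α i)).sm] with j a b x hx
  by_cases h1 : x.2.2.1 = 0
  · refine (b x ⟨hx, fun h2 => hx.2 (Prod.ext h1 h2)⟩).congr_of_eventuallyEq
      ((ev_0 (lt_0 hx.2 h1)).mono fun y h => ?_)
    simp [sl, uF, h]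
  by_cases h2 : x.2.2.2 = 0
  · refine (a x ⟨hx, h1⟩).congr_of_eventuallyEq ((ev_1 (lt_1 hx.2 h2)).mono fun y h => ?_)
    simp [sl, uF, h]
  exact (a x ⟨hx, h1⟩).add ((contDiffAt_const.sub (ContDiffAt.comp (g := ps) x (ps_sm hx.2)
    (by fun_prop))).mul ((b x ⟨hx, h2⟩).sub (a x ⟨hx, h1⟩)))

omit [Gr m.sF] in
theorem inv_sc (B : Bas α) : ∀ᶠ j in m.F, ∀ x ∈ Om (m.D j), ∀ w y i,
    zc i (sc (Complex.exp w) y) * rep (α i) (j, sc (Complex.exp w) x) = zc i y * rep (α i) (j, x) := by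
  have hB : ∀ i, m.h.B (α i) = algebraMap ℂ _ (-hw (bz i)) * α i := fun i => by
    have e : α i = cj (α (bz i)) := by rw [B.re]; fin_cases i <;> rfl
    rw [e, ← P354XO.cj_H, B.wt, map_mul, cj_alg, ← e]
    fin_cases i <;> simp [hw, bz]
  refine (eventually_all.2 fun i => P354XO.ev_hom (B.wt i) (hB i)).mono fun j h x hx w y i => ?_
  rw [h i x hx w, ← mul_assoc]
  congr 1
  fin_cases i <;> simp [zc, sc_ap, hw, bz, Complex.exp_neg, ← Complex.exp_conj] <;> field_simp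

theorem key0 (o : m.Ok) (B : Bas α) (w : E6) : ∀ᶠ p in m.G, l p.2.2.2 ≠ 0 →
    ∑ i, zc i (Pl l w) * rep (α i) (p.1, rt m.R1 l p.2) =
      zc 0 w * rep (α 0) (p.1, p.2.1, m.R1, 1, 1) := by
  have v := B.ver
  have v' := congrArg cj v
  simp only [map_add, map_mul, map_zero, B.re] at v'
  have c2 : cj (m.h.z 2) = m.h.z 4 := o.is.z2
  have c3 : cj (m.h.z 3) = m.h.z 5 := o.is.z3
  rw [c2, c3] at v'
  refine o.ev ?_
  filter_upwards [o.op, inv_sc B, ev_nb_on ((((rs_z 2).mul (rs_rep (α 2))).add ((rs_z 3).mul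
    (rs_rep (α 3)))).eq (v ▸ rs_zero)), ev_nb_on ((((rs_z 4).mul (rs_rep (α (bz 2)))).add
    ((rs_z 5).mul (rs_rep (α (bz 3))))).eq (v' ▸ rs_zero))] with j k a b c x hx n
  have d := (k.2 _ hx.1).2.1 (left_mem_segment _ _ _)
  have e : rt m.R1 l x ∈ Om (m.D j) := ⟨d, fun e => n (congrArg Prod.fst e)⟩
  have a := a (x.1, m.R1, 1, 1) ⟨d, by simp⟩ (Complex.log (l x.2.2)) (1, 0) 0
  have b := b _ e
  have c := c _ e
  rw [Complex.exp_log n] at a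
  simp [zc, sc_ap, rt, bz, ← mul_add, n] at a b c
  simp [Fin.sum_univ_six, zc, Pl_ap, rt, a]
  linear_combination l w.2.2 * b + starRingEnd ℂ (l w.2.2) * c

/-! ### The slices -/

def SL (l : ℂ × ℂ →L[ℂ] ℂ) : Set (ℂ × ℂ) := {w | 1 / 16 ≤ ‖l w‖ ∧ ‖w‖ ≤ 4}

variable {S : Set (ℂ × ℂ)} (hS : S ⊆ SL l)

include L in
theorem Ln.sa : SL l ⊆ SA := fun w h => ⟨h.1.trans (L.le w), h.2⟩

include o L hS in
theorem seg_sl : ∀ᶠ q in m.sF, ∀ x ∈ m.sl.K S q, segment ℝ (rt m.R1 l x) x ⊆ m.sl.K SA q := by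
  refine evk_of (o.sl.mono fun n h θ => ?_)
  obtain ⟨_, _, -, k⟩ := h θ
  refine k.mono fun j k x hx y hy => ?_
  obtain ⟨a, -, b, c, d⟩ := L.seg hy
  exact ⟨a.trans hx.1, k.2.2 _ hx.2.1 b, L.sa ⟨c ▸ (hS hx.2.2).1, d.trans (hS hx.2.2).2⟩⟩

include o L hS in
theorem bd_sl : ∀ᶠ k in atTop, ∀ θ, ∃ C, ∀ᶠ q in ph m.sF k θ, ∀ x ∈ m.sl.K S q,
    ‖x - rt m.R1 l x‖ ≤ C := by
  refine o.sl.mono fun n h θ => ?_
  obtain ⟨ra, rb, -, k⟩ := h θ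
  refine ⟨max |rb - ra| 8, k.mono fun q k x hx => max_le (by simp [rt]) (max_le_max ?_ ?_)⟩
  · have a := k.2.1 k.1
    have b := k.2.1 hx.2.1
    exact (abs_le.2 ⟨by linarith [a.2, b.1], by linarith [a.1, b.2]⟩ :
      |x.2.1 - m.sl.R1| ≤ rb - ra).trans (le_abs_self _)
  · have a := (hS hx.2.2).2
    have b : ‖(l x.2.2, l x.2.2)‖ ≤ ‖x.2.2‖ := max_le (L.le _) (L.le _)
    exact (norm_sub_le _ _).trans (show ‖x.2.2‖ + ‖(l x.2.2, l x.2.2)‖ ≤ 8 by linarith)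

/-- The potential on the slices. -/
def pS (α : Fin 6 → m.S) : m.R S := pl (seg_sl o L hS) fun i => o.rx le_rfl (α i)

theorem rs_pS (α : Fin 6 → m.S) :
    Rs (pS o L hS α) fun p => pF m.R1 l (fun i => rep (α i)) (m.ka p.1, p.2) :=
  (rs_pl (seg_sl o L hS) (f := fun i p => rep (α i) (m.ka p.1, p.2))
    fun i => (o.rxx le_rfl).rep (α i)).congr (.of_forall fun _ => rfl)

/-- The form without its time component on the base curve. -/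
def be (α : Fin 6 → m.S) (i : Fin 6) : m.S := α i - if i = 0 then o.bs (α 0) else 0
def Be (α : Fin 6 → m.S) (w : E6) : m.S := ∑ i, algebraMap ℂ _ (zc i w) * be o α i

variable {μ : ℕ → m.Q → ℝ} (hμ : Wgt μ)
include hμ

theorem dom_pS (d : ∀ i, i ≠ 0 → o.DA μ (α i)) : Dom μ (pS o L hS α) :=
  dom_pl _ (bd_sl o L hS) hμ d

theorem pd_pS (B : Bas α) (c : ∀ i k, o.DA μ (m.h.d i (α k) - m.h.d k (α i))) (w : E6) :
    Dom μ (pd w (pS o L hS α) - o.rx (hS.trans L.sa) (Be o α w)) := by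
  have := pd_pl (seg_sl o L hS) (bd_sl o L hS) hμ (α := fun i => o.rx le_rfl (α i))
    (fun i k => by simpa only [Dm.Ok.DA, map_sub, (o.hh le_rfl).d] using c i k) w
  have e1 : ∀ f, (m1 (seg_sl o L hS)).pb (o.rx le_rfl f) = o.rx (hS.trans L.sa) f :=
    o.rs_rx le_rfl (hS.trans L.sa)
  have e0 : fm (m0 (seg_sl o L hS)) (fun i => o.rx le_rfl (α i)) w =
      algebraMap ℂ _ (zc 0 w) * o.rx (hS.trans L.sa) (o.bs (α 0)) := by
    rw [fm_aff]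
    refine (Rs.sum _ fun i => (rs_alg _).mul (rs_pb _ ((o.rxx le_rfl).rep (α i)))).ext
      ((rs_alg _).mul ((o.rxx (hS.trans L.sa)).rs (o.rs_bs _))) ?_
    have n : ∀ᶠ p in m.sl.G m.sF S, l p.2.2.2 ≠ 0 := ev_nb.2 (.of_forall fun q x hx =>
      ContinuousAt.eventually_ne (g := fun y : E6 => l y.2.2) (by fun_prop)
        (norm_pos_iff.1 (lt_of_lt_of_le (by norm_num) (hS hx.2.2).1)))
    filter_upwards [n, (o.rxx (hS.trans L.sa)).ev (key0 (l := l) o B w)] with p h1 h2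
    simpa only [aff_rt] using h2 h1
  rw [e0, fm_aff] at this
  simpa [Be, be, e1, Fin.sum_univ_six, mul_sub, sub_add_eq_add_sub, pS] using this

theorem cov {S1 S2 S3 : Set (ℂ × ℂ)} (h : S ⊆ SA) (h1 : S1 ⊆ SA) (h2 : S2 ⊆ SA) (h3 : S3 ⊆ SA)
    (c : S ⊆ S1 ∪ S2 ∪ S3) {a : m.S} (d1 : Dom μ (o.rx h1 a)) (d2 : Dom μ (o.rx h2 a))
    (d3 : Dom μ (o.rx h3 a)) : Dom μ (o.rx h a) := by
  refine dom_of_tn ((o.rxx h).rep a) ?_
  filter_upwards [d1.tn ((o.rxx h1).rep a), d2.tn ((o.rxx h2).rep a), d3.tn ((o.rxx h3).rep a)]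
    with q e1 e2 e3 θ w hw
  obtain ⟨C1, c1, e1⟩ := e1 θ w hw
  obtain ⟨C2, c2, e2⟩ := e2 θ w hw
  obtain ⟨C3, c3, e3⟩ := e3 θ w hw
  refine ⟨C1 + C2 + C3, by positivity, ?_⟩
  filter_upwards [e1, e2, e3] with j e1 e2 e3 x hx
  have := mul_nonneg c1 (hμ.nonneg q.2 j)
  have := mul_nonneg c2 (hμ.nonneg q.2 j)
  have := mul_nonneg c3 (hμ.nonneg q.2 j)
  rcases c hx.2.2 with (k | k) | k
  · linarith [e1 x ⟨hx.1, hx.2.1, k⟩]
  · linarith [e2 x ⟨hx.1, hx.2.1, k⟩]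
  · linarith [e3 x ⟨hx.1, hx.2.1, k⟩]

omit hμ in
theorem ex_ps (h : S ⊆ SA) : ∃ ψ : m.R S, Bd ψ ∧ Rs ψ fun p => ps p.2.2.2 := by
  have k : Mp m.sF (m.sl.K S) (fun _ => SA) (aff (fun _ => 0)
      ((ContinuousLinearMap.snd ℝ ℝ _).comp (ContinuousLinearMap.snd ℝ ℝ _))) :=
    mp_aff _ _ (.of_forall fun q x hx => by simpa using h hx.2.2)
  obtain ⟨s, b⟩ := bd_fn' (F := m.sF) (K := fun _ => SA) (C := SA) (φ := ps)
    ((isCompact_closedBall 0 4).of_isClosed_subset (isClosed_Icc.preimage continuous_norm)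
      fun w h => mem_closedBall_zero_iff.2 h.2) (.of_forall fun _ => le_rfl)
    isOpen_compl_singleton (fun w h => sa_ne h) fun w h => (ps_sm h).contDiffWithinAt
  exact ⟨_, dom_pb_aff k b, (k.rep_pb _).trans ((k.ev (rep_mk (fun p => ps p.2) s)).mono
    fun p h => h.trans (by simp [aff]))⟩

omit hμ in
theorem cj_uF (o : m.Ok) (B : Bas α) : ∀ᶠ j in m.F, ∀ x ∈ Om (m.D j), starRingEnd ℂ
    (uF m.R1 (fun i => rep (α i)) (j, x)) = uF m.R1 (fun i => rep (α i)) (j, x) := by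
  have k : ∀ᶠ j in m.F, ∀ x ∈ Om (m.D j), ∀ i,
      starRingEnd ℂ (rep (α i) (j, x)) = rep (α (bz i)) (j, x) :=
    (eventually_all.2 fun i => ev_nb_on (rep_cj (α i))).mono fun j h x hx i =>
      (h i x hx).symm.trans (by rw [B.re])
  have k2 := fun l L => pF_congr (l := l) o L
    (P := fun p => ∀ i, starRingEnd ℂ (rep (α i) p) = rep (α (bz i)) p) k
  filter_upwards [k2 _ ln1, k2 _ ln2] with j a b x hx
  have c : ∀ l : ℂ × ℂ →L[ℂ] ℂ, (∀ s ∈ uIcc (0 : ℝ) 1, ∀ i, starRingEnd ℂ (rep (α i)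
      (j, rt m.R1 l x + s • (x - rt m.R1 l x))) = rep (α (bz i))
      (j, rt m.R1 l x + s • (x - rt m.R1 l x))) → starRingEnd ℂ (pF m.R1 l (fun i => rep (α i))
      (j, x)) = pF m.R1 l (fun i => rep (α i)) (j, x) := fun l h => by
    have e : ∀ f : ℝ → ℂ, starRingEnd ℂ (∫ s in (0 : ℝ)..1, f s) =
        ∫ s in (0 : ℝ)..1, starRingEnd ℂ (f s) := fun f => by
      simp only [intervalIntegral, map_sub, integral_conj]
    refine (e _).trans (intervalIntegral.integral_congr fun s hs => ?_)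
    simp only [map_sum, map_mul, h s hs]
    simp [Fin.sum_univ_six, zc, bz]
    ring
  exact uF_congr _ hx.2 (Complex.conj_ofReal _) (fun h => c _ (a x hx h)) fun h => c _ (b x hx h)

omit hμ in
theorem sc_uF (o : m.Ok) (B : Bas α) : ∀ᶠ j in m.F, ∀ x ∈ Om (m.D j), ∀ w,
    uF m.R1 (fun i => rep (α i)) (j, sc (Complex.exp w) x) = uF m.R1 (fun i => rep (α i)) (j, x) := by
  have k2 := fun l L => pF_congr (l := l) o L (P := fun p => ∀ w y i, zc i (sc (Complex.exp w) y) *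
    rep (α i) (p.1, sc (Complex.exp w) p.2) = zc i y * rep (α i) p) (inv_sc B)
  filter_upwards [k2 _ ln1, k2 _ ln2] with j a b x hx w
  refine uF_congr (.id ℂ) hx.2 (ps_sc (Complex.exp_ne_zero w) _) (fun h => ?_) fun h => ?_ <;>
    refine intervalIntegral.integral_congr fun s hs => Finset.sum_congr rfl fun i _ => ?_ <;>
    simp only [rt_sc, ← map_sub (sc _), ← map_smul (sc _), ← map_add (sc _)]
  exacts [a x hx h s hs w _ i, b x hx h s hs w _ i]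

omit hμ in
theorem d_Be (i : Fin 6) (u : m.S) : m.h.d i u - be o α i =
    algebraMap ℂ _ (d1 i) * (pd (v1 i) u - Be o α (v1 i)) +
      algebraMap ℂ _ (d2 i) * (pd (v2 i) u - Be o α (v2 i)) := by
  have e : be o α i = ∑ k, algebraMap ℂ m.S (d1 i * zc k (v1 i) + d2 i * zc k (v2 i)) *
      be o α k := by
    simp only [← P354XO.d_lin, ← P354XO.z_lin, P354XO.d_z]
    simp
  rw [e, hp_d]
  simp only [Be, map_add, map_mul, add_mul, Finset.sum_add_distrib, mul_sub, Finset.mul_sum,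
    mul_assoc]
  ring

omit hμ in
/-- The potential. -/
theorem pot_of (hc : CONN) : POT := by
  intro J m _ o α B
  have r := rs_mk (sm_uF o α)
  generalize mk _ (sm_uF o α) = u at r
  refine ⟨u, r.cj.ext r (o.ev (cj_uF o B)), ?_, Rs.ext ((o.mp.rep_pb u).trans (o.mp.ev r)) rs_zero
    (.of_forall fun p => ?_), fun μ hμ => ?_⟩
  · simpa using (P354XO.wt_of r (m := 0) (n := 0)
      (o.ev ((sc_uF o B).mono fun j h x hx w => by simpa using h x hx w))).1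
  · simp [aff, Dm.pt, uF, ln1.pF0, ln2.pF0]
  have s1 : SO ⊆ SL (.fst ℂ ℂ ℂ) := fun w h => ⟨h.1.1, max_le h.1.2 h.2.2⟩
  have s2 : SO ⊆ SL (.snd ℂ ℂ ℂ) := fun w h => ⟨h.2.1, max_le h.1.2 h.2.2⟩
  have t1 : {w ∈ SL (.fst ℂ ℂ ℂ) | 2 * ‖w.2‖ < ‖w.1‖} ⊆ _ := sep_subset _ _
  have t2 : {w ∈ SL (.snd ℂ ℂ ℂ) | 2 * ‖w.1‖ < ‖w.2‖} ⊆ _ := sep_subset _ _
  have cv : SB ⊆ SO ∪ {w ∈ SL (.fst ℂ ℂ ℂ) | 2 * ‖w.2‖ < ‖w.1‖} ∪
      {w ∈ SL (.snd ℂ ℂ ℂ) | 2 * ‖w.1‖ < ‖w.2‖} := fun w h => by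
    have a := le_max_iff.1 h.1
    have b := max_le_iff.1 h.2
    by_cases h1 : ‖w.1‖ < 1 / 16
    · have := a.resolve_left (by linarith)
      exact Or.inr ⟨⟨show _ ≤ ‖w.2‖ by linarith, h.2⟩, by linarith⟩
    by_cases h2 : ‖w.2‖ < 1 / 16
    · have := a.resolve_right (by linarith)
      exact Or.inl (Or.inr ⟨⟨show _ ≤ ‖w.1‖ by linarith, h.2⟩, by linarith⟩)
    exact Or.inl (Or.inl ⟨⟨not_lt.1 h1, b.1⟩, not_lt.1 h2, b.2⟩)
  obtain ⟨ψ, bψ, rψ⟩ := ex_ps (m := m) so_sa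
  have b1 := bd_one.sub wgt_one bψ
  have e0 : o.rx so_sa u = pS o ln1 s1 α + (1 - ψ) * (pS o ln2 s2 α - pS o ln1 s1 α) :=
    ((o.rxx so_sa).rs r).ext ((rs_pS o ln1 s1 α).add ((rs_one.sub rψ).mul
      ((rs_pS o ln2 s2 α).sub (rs_pS o ln1 s1 α)))) (.of_forall fun _ => rfl)
  have e1 : o.rx (t1.trans ln1.sa) u = pS o ln1 t1 α :=
    ((o.rxx (t1.trans ln1.sa)).rs r).ext (rs_pS o ln1 t1 α)
    (ev_nb.2 (.of_forall fun q x hx => (ev_1 hx.2.2.2).mono fun y h => by simp [uF, h]))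
  have e2 : o.rx (t2.trans ln2.sa) u = pS o ln2 t2 α :=
    ((o.rxx (t2.trans ln2.sa)).rs r).ext (rs_pS o ln2 t2 α)
    (ev_nb.2 (.of_forall fun q x hx => (ev_0 hx.2.2.2).mono fun y h => by simp [uF, h]))
  refine ⟨fun c => ?_, fun d => cov o hμ _ so_sa _ _ cv ?_ (e1 ▸ dom_pS o ln1 t1 hμ d)
    (e2 ▸ dom_pS o ln2 t2 hμ d)⟩
  · have rp : ∀ {S} (h : S ⊆ SA) v a, o.rx h (pd v a) = pd v (o.rx h a) :=
      fun h => (o.rxx h).rix_pd
    have k : ∀ w, o.DB μ (pd w u - Be o α w) := fun w => by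
      refine cov o hμ _ so_sa (t1.trans ln1.sa) (t2.trans ln2.sa) cv ?_ ?_ ?_ <;> rw [map_sub, rp]
      · have hx := o.x0 one_so
        have := dom_sub_ev0 hμ (o.conn hc).2 hx
          (a := pS o ln2 s2 α - pS o ln1 s1 α) fun v => by
            simpa using (pd_pS o ln2 s2 hμ B c v).sub hμ (pd_pS o ln1 s1 hμ B c v)
        rw [show ev0 m.sl.x0 hx (pS o ln2 s2 α - pS o ln1 s1 α) = 0 from
          (rs_pb _ ((rs_pS o ln2 s2 α).sub (rs_pS o ln1 s1 α))).ext rs_zero (.of_forall fun p => by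
            simp [aff, Sl.x0, Dm.sl, ln1.pF0, ln2.pF0]), sub_zero] at this
        rw [e0, D_add, add_sub_right_comm]
        exact (pd_pS o ln1 s1 hμ B c w).add hμ ((b1.bmul hμ this).pd w)
      · exact e1 ▸ pd_pS o ln1 t1 hμ B c w
      · exact e2 ▸ pd_pS o ln2 t2 hμ B c w
    have k2 : ∀ i, o.DB μ (m.h.d i u - be o α i) := fun i => by
      rw [d_Be, Dm.Ok.DB, map_add, map_mul, map_mul, AlgHom.commutes, AlgHom.commutes]
      exact ((bd_alg _).bmul hμ (k _)).add hμ ((bd_alg _).bmul hμ (k _))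
    exact ⟨by simpa [be, sub_sub_eq_add_sub, sub_add_eq_add_sub] using k2 0,
      fun i h => by simpa [be, h] using k2 i⟩
  · rw [e0]
    exact (dom_pS o ln1 s1 hμ d).add hμ
      (b1.bmul hμ ((dom_pS o ln2 s2 hμ d).sub hμ (dom_pS o ln1 s1 hμ d)))

end Vale.Agent.P354NP
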