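import Vale.Agent.P354SA.FD
import Vale.Agent.P354SG.Cb
import Vale.Agent.P354SG.Sc
import Mathlib.Analysis.Calculus.ImplicitContDiff

/-!
Implicit functions: ROOT and IMPJ.
-/

open scoped ContDiff Nat
open Set Filter Topology

noncomputable section

namespace Vale.Agent.P354NP

open Vale.Agent.P354n (R4)
open Vale.Agent.P354H (X3)
open Vale.Agent.P354YQ (SA JB JD)
open Vale.Agent.P354SA
open Vale.Agent.P354SG.Cq (jb_mul jb_cmul jb_inv)

theorem root0 {F : R4 → ℝ} {S : X3 → ℝ} {x : X3} {a c : ℝ} (h : ContDiffAt ℝ ∞ F (S x, x))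
    (h0 : F (S x, x) = 0) (hd : fderiv ℝ F (S x, x) e0 ≠ 0) (hc : |S x - c| < a)
    (hu : ∀ᶠ y in 𝓝 x, ∀ s, |s - c| < a → F (s, y) = 0 → s = S y) :
    ContDiffAt ℝ ∞ S x ∧ ∀ᶠ y in 𝓝 x, F (S y, y) = 0 := by
  have hf : ContDiffAt ℝ ∞ (fun w : X3 × ℝ => F (w.2, w.1)) (x, S x) :=
    ContDiffAt.comp (g := F) (x, S x) h (contDiffAt_snd.prodMk contDiffAt_fst)
  have pn : (∞ : WithTop ℕ∞) ≠ 0 := by simp
  have d1 := (hf.differentiableAt pn).hasFDerivAt.comp (S x) (hasFDerivAt_prodMk_right x (S x))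
  have d2 := HasFDerivAt.comp (f := fun s : ℝ => ((s, x) : R4)) (S x)
    (h.differentiableAt pn).hasFDerivAt (hasFDerivAt_prodMk_left (S x) x)
  have hi : (fderiv ℝ (fun w : X3 × ℝ => F (w.2, w.1)) (x, S x) ∘L
      ContinuousLinearMap.inr ℝ X3 ℝ).IsInvertible := by
    rw [d1.unique d2]
    refine ⟨ContinuousLinearEquiv.unitsEquivAut ℝ (Units.mk0 _ hd), ?_⟩
    ext
    simp [e0]
    rfl
  have h1 := hf.contDiffAt_implicitFunction pn hi
  have h2 := hf.eventually_apply_implicitFunction pn hi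
  have h3 := hf.implicitFunction_apply_self pn hi
  generalize hf.implicitFunction pn hi = ψ at h1 h2 h3
  have h4 : ∀ᶠ y in 𝓝 x, |ψ y - c| < a :=
    (h1.continuousAt.sub_const c).abs.eventually_lt_const (by rw [h3]; exact hc)
  have e : ∀ᶠ y in 𝓝 x, ψ y = S y := by
    filter_upwards [h2, h4, hu] with y a b c using c _ b (a.trans h0)
  refine ⟨h1.congr_of_eventuallyEq (e.mono fun _ m => m.symm), ?_⟩
  filter_upwards [h2, e] with y a b using b ▸ a.trans h0

/-- **ROOT.** -/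
theorem root : ROOT := fun F S x a ha h h0 hd hu => by
  obtain ⟨c, e⟩ := root0 h.at h0 hd (by simpa using ha) hu
  have k : ContinuousAt (fun y => (S y, y)) x := c.continuousAt.prodMk continuousAt_id
  refine ⟨?_, e⟩
  filter_upwards [e, k.eventually h, hu.eventually_nhds,
    k.eventually ((h.fderiv.cont.clm_apply continuousAt_const).eventually_ne hd),
    (c.continuousAt.sub_const (S x)).abs.eventually_lt_const (u := a) (by simpa using ha)]
    with y a1 a2 a3 a4 a5 using (root0 a2 a1 a4 a5 a3).1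

/-- The jets of a reciprocal. -/
theorem jb_rcp (n : ℕ) (A C : ℝ) : ∃ K, 0 ≤ K ∧ ∀ (X : Type) [NormedAddCommGroup X]
    [NormedSpace ℝ X] (G : X → ℝ) (x : X), JB n G x A → 0 < C → C⁻¹ ≤ |G x| →
    JB n (fun y => (G y)⁻¹) x K := by
  let D := max 1 (C ^ 2)
  let B := max 1 (2 ^ n * A * A)
  refine ⟨2 ^ n * |A| * (n ! * (n ! * D ^ (n + 1)) * B ^ n), by positivity,
    fun X _ _ G x h C0 hC => ?_⟩
  have q : D⁻¹ ≤ G x * G x := by
    refine (inv_anti₀ (by positivity) (le_max_right _ _)).trans ?_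
    rw [← inv_pow, ← abs_mul_abs_self, ← pow_two]
    exact pow_le_pow_left₀ (by positivity) hC 2
  have a := JB.comp (u := Inv.inv) (f := fun y => G y * G y) (jb_inv (n := n) (le_max_left _ _) q)
    ((jb_mul h h).jd.mono (le_max_right 1 _)) (le_max_left _ _)
  refine (jb_mul (h.mono (le_abs_self A)) a).congr (.of_forall fun y => ?_)
  by_cases e : G y = 0
  · simp [e]
  · field_simp

theorem imp_d {F : R4 → ℝ} {S : X3 → ℝ} {x : X3} (hS : SA S x) (hF : SA F (S x, x))
    (h : ∀ᶠ y in 𝓝 x, F (S y, y) = 0) (v : X3) :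
    fderiv ℝ S x v * fderiv ℝ F (S x, x) e0 + fderiv ℝ F (S x, x) (0, v) = 0 := by
  have d := HasFDerivAt.comp (f := fun y => ((S y, y) : R4)) x hF.diff.hasFDerivAt
    (hS.diff.hasFDerivAt.prodMk (hasFDerivAt_id x))
  have e := congrArg (· v) (d.unique ((hasFDerivAt_const (0 : ℝ) x).congr_of_eventuallyEq h))
  have q : ((fderiv ℝ S x v, v) : R4) = fderiv ℝ S x v • e0 + (0, v) := by simp [e0, Prod.ext_iff]
  simp only [ContinuousLinearMap.comp_apply, ContinuousLinearMap.prod_apply,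
    ContinuousLinearMap.id_apply, q, map_add, map_smul] at e
  exact e

theorem e0_le : ‖e0‖ ≤ 1 := by simp [e0, Prod.norm_def]

/-- **IMPJ.** -/
theorem impj : IMPJ := fun n C => by
  induction n with
  | zero => exact ⟨1, le_rfl, fun F S x h _ _ _ _ => JD.zero h⟩
  | succ n ih =>
    obtain ⟨C1, h1, ih⟩ := ih
    obtain ⟨K, K0, hK⟩ := jb_rcp n (n ! * C * C1 ^ n) C
    refine ⟨max 1 (2 ^ n * (|-1| * K) * (n ! * C * C1 ^ n)), le_max_left _ _,
      fun F S x hS h hF C0 hC => ?_⟩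
    have a := hF.fderiv.comp (f := fun y => (S y, y))
      ((ih F S x hS h (hF.ord n.le_succ) C0 hC).prod (JD.id.mono h1)) h1
    have b := P354SG.jb_cl (.apply ℝ ℝ e0) (ContinuousLinearMap.opNorm_le_bound _ zero_le_one
      fun L => (L.le_opNorm e0).trans (by nlinarith [norm_nonneg L, e0_le])) a
    have c := P354SG.jb_cl ((ContinuousLinearMap.compL ℝ X3 R4 ℝ).flip (.inr ℝ ℝ X3))
      (ContinuousLinearMap.opNorm_le_bound _ zero_le_one fun L => (L.opNorm_comp_le _).trans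
        (by nlinarith [norm_nonneg L, ContinuousLinearMap.norm_inr_le_one ℝ ℝ X3])) a
    refine (JD.of_fderiv hS (((jb_cmul (-1) (hK X3 _ x b C0 hC)).smul c).congr ?_)).mono
      (le_max_right _ _)
    have k : ContinuousAt (fun y => (S y, y)) x := hS.cont.prodMk continuousAt_id
    have n0 : fderiv ℝ F (S x, x) e0 ≠ 0 := fun e => by
      rw [e, abs_zero] at hC
      exact (inv_pos.2 C0).not_ge hC
    filter_upwards [hS.ev, k.eventually hF.sm.ev, h.eventually_nhds, b.sm.cont.eventually_ne n0]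
      with y a1 a2 a3 a4
    refine ContinuousLinearMap.ext fun v => ?_
    have := imp_d a1 a2 a3 v
    change fderiv ℝ F (S y, y) e0 ≠ 0 at a4
    change _ = -1 * (fderiv ℝ F (S y, y) e0)⁻¹ * fderiv ℝ F (S y, y) (0, v)
    field_simp
    linarith

end Vale.Agent.P354NP
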