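import Vale.Agent.P354RI.Tri

/-!
The algebra of the time function and of the spinor coordinates.
-/

set_option linter.unusedSimpArgs false

noncomputable section

namespace Vale.Agent.P354NP

open Vale.Agent.P354XG Vale.Agent.P354XG.Geo Vale.Agent.P354XR Vale.Agent.P354RI

variable {A : Type} [CommRing A] [StarRing A] [Algebra ℂ A] {T : TD A} {K : KC A}

/-- The form which is dual to the axial field, and its derivative. -/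
def kap (K : KC A) (e : Fin 6 → A) : A := (e 4 - e 5) * K.x - e 2 * K.sb + e 3 * K.s
def kv (K : KC A) (e f : Fin 6 → A) : A :=
  (e 4 - e 5) * (K.sb * f 2 + K.s * f 3) + 2 * K.x * e 2 * f 3

omit [StarRing A] in
theorem yf_kc (h : K.Is) (k : Fin 6) :
    K.rh2 * kc K 0 k - K.rh * kc K 1 k - K.ta2 * kc K 2 k + K.ta * kc K 3 k =
      ![2 * K.z, 0, 0, 0, -(K.M * K.z ^ 3), -(K.M * K.z * K.zb ^ 2)] k := by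
  fin_cases k <;> simp only [kc, Fin.reduceFinMk, Matrix.cons_val, KC.rh, KC.rh2, KC.ta, KC.ta2,
    KC.z, KC.zb, KC.ee, KC.De, KC.W, map_mul, map_add, map_sub, map_neg, map_ofNat, h.tab]
  · linear_combination
      (K.a ^ 2 * K.r * K.s * K.sb * K.sg ^ 2 + K.a ^ 2 * K.r ^ 3 * K.s * K.sb * K.sg ^ 3 + K.a ^ 3
      * ii A * K.r ^ 2 * K.s * K.sb * K.sg ^ 3 * K.x + K.a ^ 3 * ii A * K.s * K.sb * K.sg ^ 2 * K.x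
      - K.a ^ 4 * ii A ^ 2 * K.r * K.s * K.sb * K.sg ^ 3 * K.x ^ 2 + K.a ^ 4 * K.r * K.s * K.sb * K.sg ^ 3
      * K.x ^ 2 + K.a ^ 5 * ii A * K.s * K.sb * K.sg ^ 3 * K.x ^ 3 - K.a ^ 5 * ii A ^ 3 * K.s * K.sb
      * K.sg ^ 3 * K.x ^ 3) * ii_sq (A := A) + (-K.a ^ 2 * K.r * K.sg ^ 2 - K.a ^ 2 * K.r ^ 3 * K.sg ^ 3
      - K.a ^ 3 * ii A * K.r ^ 2 * K.sg ^ 3 * K.x - K.a ^ 3 * ii A * K.sg ^ 2 * K.x - K.a ^ 4 * K.r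
      * K.sg ^ 3 * K.x ^ 2 - K.a ^ 5 * ii A * K.sg ^ 3 * K.x ^ 3) * h.hs + (2 * K.a * ii A * K.r ^ 2
      * K.sg ^ 2 * K.x + 2 * K.a ^ 2 * K.r * K.sg ^ 2 + 2 * K.a ^ 3 * ii A * K.sg ^ 2 * K.x + 2 * K.r ^ 3
      * K.sg ^ 2) * h.hN + (2 * K.a * ii A * K.sg * K.x - K.a ^ 2 * K.r * K.sg ^ 2 + K.a ^ 2 * K.r
      * K.sg ^ 2 * K.x ^ 2 - K.a ^ 3 * ii A * K.sg ^ 2 * K.x + K.a ^ 3 * ii A * K.sg ^ 2 * K.x ^ 3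
      + 2 * K.r * K.sg) * h.hg
  · ring
  · linear_combination
      (K.N * K.Ni * K.a ^ 2 * K.s * K.sg ^ 2 * K.x - K.a ^ 2 * K.s * K.sg ^ 2 * K.x) * ii_sq (A := A)
      + (K.a * ii A * K.r * K.s * K.sg ^ 2 - K.a ^ 2 * K.s * K.sg ^ 2 * K.x) * h.hN
  · linear_combination
      (-K.N * K.Ni * K.a ^ 2 * K.sb * K.sg ^ 2 * K.x + K.a ^ 2 * K.r ^ 2 * K.sb * K.sg ^ 3 * K.x
      - K.a ^ 3 * ii A * K.r * K.sb * K.sg ^ 3 * K.x ^ 2 - K.a ^ 4 * ii A ^ 2 * K.sb * K.sg ^ 3 * K.x ^ 3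
      + K.a ^ 4 * K.sb * K.sg ^ 3 * K.x ^ 3) * ii_sq (A := A) + (-K.a * ii A * K.r * K.sb * K.sg ^ 2
      + K.a ^ 2 * K.sb * K.sg ^ 2 * K.x) * h.hN + (K.a * ii A * K.r * K.sb * K.sg ^ 2 - K.a ^ 2 * K.sb
      * K.sg ^ 2 * K.x) * h.hg
  · linear_combination
      (-2 * K.M * K.N * K.Ni * K.a ^ 2 * K.r * K.sg ^ 3 * K.x ^ 2 + 3 * K.M * K.a ^ 2 * K.r * K.sg ^ 3
      * K.x ^ 2 + K.M * K.a ^ 3 * ii A * K.sg ^ 3 * K.x ^ 3 + K.N * K.Ni * K.a ^ 2 * K.r ^ 2 * K.sg ^ 3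
      * K.x ^ 2 - K.N * K.Ni * K.a ^ 2 * K.sg ^ 2 * K.x ^ 2 + K.N * K.Ni * K.a ^ 4 * K.sg ^ 3 * K.x ^ 2
      + K.a ^ 2 * K.r ^ 2 * K.s * K.sb * K.sg ^ 3 + K.a ^ 3 * ii A * K.r * K.s * K.sb * K.sg ^ 3
      * K.x - K.a ^ 4 * K.r ^ 2 * K.s * K.sb * K.sg ^ 4 * K.x ^ 2 + K.a ^ 5 * ii A * K.r * K.s * K.sb
      * K.sg ^ 4 * K.x ^ 3 + K.a ^ 6 * ii A ^ 2 * K.s * K.sb * K.sg ^ 4 * K.x ^ 4 - K.a ^ 6 * K.s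
      * K.sb * K.sg ^ 4 * K.x ^ 4) * ii_sq (A := A) + (-K.a ^ 2 * K.r ^ 2 * K.sg ^ 3 - K.a ^ 3 * ii A
      * K.r * K.sg ^ 3 * K.x - K.a ^ 3 * ii A * K.r ^ 3 * K.sg ^ 4 * K.x + K.a ^ 4 * K.r ^ 2 * K.sg ^ 4
      * K.x ^ 2 - K.a ^ 5 * ii A * K.r * K.sg ^ 4 * K.x ^ 3 + K.a ^ 6 * K.sg ^ 4 * K.x ^ 4) * h.hs
      + (-4 * K.M * K.a * ii A * K.r ^ 2 * K.sg ^ 3 * K.x + K.M * K.a * ii A * K.sg ^ 2 * K.x + 2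
      * K.M * K.a ^ 2 * K.r * K.sg ^ 3 * K.x ^ 2 + K.M * K.r * K.sg ^ 2 - 2 * K.M * K.r ^ 3 * K.sg ^ 3
      - 2 * K.a * ii A * K.r * K.sg ^ 2 * K.x + 2 * K.a * ii A * K.r ^ 3 * K.sg ^ 3 * K.x + K.a ^ 2
      * K.r ^ 2 * K.sg ^ 3 - K.a ^ 2 * K.r ^ 2 * K.sg ^ 3 * K.x ^ 2 + K.a ^ 2 * K.sg ^ 2 * K.x ^ 2
      + 2 * K.a ^ 3 * ii A * K.r * K.sg ^ 3 * K.x - K.a ^ 4 * K.sg ^ 3 * K.x ^ 2 - K.r ^ 2 * K.sg ^ 2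
      + K.r ^ 4 * K.sg ^ 3) * h.hN + (-K.M * K.a * ii A * K.sg ^ 2 * K.x - K.M * K.r * K.sg ^ 2 + 2
      * K.a * ii A * K.r * K.sg ^ 2 * K.x - K.a ^ 2 * K.sg ^ 2 * K.x ^ 2 - K.a ^ 3 * ii A * K.r * K.sg ^ 3
      * K.x + K.a ^ 3 * ii A * K.r * K.sg ^ 3 * K.x ^ 3 + K.a ^ 4 * K.sg ^ 3 * K.x ^ 2 - K.a ^ 4
      * K.sg ^ 3 * K.x ^ 4 + K.r ^ 2 * K.sg ^ 2) * h.hg
  · linear_combination
      (2 * K.M * K.N * K.Ni * K.a ^ 2 * K.r * K.sg ^ 3 * K.x ^ 2 - K.M * K.a ^ 2 * K.r * K.sg ^ 3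
      * K.x ^ 2 + K.M * K.a ^ 3 * ii A * K.sg ^ 3 * K.x ^ 3 - K.N * K.Ni * K.a ^ 2 * K.r ^ 2 * K.sg ^ 3
      * K.x ^ 2 + K.N * K.Ni * K.a ^ 2 * K.sg ^ 2 * K.x ^ 2 - K.N * K.Ni * K.a ^ 4 * K.sg ^ 3 * K.x ^ 2
      + K.a ^ 2 * K.r ^ 4 * K.s * K.sb * K.sg ^ 4 + K.a ^ 3 * ii A * K.r ^ 3 * K.s * K.sb * K.sg ^ 4
      * K.x - K.a ^ 4 * ii A ^ 2 * K.r ^ 2 * K.s * K.sb * K.sg ^ 4 * K.x ^ 2 + K.a ^ 4 * K.r ^ 2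
      * K.s * K.sb * K.sg ^ 4 * K.x ^ 2 + K.a ^ 4 * K.s * K.sb * K.sg ^ 3 * K.x ^ 2 + K.a ^ 5 * ii A
      * K.r * K.s * K.sb * K.sg ^ 4 * K.x ^ 3 - K.a ^ 5 * ii A ^ 3 * K.r * K.s * K.sb * K.sg ^ 4
      * K.x ^ 3) * ii_sq (A := A) + (-K.a ^ 2 * K.r ^ 4 * K.sg ^ 4 + K.a ^ 3 * ii A * K.r * K.sg ^ 3
      * K.x - K.a ^ 3 * ii A * K.r ^ 3 * K.sg ^ 4 * K.x - K.a ^ 4 * K.r ^ 2 * K.sg ^ 4 * K.x ^ 2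
      - K.a ^ 4 * K.sg ^ 3 * K.x ^ 2 - K.a ^ 5 * ii A * K.r * K.sg ^ 4 * K.x ^ 3) * h.hs + (K.M * K.a
      * ii A * K.sg ^ 2 * K.x - 2 * K.M * K.a ^ 2 * K.r * K.sg ^ 3 * K.x ^ 2 + K.M * K.r * K.sg ^ 2
      - 2 * K.M * K.r ^ 3 * K.sg ^ 3 + K.a ^ 2 * K.r ^ 2 * K.sg ^ 3 + K.a ^ 2 * K.r ^ 2 * K.sg ^ 3
      * K.x ^ 2 - K.a ^ 2 * K.sg ^ 2 * K.x ^ 2 + K.a ^ 4 * K.sg ^ 3 * K.x ^ 2 - K.r ^ 2 * K.sg ^ 2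
      + K.r ^ 4 * K.sg ^ 3) * h.hN + (-K.M * K.a * ii A * K.sg ^ 2 * K.x - K.M * K.r * K.sg ^ 2 - K.a ^ 2
      * K.r ^ 2 * K.sg ^ 3 + K.a ^ 2 * K.r ^ 2 * K.sg ^ 3 * K.x ^ 2 + K.a ^ 2 * K.sg ^ 2 * K.x ^ 2
      - K.a ^ 3 * ii A * K.r * K.sg ^ 3 * K.x + K.a ^ 3 * ii A * K.r * K.sg ^ 3 * K.x ^ 3 + K.r ^ 2
      * K.sg ^ 2) * h.hg

omit [StarRing A] in
theorem yb_kc (h : K.Is) (k : Fin 6) : K.c K.rh2 * kc K 0 k - K.c K.rh * kc K 1 k -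
    K.c K.ta2 * kc K 3 k + K.c K.ta * kc K 2 k =
      ![2 * K.zb, 0, 0, 0, -(K.M * K.zb * K.z ^ 2), -(K.M * K.zb ^ 3)] k := by
  fin_cases k <;> simp only [kc, Fin.reduceFinMk, Matrix.cons_val, KC.rh, KC.rh2, KC.ta, KC.ta2,
    KC.z, KC.zb, KC.ee, KC.De, KC.W, map_mul, map_add, map_sub, map_neg, map_ofNat, h.tab]
  · linear_combination
      (K.a ^ 2 * K.r * K.s * K.sb * K.sg ^ 2 + K.a ^ 2 * K.r ^ 3 * K.s * K.sb * K.sg ^ 3 - K.a ^ 3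
      * ii A * K.r ^ 2 * K.s * K.sb * K.sg ^ 3 * K.x - K.a ^ 3 * ii A * K.s * K.sb * K.sg ^ 2 * K.x
      - K.a ^ 4 * ii A ^ 2 * K.r * K.s * K.sb * K.sg ^ 3 * K.x ^ 2 + K.a ^ 4 * K.r * K.s * K.sb * K.sg ^ 3
      * K.x ^ 2 - K.a ^ 5 * ii A * K.s * K.sb * K.sg ^ 3 * K.x ^ 3 + K.a ^ 5 * ii A ^ 3 * K.s * K.sb
      * K.sg ^ 3 * K.x ^ 3) * ii_sq (A := A) + (-K.a ^ 2 * K.r * K.sg ^ 2 - K.a ^ 2 * K.r ^ 3 * K.sg ^ 3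
      + K.a ^ 3 * ii A * K.r ^ 2 * K.sg ^ 3 * K.x + K.a ^ 3 * ii A * K.sg ^ 2 * K.x - K.a ^ 4 * K.r
      * K.sg ^ 3 * K.x ^ 2 + K.a ^ 5 * ii A * K.sg ^ 3 * K.x ^ 3) * h.hs + (-2 * K.a * ii A * K.r ^ 2
      * K.sg ^ 2 * K.x + 2 * K.a ^ 2 * K.r * K.sg ^ 2 - 2 * K.a ^ 3 * ii A * K.sg ^ 2 * K.x + 2 * K.r ^ 3
      * K.sg ^ 2) * h.hN + (-2 * K.a * ii A * K.sg * K.x - K.a ^ 2 * K.r * K.sg ^ 2 + K.a ^ 2 * K.r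
      * K.sg ^ 2 * K.x ^ 2 + K.a ^ 3 * ii A * K.sg ^ 2 * K.x - K.a ^ 3 * ii A * K.sg ^ 2 * K.x ^ 3
      + 2 * K.r * K.sg) * h.hg
  · ring
  · linear_combination
      (-K.N * K.Ni * K.a ^ 2 * K.s * K.sg ^ 2 * K.x + K.a ^ 2 * K.r ^ 2 * K.s * K.sg ^ 3 * K.x + K.a ^ 3
      * ii A * K.r * K.s * K.sg ^ 3 * K.x ^ 2 - K.a ^ 4 * ii A ^ 2 * K.s * K.sg ^ 3 * K.x ^ 3 + K.a ^ 4
      * K.s * K.sg ^ 3 * K.x ^ 3) * ii_sq (A := A) + (K.a * ii A * K.r * K.s * K.sg ^ 2 + K.a ^ 2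
      * K.s * K.sg ^ 2 * K.x) * h.hN + (-K.a * ii A * K.r * K.s * K.sg ^ 2 - K.a ^ 2 * K.s * K.sg ^ 2
      * K.x) * h.hg
  · linear_combination
      (K.N * K.Ni * K.a ^ 2 * K.sb * K.sg ^ 2 * K.x - K.a ^ 2 * K.sb * K.sg ^ 2 * K.x) * ii_sq (A := A)
      + (-K.a * ii A * K.r * K.sb * K.sg ^ 2 - K.a ^ 2 * K.sb * K.sg ^ 2 * K.x) * h.hN
  · linear_combination
      (2 * K.M * K.N * K.Ni * K.a ^ 2 * K.r * K.sg ^ 3 * K.x ^ 2 - K.M * K.a ^ 2 * K.r * K.sg ^ 3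
      * K.x ^ 2 - K.M * K.a ^ 3 * ii A * K.sg ^ 3 * K.x ^ 3 - K.N * K.Ni * K.a ^ 2 * K.r ^ 2 * K.sg ^ 3
      * K.x ^ 2 + K.N * K.Ni * K.a ^ 2 * K.sg ^ 2 * K.x ^ 2 - K.N * K.Ni * K.a ^ 4 * K.sg ^ 3 * K.x ^ 2
      + K.a ^ 2 * K.r ^ 4 * K.s * K.sb * K.sg ^ 4 - K.a ^ 3 * ii A * K.r ^ 3 * K.s * K.sb * K.sg ^ 4
      * K.x - K.a ^ 4 * ii A ^ 2 * K.r ^ 2 * K.s * K.sb * K.sg ^ 4 * K.x ^ 2 + K.a ^ 4 * K.r ^ 2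
      * K.s * K.sb * K.sg ^ 4 * K.x ^ 2 + K.a ^ 4 * K.s * K.sb * K.sg ^ 3 * K.x ^ 2 - K.a ^ 5 * ii A
      * K.r * K.s * K.sb * K.sg ^ 4 * K.x ^ 3 + K.a ^ 5 * ii A ^ 3 * K.r * K.s * K.sb * K.sg ^ 4
      * K.x ^ 3) * ii_sq (A := A) + (-K.a ^ 2 * K.r ^ 4 * K.sg ^ 4 - K.a ^ 3 * ii A * K.r * K.sg ^ 3
      * K.x + K.a ^ 3 * ii A * K.r ^ 3 * K.sg ^ 4 * K.x - K.a ^ 4 * K.r ^ 2 * K.sg ^ 4 * K.x ^ 2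
      - K.a ^ 4 * K.sg ^ 3 * K.x ^ 2 + K.a ^ 5 * ii A * K.r * K.sg ^ 4 * K.x ^ 3) * h.hs + (-K.M
      * K.a * ii A * K.sg ^ 2 * K.x - 2 * K.M * K.a ^ 2 * K.r * K.sg ^ 3 * K.x ^ 2 + K.M * K.r * K.sg ^ 2
      - 2 * K.M * K.r ^ 3 * K.sg ^ 3 + K.a ^ 2 * K.r ^ 2 * K.sg ^ 3 + K.a ^ 2 * K.r ^ 2 * K.sg ^ 3
      * K.x ^ 2 - K.a ^ 2 * K.sg ^ 2 * K.x ^ 2 + K.a ^ 4 * K.sg ^ 3 * K.x ^ 2 - K.r ^ 2 * K.sg ^ 2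
      + K.r ^ 4 * K.sg ^ 3) * h.hN + (K.M * K.a * ii A * K.sg ^ 2 * K.x - K.M * K.r * K.sg ^ 2 - K.a ^ 2
      * K.r ^ 2 * K.sg ^ 3 + K.a ^ 2 * K.r ^ 2 * K.sg ^ 3 * K.x ^ 2 + K.a ^ 2 * K.sg ^ 2 * K.x ^ 2
      + K.a ^ 3 * ii A * K.r * K.sg ^ 3 * K.x - K.a ^ 3 * ii A * K.r * K.sg ^ 3 * K.x ^ 3 + K.r ^ 2
      * K.sg ^ 2) * h.hg
  · linear_combination
      (-2 * K.M * K.N * K.Ni * K.a ^ 2 * K.r * K.sg ^ 3 * K.x ^ 2 + 3 * K.M * K.a ^ 2 * K.r * K.sg ^ 3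
      * K.x ^ 2 - K.M * K.a ^ 3 * ii A * K.sg ^ 3 * K.x ^ 3 + K.N * K.Ni * K.a ^ 2 * K.r ^ 2 * K.sg ^ 3
      * K.x ^ 2 - K.N * K.Ni * K.a ^ 2 * K.sg ^ 2 * K.x ^ 2 + K.N * K.Ni * K.a ^ 4 * K.sg ^ 3 * K.x ^ 2
      + K.a ^ 2 * K.r ^ 2 * K.s * K.sb * K.sg ^ 3 - K.a ^ 3 * ii A * K.r * K.s * K.sb * K.sg ^ 3
      * K.x - K.a ^ 4 * K.r ^ 2 * K.s * K.sb * K.sg ^ 4 * K.x ^ 2 - K.a ^ 5 * ii A * K.r * K.s * K.sb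
      * K.sg ^ 4 * K.x ^ 3 + K.a ^ 6 * ii A ^ 2 * K.s * K.sb * K.sg ^ 4 * K.x ^ 4 - K.a ^ 6 * K.s
      * K.sb * K.sg ^ 4 * K.x ^ 4) * ii_sq (A := A) + (-K.a ^ 2 * K.r ^ 2 * K.sg ^ 3 + K.a ^ 3 * ii A
      * K.r * K.sg ^ 3 * K.x + K.a ^ 3 * ii A * K.r ^ 3 * K.sg ^ 4 * K.x + K.a ^ 4 * K.r ^ 2 * K.sg ^ 4
      * K.x ^ 2 + K.a ^ 5 * ii A * K.r * K.sg ^ 4 * K.x ^ 3 + K.a ^ 6 * K.sg ^ 4 * K.x ^ 4) * h.hs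
      + (4 * K.M * K.a * ii A * K.r ^ 2 * K.sg ^ 3 * K.x - K.M * K.a * ii A * K.sg ^ 2 * K.x + 2
      * K.M * K.a ^ 2 * K.r * K.sg ^ 3 * K.x ^ 2 + K.M * K.r * K.sg ^ 2 - 2 * K.M * K.r ^ 3 * K.sg ^ 3
      + 2 * K.a * ii A * K.r * K.sg ^ 2 * K.x - 2 * K.a * ii A * K.r ^ 3 * K.sg ^ 3 * K.x + K.a ^ 2
      * K.r ^ 2 * K.sg ^ 3 - K.a ^ 2 * K.r ^ 2 * K.sg ^ 3 * K.x ^ 2 + K.a ^ 2 * K.sg ^ 2 * K.x ^ 2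
      - 2 * K.a ^ 3 * ii A * K.r * K.sg ^ 3 * K.x - K.a ^ 4 * K.sg ^ 3 * K.x ^ 2 - K.r ^ 2 * K.sg ^ 2
      + K.r ^ 4 * K.sg ^ 3) * h.hN + (K.M * K.a * ii A * K.sg ^ 2 * K.x - K.M * K.r * K.sg ^ 2 - 2
      * K.a * ii A * K.r * K.sg ^ 2 * K.x - K.a ^ 2 * K.sg ^ 2 * K.x ^ 2 + K.a ^ 3 * ii A * K.r * K.sg ^ 3
      * K.x - K.a ^ 3 * ii A * K.r * K.sg ^ 3 * K.x ^ 3 + K.a ^ 4 * K.sg ^ 3 * K.x ^ 2 - K.a ^ 4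
      * K.sg ^ 3 * K.x ^ 4 + K.r ^ 2 * K.sg ^ 2) * h.hg

variable (h : IsK T K)
include h

theorem ext_0 (a b : Fin 6) : T.ext (fun b => kc K b 0) a b =
    1 * ((0 : Fin 6 → Fin 6 → A) a b - (0 : Fin 6 → Fin 6 → A) b a) := by
  have e : star T.zi ^ 3 = K.c K.P2 := by rw [← star_pow, h.P2, h.c]
  refine T.ext_eq _ 1 _ ?_ ?_ ?_ ?_ ?_ ?_ ?_ ?_ ?_ ?_ ?_ ?_ ?_ ?_ ?_ a b <;>
    simp only [TD.ext01, TD.ext02, TD.ext03, TD.ext04, TD.ext05, TD.ext12, TD.ext13, TD.ext14,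
      TD.ext15, TD.ext23, TD.ext24, TD.ext25, TD.ext34, TD.ext35, TD.ext45, e, h.P2] <;>
    simp only [← h.c, h.th, h.tp, h.et, h.ep, h.H, h.B, h.rh, h.rh2, h.ta, h.ta2, kap, kv, kc, Matrix.cons_val,
      KC.th, KC.tp, KC.et, KC.ep, KC.rh, KC.rh2, KC.ta, KC.ta2, KC.P2, KC.z, KC.zb, KC.ee, KC.De,
      KC.W, KC.V_ap, D_add, D_sub, D_mul, D_neg, D_num, D_zero, D_one, D_ii, map_mul, map_add,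
      map_sub, map_neg, map_zero, map_ofNat, h.is.tab, Pi.zero_apply]
  · linear_combination
      (-2 * K.a ^ 2 * K.r * K.s * K.sb * K.sg ^ 2 - 2 * K.a ^ 2 * K.r ^ 3 * K.s * K.sb * K.sg ^ 3
      + 2 * K.a ^ 4 * ii A ^ 2 * K.r * K.s * K.sb * K.sg ^ 3 * K.x ^ 2 - 2 * K.a ^ 4 * K.r * K.s
      * K.sb * K.sg ^ 3 * K.x ^ 2) * ii_sq (A := A) + (2 * K.a ^ 2 * K.r * K.sg ^ 2 + 2 * K.a ^ 2
      * K.r ^ 3 * K.sg ^ 3 + 2 * K.a ^ 4 * K.r * K.sg ^ 3 * K.x ^ 2) * h.is.hs + (-4 * K.a ^ 2 * K.r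
      * K.sg ^ 2 + 4 * K.r * K.sg - 4 * K.r ^ 3 * K.sg ^ 2) * h.is.hN + (2 * K.a ^ 2 * K.r * K.sg ^ 2
      - 2 * K.a ^ 2 * K.r * K.sg ^ 2 * K.x ^ 2 - 4 * K.r * K.sg) * h.is.hg
  · linear_combination
      (-2 * K.M * K.N * K.a ^ 3 * ii A * K.r * K.s * K.sg ^ 3 * K.x ^ 2 - 2 * K.N * K.a ^ 2 * K.r ^ 3
      * K.s * K.sg ^ 3 * K.x + 3 * K.N * K.a ^ 3 * ii A * K.r ^ 2 * K.s * K.sg ^ 3 * K.x ^ 2 - 2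
      * K.N * K.a ^ 4 * K.r * K.s * K.sg ^ 3 * K.x + 3 * K.N * K.a ^ 5 * ii A * K.s * K.sg ^ 3 * K.x ^ 2)
      * ii_sq (A := A) + (2 * K.M * K.N * K.a * ii A * K.r * K.s * K.sg ^ 2 - K.N * K.a * ii A * K.r ^ 2
      * K.s * K.sg ^ 2 - K.N * K.a ^ 3 * ii A * K.s * K.sg ^ 2) * h.is.hg
  · linear_combination
      (2 * K.M * K.N * K.a ^ 3 * ii A * K.r * K.sb * K.sg ^ 3 * K.x ^ 2 - 2 * K.N * K.a ^ 2 * K.r ^ 3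
      * K.sb * K.sg ^ 3 * K.x - 3 * K.N * K.a ^ 3 * ii A * K.r ^ 2 * K.sb * K.sg ^ 3 * K.x ^ 2 - 2
      * K.N * K.a ^ 4 * K.r * K.sb * K.sg ^ 3 * K.x - 3 * K.N * K.a ^ 5 * ii A * K.sb * K.sg ^ 3
      * K.x ^ 2) * ii_sq (A := A) + (-2 * K.M * K.N * K.a * ii A * K.r * K.sb * K.sg ^ 2 + K.N * K.a
      * ii A * K.r ^ 2 * K.sb * K.sg ^ 2 + K.N * K.a ^ 3 * ii A * K.sb * K.sg ^ 2) * h.is.hg
  · ring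
  · ring
  · linear_combination
      (-K.Ni * K.a ^ 3 * ii A * K.s * K.sg ^ 2 * K.x ^ 2) * ii_sq (A := A) + (K.Ni * K.a * ii A * K.s
      * K.sg) * h.is.hg
  · linear_combination
      (K.Ni * K.a ^ 3 * ii A * K.sb * K.sg ^ 2 * K.x ^ 2) * ii_sq (A := A) + (-K.Ni * K.a * ii A
      * K.sb * K.sg) * h.is.hg
  · ring
  · ring
  · linear_combination
      (-2 * K.a ^ 3 * ii A * K.s * K.sb * K.sg ^ 2 * K.x + 4 * K.a ^ 3 * ii A * K.sg ^ 2 * K.x ^ 3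
      + 6 * K.a ^ 5 * ii A * K.s * K.sb * K.sg ^ 3 * K.x ^ 3) * ii_sq (A := A) + (-6 * K.a ^ 3 * ii A
      * K.r ^ 2 * K.sg ^ 3 * K.x + 2 * K.a ^ 3 * ii A * K.sg ^ 2 * K.x - 6 * K.a ^ 5 * ii A * K.sg ^ 3
      * K.x ^ 3) * h.is.hs + (4 * K.a * ii A * K.r ^ 2 * K.sg ^ 2 * K.x + 4 * K.a ^ 3 * ii A * K.sg ^ 2
      * K.x) * h.is.hN + (-6 * K.a ^ 3 * ii A * K.sg ^ 2 * K.x + 6 * K.a ^ 3 * ii A * K.sg ^ 2 * K.x ^ 3)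
      * h.is.hg
  · ring
  · ring
  · ring
  · ring
  · ring

theorem ext_k (a b : Fin 6) : T.ext (fun b => kap K (kc K b)) a b =
    1 * (kv K (kc K a) (kc K b) - kv K (kc K b) (kc K a)) := by
  have e : star T.zi ^ 3 = K.c K.P2 := by rw [← star_pow, h.P2, h.c]
  refine T.ext_eq _ 1 (fun a b => kv K (kc K a) (kc K b)) ?_ ?_ ?_ ?_ ?_ ?_ ?_ ?_ ?_ ?_ ?_ ?_ ?_ ?_ ?_ a b <;>
    simp only [TD.ext01, TD.ext02, TD.ext03, TD.ext04, TD.ext05, TD.ext12, TD.ext13, TD.ext14,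
      TD.ext15, TD.ext23, TD.ext24, TD.ext25, TD.ext34, TD.ext35, TD.ext45, e, h.P2] <;>
    simp only [← h.c, h.th, h.tp, h.et, h.ep, h.H, h.B, h.rh, h.rh2, h.ta, h.ta2, kap, kv, kc, Matrix.cons_val,
      KC.th, KC.tp, KC.et, KC.ep, KC.rh, KC.rh2, KC.ta, KC.ta2, KC.P2, KC.z, KC.zb, KC.ee, KC.De,
      KC.W, KC.V_ap, D_add, D_sub, D_mul, D_neg, D_num, D_zero, D_one, D_ii, map_mul, map_add,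
      map_sub, map_neg, map_zero, map_ofNat, h.is.tab, Pi.zero_apply]
  · linear_combination
      (-4 * K.M * K.a ^ 3 * ii A * K.sg ^ 3 * K.x ^ 4 - 4 * K.a ^ 3 * ii A * K.r * K.s * K.sb * K.sg ^ 3
      * K.x ^ 2 + 2 * K.a ^ 3 * ii A * K.r ^ 3 * K.s * K.sb * K.sg ^ 4 * K.x ^ 2 - 2 * K.a ^ 5 * ii A ^ 3
      * K.r * K.s * K.sb * K.sg ^ 4 * K.x ^ 4) * ii_sq (A := A) + (4 * K.N * K.Ni * K.a * ii A * K.r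
      * K.sg ^ 2 - 2 * K.a * ii A * K.r * K.sg ^ 2 - 2 * K.a * ii A * K.r ^ 3 * K.sg ^ 3 + 6 * K.a ^ 3
      * ii A * K.r * K.sg ^ 3 * K.x ^ 2) * h.is.hs + (16 * K.M * K.a * ii A * K.r ^ 2 * K.sg ^ 3
      * K.x ^ 2 - 4 * K.M * K.a * ii A * K.sg ^ 2 * K.x ^ 2 + 4 * K.a * ii A * K.r * K.sg ^ 2 + 4
      * K.a * ii A * K.r * K.sg ^ 2 * K.x ^ 2 - 8 * K.a * ii A * K.r ^ 3 * K.sg ^ 3 * K.x ^ 2 - 8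
      * K.a ^ 3 * ii A * K.r * K.sg ^ 3 * K.x ^ 2) * h.is.hN + (4 * K.M * K.a * ii A * K.sg ^ 2 * K.x ^ 2
      - 2 * K.a * ii A * K.r * K.sg ^ 2 - 6 * K.a * ii A * K.r * K.sg ^ 2 * K.x ^ 2) * h.is.hg
  · linear_combination
      (-4 * K.M * K.N * K.a ^ 2 * K.r * K.s * K.sg ^ 3 * K.x ^ 2 - 2 * K.M * K.N * K.a ^ 2 * K.r ^ 3
      * K.s * K.sg ^ 4 * K.x ^ 2 + 8 * K.M * K.N * K.a ^ 3 * ii A * K.r ^ 2 * K.s * K.sg ^ 4 * K.x ^ 3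
      - 2 * K.M * K.N * K.a ^ 4 * ii A ^ 2 * K.r * K.s * K.sg ^ 4 * K.x ^ 4 + 4 * K.M * K.N * K.a ^ 4
      * K.r * K.s * K.sg ^ 4 * K.x ^ 4 + 2 * K.N * K.a ^ 2 * K.r ^ 2 * K.s * K.sg ^ 3 * K.x ^ 2 + K.N
      * K.a ^ 2 * K.r ^ 4 * K.s * K.sg ^ 4 * K.x ^ 2 + 2 * K.N * K.a ^ 3 * ii A * K.r * K.s * K.sg ^ 3
      * K.x ^ 3 + 2 * K.N * K.a ^ 3 * ii A * K.r * K.s ^ 2 * K.sb * K.sg ^ 3 * K.x - 4 * K.N * K.a ^ 3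
      * ii A * K.r ^ 3 * K.s * K.sg ^ 4 * K.x ^ 3 + K.N * K.a ^ 4 * ii A ^ 2 * K.r ^ 2 * K.s * K.sg ^ 4
      * K.x ^ 4 - 2 * K.N * K.a ^ 4 * ii A ^ 2 * K.s * K.sg ^ 3 * K.x ^ 4 - 2 * K.N * K.a ^ 4 * ii A ^ 2
      * K.s ^ 2 * K.sb * K.sg ^ 3 * K.x ^ 2 + K.N * K.a ^ 4 * K.r ^ 2 * K.s * K.sg ^ 4 * K.x ^ 2
      - 2 * K.N * K.a ^ 4 * K.r ^ 2 * K.s * K.sg ^ 4 * K.x ^ 4 + 2 * K.N * K.a ^ 4 * K.s * K.sg ^ 3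
      * K.x ^ 2 - 4 * K.N * K.a ^ 5 * ii A * K.r * K.s * K.sg ^ 4 * K.x ^ 3 + K.N * K.a ^ 6 * ii A ^ 2
      * K.s * K.sg ^ 4 * K.x ^ 4 - 2 * K.N * K.a ^ 6 * K.s * K.sg ^ 4 * K.x ^ 4) * ii_sq (A := A)
      + (-4 * K.M * K.N * K.a * ii A * K.r ^ 2 * K.s * K.sg ^ 3 * K.x - 4 * K.M * K.N * K.a ^ 2 * K.r
      * K.s * K.sg ^ 3 * K.x ^ 2 + 2 * K.M * K.N * K.r * K.s * K.sg ^ 2 + 2 * K.N * K.a * ii A * K.r ^ 3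
      * K.s * K.sg ^ 3 * K.x + 2 * K.N * K.a ^ 2 * K.r ^ 2 * K.s * K.sg ^ 3 * K.x ^ 2 - K.N * K.a ^ 2
      * K.s * K.sg ^ 2 + 2 * K.N * K.a ^ 3 * ii A * K.r * K.s * K.sg ^ 3 * K.x + 2 * K.N * K.a ^ 4
      * K.s * K.sg ^ 3 * K.x ^ 2 - K.N * K.r ^ 2 * K.s * K.sg ^ 2) * h.is.hg
  · linear_combination
      (4 * K.M * K.N * K.a ^ 2 * K.r * K.sb * K.sg ^ 3 * K.x ^ 2 + 2 * K.M * K.N * K.a ^ 2 * K.r ^ 3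
      * K.sb * K.sg ^ 4 * K.x ^ 2 + 8 * K.M * K.N * K.a ^ 3 * ii A * K.r ^ 2 * K.sb * K.sg ^ 4 * K.x ^ 3
      + 2 * K.M * K.N * K.a ^ 4 * ii A ^ 2 * K.r * K.sb * K.sg ^ 4 * K.x ^ 4 - 4 * K.M * K.N * K.a ^ 4
      * K.r * K.sb * K.sg ^ 4 * K.x ^ 4 - 2 * K.N * K.a ^ 2 * K.r ^ 2 * K.sb * K.sg ^ 3 * K.x ^ 2
      - K.N * K.a ^ 2 * K.r ^ 4 * K.sb * K.sg ^ 4 * K.x ^ 2 + 2 * K.N * K.a ^ 3 * ii A * K.r * K.s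
      * K.sb ^ 2 * K.sg ^ 3 * K.x + 2 * K.N * K.a ^ 3 * ii A * K.r * K.sb * K.sg ^ 3 * K.x ^ 3 - 4
      * K.N * K.a ^ 3 * ii A * K.r ^ 3 * K.sb * K.sg ^ 4 * K.x ^ 3 - K.N * K.a ^ 4 * ii A ^ 2 * K.r ^ 2
      * K.sb * K.sg ^ 4 * K.x ^ 4 + 2 * K.N * K.a ^ 4 * ii A ^ 2 * K.s * K.sb ^ 2 * K.sg ^ 3 * K.x ^ 2
      + 2 * K.N * K.a ^ 4 * ii A ^ 2 * K.sb * K.sg ^ 3 * K.x ^ 4 - K.N * K.a ^ 4 * K.r ^ 2 * K.sb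
      * K.sg ^ 4 * K.x ^ 2 + 2 * K.N * K.a ^ 4 * K.r ^ 2 * K.sb * K.sg ^ 4 * K.x ^ 4 - 2 * K.N * K.a ^ 4
      * K.sb * K.sg ^ 3 * K.x ^ 2 - 4 * K.N * K.a ^ 5 * ii A * K.r * K.sb * K.sg ^ 4 * K.x ^ 3 - K.N
      * K.a ^ 6 * ii A ^ 2 * K.sb * K.sg ^ 4 * K.x ^ 4 + 2 * K.N * K.a ^ 6 * K.sb * K.sg ^ 4 * K.x ^ 4)
      * ii_sq (A := A) + (-4 * K.M * K.N * K.a * ii A * K.r ^ 2 * K.sb * K.sg ^ 3 * K.x + 4 * K.M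
      * K.N * K.a ^ 2 * K.r * K.sb * K.sg ^ 3 * K.x ^ 2 - 2 * K.M * K.N * K.r * K.sb * K.sg ^ 2 + 2
      * K.N * K.a * ii A * K.r ^ 3 * K.sb * K.sg ^ 3 * K.x - 2 * K.N * K.a ^ 2 * K.r ^ 2 * K.sb * K.sg ^ 3
      * K.x ^ 2 + K.N * K.a ^ 2 * K.sb * K.sg ^ 2 + 2 * K.N * K.a ^ 3 * ii A * K.r * K.sb * K.sg ^ 3
      * K.x - 2 * K.N * K.a ^ 4 * K.sb * K.sg ^ 3 * K.x ^ 2 + K.N * K.r ^ 2 * K.sb * K.sg ^ 2) * h.is.hg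
  · ring
  · ring
  · linear_combination
      (4 * K.Ni * K.a ^ 2 * K.r ^ 2 * K.s * K.sg ^ 3 * K.x ^ 2 - 7 * K.Ni * K.a ^ 2 * K.s * K.sg ^ 2
      * K.x ^ 2 - K.Ni * K.a ^ 3 * ii A * K.r * K.s * K.sg ^ 3 * K.x ^ 3 + 7 * K.Ni * K.a ^ 4 * K.s
      * K.sg ^ 3 * K.x ^ 4) * ii_sq (A := A) + (-3 * K.Ni * K.a * ii A * K.r * K.s * K.sg ^ 2 * K.x
      - 7 * K.Ni * K.a ^ 2 * K.s * K.sg ^ 2 * K.x ^ 2 + K.Ni * K.s * K.sg) * h.is.hg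
  · linear_combination
      (-4 * K.Ni * K.a ^ 2 * K.r ^ 2 * K.sb * K.sg ^ 3 * K.x ^ 2 + 7 * K.Ni * K.a ^ 2 * K.sb * K.sg ^ 2
      * K.x ^ 2 - K.Ni * K.a ^ 3 * ii A * K.r * K.sb * K.sg ^ 3 * K.x ^ 3 - 7 * K.Ni * K.a ^ 4 * K.sb
      * K.sg ^ 3 * K.x ^ 4) * ii_sq (A := A) + (-3 * K.Ni * K.a * ii A * K.r * K.sb * K.sg ^ 2 * K.x
      + 7 * K.Ni * K.a ^ 2 * K.sb * K.sg ^ 2 * K.x ^ 2 - K.Ni * K.sb * K.sg) * h.is.hg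
  · ring
  · ring
  · linear_combination
      (-12 * K.M * K.N * K.Ni * K.a ^ 2 * K.r * K.sg ^ 3 * K.x ^ 3 + 12 * K.M * K.a ^ 2 * K.r * K.sg ^ 3
      * K.x ^ 3 + 6 * K.N * K.Ni * K.a ^ 2 * K.r ^ 2 * K.sg ^ 3 * K.x ^ 3 - 4 * K.N * K.Ni * K.a ^ 2
      * K.s * K.sb * K.sg ^ 2 * K.x - 4 * K.N * K.Ni * K.a ^ 2 * K.sg ^ 2 * K.x ^ 3 + 6 * K.N * K.Ni
      * K.a ^ 4 * K.sg ^ 3 * K.x ^ 3 + 2 * K.a ^ 2 * K.r ^ 2 * K.s * K.sb * K.sg ^ 3 * K.x - 2 * K.a ^ 2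
      * K.r ^ 4 * K.s * K.sb * K.sg ^ 4 * K.x - 2 * K.a ^ 2 * K.s * K.sb * K.sg ^ 2 * K.x + 2 * K.a ^ 2
      * K.sg ^ 2 * K.x ^ 3 + 2 * K.a ^ 4 * ii A ^ 2 * K.r ^ 2 * K.s * K.sb * K.sg ^ 4 * K.x ^ 3 - 2
      * K.a ^ 4 * K.r ^ 2 * K.s * K.sb * K.sg ^ 4 * K.x ^ 3 + 10 * K.a ^ 4 * K.s * K.sb * K.sg ^ 3
      * K.x ^ 3 - 4 * K.a ^ 4 * K.sg ^ 3 * K.x ^ 5 - 10 * K.a ^ 6 * K.s * K.sb * K.sg ^ 4 * K.x ^ 5)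
      * ii_sq (A := A) + (4 * K.N * K.Ni * K.a ^ 2 * K.sg ^ 2 * K.x - 10 * K.a ^ 2 * K.r ^ 2 * K.sg ^ 3
      * K.x + 2 * K.a ^ 2 * K.r ^ 4 * K.sg ^ 4 * K.x + 2 * K.a ^ 2 * K.sg ^ 2 * K.x + 12 * K.a ^ 4
      * K.r ^ 2 * K.sg ^ 4 * K.x ^ 3 - 10 * K.a ^ 4 * K.sg ^ 3 * K.x ^ 3 + 10 * K.a ^ 6 * K.sg ^ 4
      * K.x ^ 5) * h.is.hs + (12 * K.M * K.a ^ 2 * K.r * K.sg ^ 3 * K.x ^ 3 - 4 * K.M * K.r ^ 3 * K.sg ^ 3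
      * K.x + 2 * K.a ^ 2 * K.r ^ 2 * K.sg ^ 3 * K.x - 6 * K.a ^ 2 * K.r ^ 2 * K.sg ^ 3 * K.x ^ 3
      + 4 * K.a ^ 2 * K.sg ^ 2 * K.x - 6 * K.a ^ 4 * K.sg ^ 3 * K.x ^ 3 + 2 * K.r ^ 4 * K.sg ^ 3
      * K.x) * h.is.hN + (2 * K.a ^ 2 * K.r ^ 2 * K.sg ^ 3 * K.x - 2 * K.a ^ 2 * K.r ^ 2 * K.sg ^ 3
      * K.x ^ 3 - 6 * K.a ^ 2 * K.sg ^ 2 * K.x + 4 * K.a ^ 2 * K.sg ^ 2 * K.x ^ 3 + 10 * K.a ^ 4
      * K.sg ^ 3 * K.x ^ 3 - 10 * K.a ^ 4 * K.sg ^ 3 * K.x ^ 5 + 2 * K.r ^ 2 * K.sg ^ 2 * K.x) * h.is.hg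
  · ring
  · ring
  · ring
  · ring
  · ring

theorem D_eq (b : Fin 6) : T.D b = Vv K (kc K b) := by
  rw [← fr_kc]
  fin_cases b
  exacts [h.th, h.tp, h.et, h.ep, h.H, h.B]

theorem D_tab (b : Fin 6) : T.D b K.r = kc K b 1 ∧ T.D b K.N = K.N * (kc K b 4 + kc K b 5) ∧
    T.D b K.x = -(K.sb * kc K b 2) - K.s * kc K b 3 ∧
    T.D b K.s = 2 * K.x * kc K b 2 + K.s * (kc K b 4 - kc K b 5) ∧
    T.D b K.sb = 2 * K.x * kc K b 3 - K.sb * (kc K b 4 - kc K b 5) ∧ T.D b K.a = 0 ∧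
    T.D b K.M = 0 := by
  simp only [D_eq h, Vv, KC.V_ap, h.is.tab]
  refine ⟨?_, ?_, ?_, ?_, ?_, ?_, ?_⟩ <;> ring

/-- The time form is closed. -/
theorem ext_t (a b : Fin 6) : T.ext (fun b => kc K b 0 - kc K b 1) a b = 0 := by
  have e1 := ext_0 h a b
  have e2 := T.ext_d K.r a b
  simp only [(D_tab h _).1] at e2
  simp only [TD.ext, D_sub, mul_sub, Finset.sum_sub_distrib, Pi.zero_apply] at e1 e2 ⊢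
  linear_combination e1 - e2

omit h in
/-- The spinor y has the invariants of the chart K. -/
structure Sp (K : KC A) (y : Fin 6 → A) : Prop where
  N : y 2 * y 4 + y 3 * y 5 = K.N
  x : y 2 * y 4 - y 3 * y 5 = K.x * K.N
  s : 2 * y 2 * y 3 = K.s * K.N
  sb : 2 * y 4 * y 5 = K.sb * K.N

omit h in
/-- The phase form of the spinor y, and its difference to the phase form of Kerr. -/
def om (y : Fin 6 → A) (D : Der A) : A :=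
  y 4 * D (y 2) - y 2 * D (y 4) - y 5 * D (y 3) + y 3 * D (y 5)
omit h in
def bet (T : TD A) (K : KC A) (y : Fin 6 → A) (b : Fin 6) : A :=
  K.Ni * om y (T.D b) - kap K (kc K b)

variable {y : Fin 6 → A} (p : Sp K y)
include p

theorem Sp.tab (b : Fin 6) :
    T.D b (y 2) = zv (kc K b) y 2 + hf A * bet T K y b * y 2 ∧
    T.D b (y 3) = zv (kc K b) y 3 - hf A * bet T K y b * y 3 ∧
    T.D b (y 4) = zv (kc K b) y 4 - hf A * bet T K y b * y 4 ∧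
    T.D b (y 5) = zv (kc K b) y 5 + hf A * bet T K y b * y 5 := by
  obtain ⟨-, dN, dx, ds, db, -⟩ := D_tab h b
  have e1 := congrArg (T.D b) p.N
  have e2 := congrArg (T.D b) p.x
  have e3 := congrArg (T.D b) p.s
  have e4 := congrArg (T.D b) p.sb
  simp only [D_add, D_sub, D_mul, D_num, dN, dx, ds, db] at e1 e2 e3 e4
  have n := h.is.hN
  have f := two_hf (A := A)
  simp only [zv, bet, om, kap, Matrix.cons_val]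
  generalize kc K b = e at *
  obtain ⟨u2, h2⟩ : ∃ u, T.D b (y 2) = e 4 * y 2 - e 2 * y 5 + u := ⟨_, (add_sub_cancel _ _).symm⟩
  obtain ⟨u3, h3⟩ : ∃ u, T.D b (y 3) = e 4 * y 3 + e 2 * y 4 + u := ⟨_, (add_sub_cancel _ _).symm⟩
  obtain ⟨u4, h4⟩ : ∃ u, T.D b (y 4) = e 5 * y 4 - e 3 * y 3 + u := ⟨_, (add_sub_cancel _ _).symm⟩
  obtain ⟨u5, h5⟩ : ∃ u, T.D b (y 5) = e 5 * y 5 + e 3 * y 2 + u := ⟨_, (add_sub_cancel _ _).symm⟩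
  rw [h2, h3, h4, h5] at e1 e2 ⊢
  rw [h2, h3] at e3
  rw [h4, h5] at e4
  have l1 : y 4 * u2 + y 2 * u4 + y 5 * u3 + y 3 * u5 = 0 := by
    linear_combination e1 - (e 4 + e 5) * p.N
  have l2 : y 4 * u2 + y 2 * u4 - y 5 * u3 - y 3 * u5 = 0 := by
    linear_combination e2 - (e 4 + e 5) * p.x + e 3 * p.s + e 2 * p.sb
  have a : y 4 * u2 + y 2 * u4 = 0 := by
    linear_combination hf A * (l1 + l2) - (y 4 * u2 + y 2 * u4) * f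
  have c : y 5 * u3 + y 3 * u5 = 0 := by linear_combination l1 - a
  have d : y 2 * u3 + y 3 * u2 = 0 := by
    linear_combination hf A * (e3 - 2 * e 4 * p.s - 2 * e 2 * p.x) - (y 2 * u3 + y 3 * u2) * f
  have g : y 4 * u5 + y 5 * u4 = 0 := by
    linear_combination hf A * (e4 - 2 * e 5 * p.sb - 2 * e 3 * p.x) - (y 4 * u5 + y 5 * u4) * f
  have k : K.Ni * ((e 4 - e 5) * (y 2 * y 4 - y 3 * y 5) - 2 * e 2 * y 4 * y 5 + 2 * e 3 * y 2 * y 3)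
      = (e 4 - e 5) * K.x - e 2 * K.sb + e 3 * K.s := by
    linear_combination K.Ni * ((e 4 - e 5) * p.x - e 2 * p.sb + e 3 * p.s) +
      ((e 4 - e 5) * K.x - e 2 * K.sb + e 3 * K.s) * n
  refine ⟨?_, ?_, ?_, ?_⟩
  · linear_combination -(hf A * K.Ni) * (2 * u2 * p.N - y 2 * a + y 2 * c - 2 * y 5 * d) -
      K.N * K.Ni * u2 * f - u2 * n - hf A * y 2 * k
  · linear_combination hf A * K.Ni * (-2 * u3 * p.N - y 3 * a + y 3 * c + 2 * y 4 * d) -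
      K.N * K.Ni * u3 * f - u3 * n + hf A * y 3 * k
  · linear_combination hf A * K.Ni * (-2 * u4 * p.N + y 4 * a - y 4 * c + 2 * y 3 * g) -
      K.N * K.Ni * u4 * f - u4 * n + hf A * y 4 * k
  · linear_combination -(hf A * K.Ni) * (2 * u5 * p.N + y 5 * a - y 5 * c - 2 * y 2 * g) -
      K.N * K.Ni * u5 * f - u5 * n - hf A * y 5 * k

/-- The phase form is closed. -/
theorem Sp.closed (a b : Fin 6) : T.ext (bet T K y) a b = 0 := by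
  have n := h.is.hN
  have k := ext_k h a b
  have s : ∀ u v : A, T.ext (fun b => K.Ni * u * T.D b v) a b =
      T.D a (K.Ni * u) * T.D b v - T.D b (K.Ni * u) * T.D a v := fun u v => by
    have := T.ext_smul (K.Ni * u) (fun k => T.D k v) a b
    rw [T.ext_d] at this
    exact this.trans (by ring)
  have e : T.ext (bet T K y) a b = T.ext (fun b => K.Ni * y 4 * T.D b (y 2)) a b -
      T.ext (fun b => K.Ni * y 2 * T.D b (y 4)) a b - T.ext (fun b => K.Ni * y 5 * T.D b (y 3)) a b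
      + T.ext (fun b => K.Ni * y 3 * T.D b (y 5)) a b - T.ext (fun b => kap K (kc K b)) a b := by
    simp only [TD.ext, bet, om, mul_add, mul_sub, ← mul_assoc, D_add, D_sub, Finset.sum_add_distrib,
      Finset.sum_sub_distrib]
    ring
  have d : ∀ b, T.D b K.Ni = -(K.Ni * (kc K b 4 + kc K b 5)) := fun b => by
    rw [KC.D_inv (T.D b) (mul_comm K.N K.Ni ▸ n), (D_tab h b).2.1]
    linear_combination -(K.Ni * (kc K b 4 + kc K b 5)) * n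
  rw [e, s, s, s, s, k]
  simp only [D_mul, d, p.tab h, zv, kv, Matrix.cons_val]
  generalize kc K a = e, kc K b = f, bet T K y a = u, bet T K y b = v
  linear_combination 2 * K.Ni * (e 2 * f 3 - e 3 * f 2) * p.x + K.Ni * (e 3 * f 5 - e 3 * f 4 +
    e 4 * f 3 - e 5 * f 3) * p.s + K.Ni * (e 2 * f 5 - e 2 * f 4 + e 4 * f 2 - e 5 * f 2) * p.sb +
    ((e 4 - e 5) * (K.sb * f 2 + K.s * f 3) + 2 * K.x * e 2 * f 3 -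
      (f 4 - f 5) * (K.sb * e 2 + K.s * e 3) - 2 * K.x * f 2 * e 3) * n

omit h [StarRing A] in
/-- The rotation around the axis. -/
theorem Sp.rot {w v : A} (e : w * v = 1) : Sp K ![y 0, y 1, y 2 * w, y 3 * v, y 4 * v, y 5 * w] := by
  constructor <;> simp only [Matrix.cons_val]
  · linear_combination p.N + (y 2 * y 4 + y 3 * y 5) * e
  · linear_combination p.x + (y 2 * y 4 - y 3 * y 5) * e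
  · linear_combination p.s + 2 * y 2 * y 3 * e
  · linear_combination p.sb + 2 * y 4 * y 5 * e

omit h [StarRing A] in
theorem Sp.om_rot {w v : A} (e : w * v = 1) (D : Der A) :
    om ![y 0, y 1, y 2 * w, y 3 * v, y 4 * v, y 5 * w] D = om y D + 2 * K.N * (v * D w) := by
  have d := congrArg D e
  simp only [D_mul, D_one] at d
  simp only [om, Matrix.cons_val, D_mul]
  linear_combination (y 4 * D (y 2) - y 2 * D (y 4) - y 5 * D (y 3) + y 3 * D (y 5)) * e -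
    (y 2 * y 4 + y 3 * y 5) * d + 2 * (v * D w) * p.N

omit h p [StarRing A] in
/-- The projection of a spinor to the direction of the chart. -/
theorem sp_prj (s : K.s * K.sb = 1 - K.x * K.x) (t r c y2 y3 y4 y5 : A)
    (n : c * c * (((1 + K.x) * y2 + K.s * y5) * ((1 + K.x) * y4 + K.sb * y3) +
      (K.s * y4 + (1 - K.x) * y3) * (K.sb * y2 + (1 - K.x) * y5)) = K.N) :
    Sp K ![t, r, c * ((1 + K.x) * y2 + K.s * y5), c * (K.s * y4 + (1 - K.x) * y3),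
      c * ((1 + K.x) * y4 + K.sb * y3), c * (K.sb * y2 + (1 - K.x) * y5)] := by
  have a1 : (1 - K.x) * ((1 + K.x) * y2 + K.s * y5) = K.s * (K.sb * y2 + (1 - K.x) * y5) := by
    linear_combination -y2 * s
  have a2 : (1 + K.x) * (K.sb * y2 + (1 - K.x) * y5) = K.sb * ((1 + K.x) * y2 + K.s * y5) := by
    linear_combination -y5 * s
  have a3 : (1 - K.x) * ((1 + K.x) * y4 + K.sb * y3) = K.sb * (K.s * y4 + (1 - K.x) * y3) := by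
    linear_combination -y4 * s
  have a4 : (1 + K.x) * (K.s * y4 + (1 - K.x) * y3) = K.s * ((1 + K.x) * y4 + K.sb * y3) := by
    linear_combination -y3 * s
  generalize (1 + K.x) * y2 + K.s * y5 = u2, K.s * y4 + (1 - K.x) * y3 = u3,
    (1 + K.x) * y4 + K.sb * y3 = u4, K.sb * y2 + (1 - K.x) * y5 = u5 at *
  constructor <;> simp only [Matrix.cons_val]
  · linear_combination n
  · linear_combination K.x * n + c * c * (u4 * a1 - u5 * a4)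
  · linear_combination K.s * n + c * c * (u2 * a4 + u3 * a1)
  · linear_combination K.sb * n + c * c * (u4 * a2 + u5 * a3)

end Vale.Agent.P354NP
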