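import Vale.Agent.P354NP.Kx
import Vale.Agent.P354XR.Kerr

set_option linter.unusedSimpArgs false

namespace Vale.Agent.P354NP

open Vale.Agent.P354XR

variable {A : Type*} [CommRing A] [StarRing A] [Algebra ℂ A]

omit [StarRing A] in
theorem ii_eq : ii A = iA A := rfl

theorem star_alg (si : star (iA A) = -iA A) (hr : ∀ x : ℝ, star (algebraMap ℂ A x) = algebraMap ℂ A x)
    (z : ℂ) : star (algebraMap ℂ A z) = algebraMap ℂ A (starRingEnd ℂ z) := by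
  have e : ∀ w : ℂ, algebraMap ℂ A w = algebraMap ℂ A w.re + algebraMap ℂ A w.im * iA A := fun w => by
    unfold iA; rw [← map_mul, ← map_add, Complex.re_add_im]
  rw [e z, e (starRingEnd ℂ z), star_add, star_mul', hr, hr, si, Complex.conj_re, Complex.conj_im,
    Complex.ofReal_neg, map_neg]
  ring

namespace KX
open PD PX
variable {T : TD A} (X : KX T)

/-- The chart algebra of the Kerr class. -/
noncomputable def K : KC A where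
  c := starRingEnd A
  T := T.V X.xT
  R := T.V X.xR
  P := T.V X.xP + (-(iA A * (T.d3 X.p * (X.q - iA A * X.p)))) • T.V X.xT
  Q := T.V X.xQ + (iA A * (T.d2 X.p * (X.q + iA A * X.p))) • T.V X.xT
  H := T.H
  B := T.Hb
  r := X.q
  x := X.p * X.ai
  s := -(T.d2 X.p * (X.q + iA A * X.p) * X.ai)
  sb := -(T.d3 X.p * (X.q - iA A * X.p) * X.ai)
  N := -X.sv
  Ni := -T.d1 X.q
  sg := X.u * X.ub
  a := X.a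
  M := X.M

theorem kc_v : (∀ f, X.K.c f = star f) ∧ X.K.T = T.V X.xT ∧ X.K.R = T.V X.xR ∧
    (∀ f, X.K.P f = T.V X.xP f + -(iA A * (T.d3 X.p * (X.q - iA A * X.p))) * T.V X.xT f) ∧
    (∀ f, X.K.Q f = T.V X.xQ f + iA A * (T.d2 X.p * (X.q + iA A * X.p)) * T.V X.xT f) ∧
    X.K.H = T.H ∧ X.K.B = T.Hb ∧ X.K.r = X.q ∧ X.K.x = X.p * X.ai ∧
    X.K.s = -(T.d2 X.p * (X.q + iA A * X.p) * X.ai) ∧
    X.K.sb = -(T.d3 X.p * (X.q - iA A * X.p) * X.ai) ∧ X.K.N = -X.sv ∧ X.K.Ni = -T.d1 X.q ∧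
    X.K.sg = X.u * X.ub ∧ X.K.a = X.a ∧ X.K.M = X.M :=
  ⟨fun _ => rfl, rfl, rfl, fun _ => rfl, fun _ => rfl, rfl, rfl, rfl, rfl, rfl, rfl, rfl, rfl, rfl,
    rfl, rfl⟩

/-- The field `T` commutes with the six derivations. -/
theorem T_D (j : Fin 6) (f : A) : T.V X.xT (T.D j f) = T.D j (T.V X.xT f) := by
  have h : ∀ k, T.br X.xT (ee j) k = (0 : Fin 6 → A) k := by
    fin_cases j
    exacts [X.bT0, X.bT1, X.bT2, X.bT3, X.bT4, X.bT5]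
  have := T.V_of h f
  rwa [T.V_ee, T.V_ee, T.V_zero, add_zero] at this

theorem T_u : T.V X.xT X.u = 0 := by rw [X.du, X.T_p, X.T_q]; ring
theorem T_ub : T.V X.xT X.ub = 0 := by rw [X.dub, X.T_p, X.T_q]; ring
theorem T_sv : T.V X.xT X.sv = 0 := by rw [dinv _ X.hsv, X.T_s2]; ring

theorem T_V (x : Fin 6 → A) (h : ∀ k, T.V X.xT (x k) = 0) (f : A) :
    T.V X.xT (T.V x f) = T.V x (T.V X.xT f) := by
  rw [T.V_ap x f, T.V_ap x, map_sum]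
  exact Finset.sum_congr rfl fun k _ => by rw [dmul, h, X.T_D]; ring

theorem T_xR (k : Fin 6) : T.V X.xT (X.xR k) = 0 := by
  fin_cases k <;> simp [xR, dmul, d_iA, X.T_p, X.T_u, X.T_ub, X.T_sv]
theorem T_xP (k : Fin 6) : T.V X.xT (X.xP k) = 0 := by
  fin_cases k <;> simp [xP, dmul, d_iA, X.T_p, X.T_q, X.T_pb, X.T_ub]
theorem T_xQ (k : Fin 6) : T.V X.xT (X.xQ k) = 0 := by
  fin_cases k <;> simp [xQ, dmul, d_iA, X.T_p, X.T_q, X.T_pi, X.T_u]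

theorem sT (f : A) : star (T.V X.xT f) = T.V X.xT (star f) := by
  apply T.V_star <;> simp only [X.xT_v, star_neg, star_mul', star_pow, shf, X.si, T.s0, T.s1, T.s2,
    T.s3, X.sp, X.sq, X.sM, X.su, X.sub] <;> ring
theorem sR (f : A) : star (T.V X.xR f) = T.V X.xR (star f) := by
  apply T.V_star <;> simp only [X.xR_v, star_neg, star_mul', star_zero, X.si, X.sp, X.ssv, X.su,
    X.sub] <;> ring
theorem sP (f : A) : star (T.V X.xP f) = T.V X.xQ (star f) := by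
  apply T.V_star <;> simp only [X.xP_v, X.xQ_v, star_neg, star_add, star_mul', star_zero, X.si, X.sp,
    X.sq, T.s3, X.su, X.sub] <;> ring

theorem kc_is (hr : ∀ x : ℝ, star (algebraMap ℂ A x) = algebraMap ℂ A x) : X.K.Is where
  cc f := star_star f
  calg := star_alg X.si hr
  c_T := X.sT
  c_R := X.sR
  c_P f := by
    simp only [X.kc_v, star_add, star_sub, star_neg, star_mul', X.sP, X.sT, X.si, X.sp, X.sq, T.s3]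
    ring
  c_H := T.sH
  c_r := X.sq
  c_x := by simp only [X.kc_v, star_mul', X.sp, X.sai]
  c_s := by
    simp only [X.kc_v, star_add, star_neg, star_mul', X.si, X.sp, X.sq, X.sai, T.s2]; ring
  c_N := by simp only [X.kc_v, star_neg, X.ssv]
  c_a := X.sa
  c_M := X.sM
  R_T f := (X.T_V X.xR X.T_xR f).symm
  P_T f := by
    simp only [X.kc_v, map_add, map_neg, map_sub, dmul, d_iA, X.T_V X.xP X.T_xP, X.T_p, X.T_q, X.T_pb]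
    ring
  H_T f := (X.T_D 4 f).symm
  P_R f := by
    have h := T.V_of X.bPR f
    have h2 := X.R_asb
    rw [T.V_zero] at h
    simp only [X.kc_v, map_add, map_neg, dmul _ (iA A), dmul _ _ (T.V X.xT f), d_iA, h2, h,
      X.T_V X.xR X.T_xR]
    ring
  H_R f := by
    have h := T.V_of X.bHR f
    rwa [T.V_ee, T.V_ee, T.V_zero, add_zero] at h
  P_Q f := by
    have h := T.V_of X.bPQ f
    rw [T.V_lin, T.V_ee, T.V_ee] at h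
    simp only [X.kc_v, map_add, map_neg, dmul _ (iA A), dmul _ _ (T.V X.xT f), d_iA, h, X.P_as,
      X.Q_asb, X.T_V X.xP X.T_xP, X.T_V X.xQ X.T_xQ, T.D_v]
    simp only [map_add, map_sub, dmul, d_iA, X.T_p, X.T_q, X.T_pi, X.T_pb]
    ring
  H_P f := by
    have h := T.V_of X.bHP f
    have h2 := X.T_D 4 f
    rw [T.V_ee, T.V_ee, T.V_neg] at h
    simp only [T.D_v] at h h2
    simp only [X.kc_v, map_add, map_neg, map_sub, dmul, d_iA, h, ← h2, X.k4]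
    ring
  H_Q f := by
    have h := T.V_of X.bHQ f
    have h2 := X.T_D 4 f
    rw [T.V_ee, T.V_ee] at h
    simp only [T.D_v] at h h2
    simp only [X.kc_v, map_add, map_neg, map_sub, dmul, d_iA, h, ← h2, X.k4]
    ring
  B_H f := (T.HH f).symm
  T_r := X.T_q
  T_x := by simp only [X.kc_v, dmul, X.T_p, X.T_ai]; ring
  T_s := by simp only [X.kc_v, map_neg, map_add, dmul, d_iA, X.T_p, X.T_q, X.T_pi, X.T_ai]; ring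
  T_N := by simp only [X.kc_v, map_neg, X.T_sv, neg_zero]
  T_a := X.T_a
  T_M := X.T_M
  R_r := X.R_r
  R_x := X.R_x
  R_s := X.R_s
  R_N := X.R_N
  R_a := X.R_a
  R_M := X.R_M
  P_r := by simp only [X.kc_v, X.P_r, X.T_q]; ring
  P_x := by
    simp only [X.kc_v, X.P_x]
    simp only [dmul, X.T_p, X.T_ai]; ring
  P_s := by
    simp only [X.kc_v, X.P_s]
    simp only [map_neg, map_add, dmul, d_iA, X.T_p, X.T_q, X.T_pi, X.T_ai]; ring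
  P_sb := by
    simp only [X.kc_v, X.P_sb]
    simp only [map_neg, map_sub, dmul, d_iA, X.T_p, X.T_q, X.T_pb, X.T_ai]; ring
  P_N := by
    simp only [X.kc_v, X.P_N]
    simp only [map_neg, X.T_sv]; ring
  P_a := by simp only [X.kc_v, X.P_a, X.T_a]; ring
  P_M := by simp only [X.kc_v, X.P_M, X.T_M]; ring
  H_r := X.Hq
  H_x := by simp only [X.kc_v, dmul, X.k4]; ring
  H_s := by simp only [X.kc_v, map_neg, map_add, dmul, d_iA, X.k4]; ring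
  H_sb := by simp only [X.kc_v, map_neg, map_sub, dmul, d_iA, X.k4]; ring
  H_N := by simp only [X.kc_v, map_neg, X.k4]
  H_a := X.ka.kH
  H_M := X.kM.kH
  hs := by
    simp only [X.kc_v]
    linear_combination
      (-X.ai ^ 2 * iA A ^ 2 * X.p ^ 2 + X.ai ^ 2 * X.q ^ 2) * X.kpp + (-X.a * X.ai * iA A ^ 2 * X.p ^ 2
      * X.u * X.ub + X.a * X.ai * X.q ^ 2 * X.u * X.ub - iA A ^ 2 * X.p ^ 2 * X.u * X.ub + X.q ^ 2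
      * X.u * X.ub) * X.hai + (-X.ai ^ 2 * iA A * X.p ^ 3 * X.ub - X.ai ^ 2 * X.p ^ 2 * X.q * X.ub
      + iA A * X.p * X.ub + X.q * X.ub) * X.hu + (1 - X.ai ^ 2 * X.p ^ 2) * X.hub
  hN := by simp only [X.kc_v]; linear_combination X.hsv
  hg := by
    simp only [X.kc_v]
    linear_combination
      (X.a * X.ai * X.p ^ 2 * X.u * X.ub + X.p ^ 2 * X.u * X.ub) * X.hai + (1) * X.hu + (-iA A * X.p
      * X.u + X.q * X.u) * X.hub + (X.p ^ 2 * X.u * X.ub) * iA_sq (A := A)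

theorem kc_th (f : A) : X.K.th f = T.d0 f := by
  have h : X.K.th f =
      2 * X.M * T.V X.xR f * X.q * X.sv * X.u * X.ub + 2 * X.M * T.H f * X.q ^ 2 * X.sv * X.u ^ 2
      * X.ub ^ 2 - X.M * T.H f * X.sv * X.u * X.ub + 2 * X.M * T.Hb f * X.q ^ 2 * X.sv * X.u ^ 2
      * X.ub ^ 2 - X.M * T.Hb f * X.sv * X.u * X.ub + T.V X.xP f * iA A * T.d2 X.p * X.q * X.sv * X.u
      * X.ub + T.V X.xP f * iA A ^ 2 * X.p * T.d2 X.p * X.sv * X.u * X.ub - T.V X.xQ f * iA A * T.d3 X.p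
      * X.q * X.sv * X.u * X.ub + T.V X.xQ f * iA A ^ 2 * X.p * T.d3 X.p * X.sv * X.u * X.ub - T.V X.xR f
      * X.a ^ 2 * X.sv * X.u * X.ub - T.V X.xR f * X.q ^ 2 * X.sv * X.u * X.ub - 2 * T.V X.xT f * X.sv
      - X.a ^ 2 * T.H f * X.q * X.sv * X.u ^ 2 * X.ub ^ 2 - X.a ^ 2 * T.Hb f * X.q * X.sv * X.u ^ 2
      * X.ub ^ 2 + T.H f * iA A * X.p * X.sv * X.u * X.ub + T.H f * X.q * X.sv * X.u * X.ub - T.H f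
      * X.q ^ 3 * X.sv * X.u ^ 2 * X.ub ^ 2 - T.Hb f * iA A * X.p * X.sv * X.u * X.ub + T.Hb f * X.q
      * X.sv * X.u * X.ub - T.Hb f * X.q ^ 3 * X.sv * X.u ^ 2 * X.ub ^ 2 := by
    simp only [KC.th, KC.V_ap, KC.De, KC.W, KC.ee, X.kc_v, ii_eq]
    linear_combination
      (-2 * T.V X.xT f * X.a * X.ai * iA A ^ 2 * X.q ^ 2 * X.sv * X.u * X.ub + 2 * T.V X.xT f * X.a
      * X.ai * iA A ^ 4 * X.p ^ 2 * X.sv * X.u * X.ub) * X.kpp + (T.V X.xP f * iA A * T.d2 X.p * X.q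
      * X.sv * X.u * X.ub + T.V X.xP f * iA A ^ 2 * X.p * T.d2 X.p * X.sv * X.u * X.ub - T.V X.xQ f
      * iA A * T.d3 X.p * X.q * X.sv * X.u * X.ub + T.V X.xQ f * iA A ^ 2 * X.p * T.d3 X.p * X.sv
      * X.u * X.ub - 2 * T.V X.xT f * X.a ^ 2 * iA A ^ 2 * X.q ^ 2 * X.sv * X.u ^ 2 * X.ub ^ 2 + 2
      * T.V X.xT f * X.a ^ 2 * iA A ^ 4 * X.p ^ 2 * X.sv * X.u ^ 2 * X.ub ^ 2 + 2 * T.V X.xT f * iA A ^ 2
      * X.p ^ 2 * X.q ^ 2 * X.sv * X.u ^ 2 * X.ub ^ 2 - 2 * T.V X.xT f * iA A ^ 4 * X.p ^ 4 * X.sv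
      * X.u ^ 2 * X.ub ^ 2 + T.H f * iA A * X.p * X.sv * X.u * X.ub - T.Hb f * iA A * X.p * X.sv
      * X.u * X.ub) * X.hai + (-2 * T.V X.xT f * X.a ^ 2 * iA A ^ 2 * X.q * X.sv * X.u * X.ub ^ 2
      - 2 * T.V X.xT f * X.a ^ 2 * iA A ^ 3 * X.p * X.sv * X.u * X.ub ^ 2 - 6 * T.V X.xT f * iA A
      * X.p * X.q * X.sv * X.ub ^ 2 + 2 * T.V X.xT f * iA A ^ 2 * X.p ^ 2 * X.q * X.sv * X.u * X.ub ^ 2
      - 2 * T.V X.xT f * iA A ^ 2 * X.p ^ 2 * X.sv * X.ub ^ 2 + 2 * T.V X.xT f * iA A ^ 3 * X.p ^ 3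
      * X.sv * X.u * X.ub ^ 2 + 2 * T.V X.xT f * X.q * X.sv * X.ub - 4 * T.V X.xT f * X.q ^ 2 * X.sv
      * X.ub ^ 2) * X.hu + (2 * T.V X.xT f * X.a ^ 2 * iA A ^ 2 * X.sv * X.u * X.ub + 4 * T.V X.xT f
      * X.a ^ 2 * X.sv * X.u * X.ub - 2 * T.V X.xT f * iA A * X.p * X.q * X.sv * X.u * X.ub - 2 * T.V X.xT f
      * iA A * X.p * X.sv * X.ub - 4 * T.V X.xT f * X.q * X.sv * X.ub + 4 * T.V X.xT f * X.q ^ 2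
      * X.sv * X.u * X.ub - 2 * T.V X.xT f * X.sv) * X.hub + (-4 * T.V X.xT f * X.a ^ 2 * iA A * X.p
      * X.sv * X.u * X.ub ^ 2 - 4 * T.V X.xT f * X.a ^ 2 * X.q * X.sv * X.u * X.ub ^ 2 + 2 * T.V X.xT f
      * X.a ^ 2 * X.sv * X.u * X.ub) * iA_sq (A := A)
  rw [h]
  simp only [T.V_six, X.xT_v, X.xR_v, X.xP_v, X.xQ_v]
  linear_combination
    (-2 * T.d1 f * hf A * X.sv) * X.ks + (T.H f * iA A * X.p * X.q * X.sv * X.u ^ 2 * X.ub - T.H f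
    * iA A ^ 2 * X.p ^ 2 * X.sv * X.u ^ 2 * X.ub - T.H f * iA A ^ 2 * X.q ^ 2 * X.sv * X.u * X.ub ^ 2
    - T.H f * iA A ^ 3 * X.p * X.q * X.sv * X.u * X.ub ^ 2 - T.Hb f * iA A * X.p * X.q * X.sv * X.u
    * X.ub ^ 2 - T.Hb f * iA A ^ 2 * X.p ^ 2 * X.sv * X.u * X.ub ^ 2 - T.Hb f * iA A ^ 2 * X.q ^ 2
    * X.sv * X.u ^ 2 * X.ub + T.Hb f * iA A ^ 3 * X.p * X.q * X.sv * X.u ^ 2 * X.ub) * X.kpp + (2
    * T.d0 f * hf A) * X.hsv + (-2 * X.M * T.d1 f * X.q * X.sv ^ 2 * X.u * X.ub - X.M * T.H f * X.sv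
    * X.u ^ 2 - X.M * T.Hb f * X.sv * X.ub ^ 2 + X.a ^ 2 * T.d1 f * X.sv ^ 2 * X.u * X.ub + T.d0 f
    + T.d1 f * X.q ^ 2 * X.sv ^ 2 * X.u * X.ub + T.d2 f * iA A * T.d3 X.p * X.sv - T.d3 f * iA A
    * T.d2 X.p * X.sv) * hhf (A := A) + (-2 * X.M * T.H f * iA A * X.p * X.sv * X.u * X.ub ^ 2 - X.M
    * T.H f * iA A ^ 2 * X.sv * X.u * X.ub + 2 * X.M * T.H f * iA A ^ 2 * X.sv * X.ub ^ 2 - 2 * X.M
    * T.H f * X.q * X.sv * X.u * X.ub ^ 2 + 2 * X.M * T.H f * X.sv * X.u * X.ub + 2 * X.M * T.H f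
    * X.sv * X.ub ^ 2 - X.M * T.Hb f * iA A ^ 2 * X.sv * X.ub ^ 2 + 2 * X.M * T.Hb f * X.q * X.sv
    * X.u * X.ub ^ 2 - X.a ^ 2 * T.H f * iA A * X.p * X.sv * X.u * X.ub ^ 3 + X.a ^ 2 * T.H f * iA A
    * X.p * X.sv * X.u ^ 2 * X.ub ^ 2 + X.a ^ 2 * T.H f * iA A ^ 2 * X.q * X.sv * X.u * X.ub ^ 3
    + X.a ^ 2 * T.H f * iA A ^ 2 * X.sv * X.ub ^ 3 + X.a ^ 2 * T.H f * X.sv * X.u * X.ub ^ 2 + X.a ^ 2
    * T.H f * X.sv * X.ub ^ 3 + 2 * X.a ^ 2 * T.Hb f * iA A * X.p * X.sv * X.u * X.ub ^ 3 - X.a ^ 2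
    * T.Hb f * iA A ^ 2 * X.q * X.sv * X.u ^ 2 * X.ub ^ 2 - 2 * X.a ^ 2 * T.Hb f * iA A ^ 2 * X.sv
    * X.ub ^ 3 + 2 * X.a ^ 2 * T.Hb f * X.q * X.sv * X.u * X.ub ^ 3 - 2 * X.a ^ 2 * T.Hb f * X.sv
    * X.u * X.ub ^ 2 - 2 * X.a ^ 2 * T.Hb f * X.sv * X.ub ^ 3 - T.d2 f * iA A * T.d3 X.p * X.q * X.sv
    * X.ub - T.d2 f * iA A ^ 2 * X.p * T.d3 X.p * X.sv * X.ub + T.d3 f * iA A * T.d2 X.p * X.q * X.sv
    * X.ub + T.d3 f * iA A ^ 2 * X.p * T.d2 X.p * X.sv * X.ub + 4 * T.H f * iA A * X.p * X.q * X.sv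
    * X.ub ^ 3 - 2 * T.H f * iA A * X.p * X.q ^ 2 * X.sv * X.u * X.ub ^ 3 + T.H f * iA A * X.p ^ 3
    * X.sv * X.u * X.ub ^ 3 - T.H f * iA A * X.p ^ 3 * X.sv * X.u ^ 2 * X.ub ^ 2 - T.H f * iA A ^ 2
    * X.p ^ 2 * X.q * X.sv * X.u * X.ub ^ 3 - T.H f * X.p ^ 2 * X.sv * X.ub ^ 3 - 2 * T.H f * X.q
    * X.sv * X.u * X.ub - 2 * T.H f * X.q * X.sv * X.ub ^ 2 + 3 * T.H f * X.q ^ 2 * X.sv * X.u * X.ub ^ 2
    + 3 * T.H f * X.q ^ 2 * X.sv * X.ub ^ 3 - 2 * T.H f * X.q ^ 3 * X.sv * X.u * X.ub ^ 3 - T.H f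
    * X.sv * X.ub - T.Hb f * iA A * X.p * X.q * X.sv * X.u * X.ub ^ 2 - 2 * T.Hb f * iA A * X.p * X.q
    * X.sv * X.ub ^ 3 + T.Hb f * iA A * X.p * X.sv * X.ub ^ 2 - 2 * T.Hb f * iA A * X.p ^ 3 * X.sv
    * X.u * X.ub ^ 3 + T.Hb f * iA A ^ 2 * X.p ^ 2 * X.q * X.sv * X.u ^ 2 * X.ub ^ 2 - 2 * T.Hb f
    * X.p ^ 2 * X.q * X.sv * X.u * X.ub ^ 3 + T.Hb f * X.p ^ 2 * X.sv * X.u * X.ub ^ 2 + 2 * T.Hb f
    * X.p ^ 2 * X.sv * X.ub ^ 3 + T.Hb f * X.q * X.sv * X.u * X.ub - T.Hb f * X.q * X.sv * X.ub ^ 2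
    - 2 * T.Hb f * X.q ^ 2 * X.sv * X.u * X.ub ^ 2 + T.Hb f * X.sv * X.ub) * X.hu + (-2 * X.M * T.H f
    * iA A * X.p * X.sv * X.u ^ 2 * X.ub - 2 * X.M * T.H f * iA A ^ 2 * X.sv * X.u * X.ub + X.M * T.H f
    * iA A ^ 2 * X.sv * X.u ^ 2 + 4 * X.M * T.H f * X.q * X.sv * X.u ^ 2 * X.ub - 4 * X.M * T.H f
    * X.sv * X.u * X.ub + 2 * X.M * T.H f * X.sv * X.u ^ 2 + X.M * T.Hb f * iA A ^ 2 * X.sv * X.u
    * X.ub + 2 * X.M * T.Hb f * X.sv * X.u * X.ub - X.a ^ 2 * T.H f * iA A * X.p * X.sv * X.u ^ 2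
    * X.ub ^ 2 - X.a ^ 2 * T.H f * iA A ^ 2 * X.sv * X.u * X.ub ^ 2 + 2 * X.a ^ 2 * T.H f * X.q * X.sv
    * X.u ^ 2 * X.ub ^ 2 - 2 * X.a ^ 2 * T.H f * X.sv * X.u * X.ub ^ 2 + X.a ^ 2 * T.Hb f * iA A
    * X.p * X.sv * X.u ^ 2 * X.ub ^ 2 + 2 * X.a ^ 2 * T.Hb f * iA A ^ 2 * X.sv * X.u * X.ub ^ 2 - 2
    * X.a ^ 2 * T.Hb f * X.q * X.sv * X.u ^ 2 * X.ub ^ 2 + 4 * X.a ^ 2 * T.Hb f * X.sv * X.u * X.ub ^ 2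
    - T.d2 f * iA A * T.d3 X.p * X.sv + T.d3 f * iA A * T.d2 X.p * X.sv + 2 * T.H f * iA A * X.p
    * X.q * X.sv * X.u * X.ub ^ 2 + 2 * T.H f * iA A * X.p * X.q * X.sv * X.u ^ 2 * X.ub - 2 * T.H f
    * iA A * X.p * X.q ^ 2 * X.sv * X.u ^ 2 * X.ub ^ 2 + T.H f * iA A * X.p * X.sv * X.ub ^ 2 + T.H f
    * iA A * X.p ^ 3 * X.sv * X.u ^ 2 * X.ub ^ 2 - 2 * T.H f * X.p ^ 2 * X.q * X.sv * X.u ^ 2 * X.ub ^ 2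
    + 3 * T.H f * X.q * X.sv * X.ub ^ 2 - 5 * T.H f * X.q ^ 2 * X.sv * X.u * X.ub ^ 2 - 2 * T.H f
    * X.q ^ 2 * X.sv * X.u ^ 2 * X.ub + 2 * T.H f * X.q ^ 3 * X.sv * X.u ^ 2 * X.ub ^ 2 + T.H f * X.sv
    * X.ub + 2 * T.Hb f * iA A * X.p * X.q * X.sv * X.u * X.ub ^ 2 - T.Hb f * iA A * X.p * X.q * X.sv
    * X.u ^ 2 * X.ub - 2 * T.Hb f * iA A * X.p * X.sv * X.ub ^ 2 - T.Hb f * iA A * X.p ^ 3 * X.sv
    * X.u ^ 2 * X.ub ^ 2 + 2 * T.Hb f * X.p ^ 2 * X.q * X.sv * X.u ^ 2 * X.ub ^ 2 - T.Hb f * X.q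
    * X.sv * X.u * X.ub + T.Hb f * X.q ^ 2 * X.sv * X.u ^ 2 * X.ub - T.Hb f * X.sv * X.ub) * X.hub
    + (4 * X.M * T.H f * iA A * X.p * X.sv * X.u * X.ub ^ 2 - 2 * X.M * T.H f * iA A * X.p * X.sv
    * X.u ^ 2 * X.ub - 3 * X.M * T.H f * X.sv * X.u * X.ub + X.M * T.H f * X.sv * X.u ^ 2 + 2 * X.M
    * T.H f * X.sv * X.ub ^ 2 - 2 * X.M * T.Hb f * iA A * X.p * X.sv * X.u * X.ub ^ 2 + X.M * T.Hb f
    * X.sv * X.u * X.ub - X.M * T.Hb f * X.sv * X.ub ^ 2 + 2 * X.a ^ 2 * T.H f * iA A * X.p * X.sv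
    * X.u * X.ub ^ 3 + X.a ^ 2 * T.H f * X.q * X.sv * X.u * X.ub ^ 3 - 2 * X.a ^ 2 * T.H f * X.q ^ 2
    * X.sv * X.u ^ 2 * X.ub ^ 3 - X.a ^ 2 * T.H f * X.sv * X.u * X.ub ^ 2 + X.a ^ 2 * T.H f * X.sv
    * X.ub ^ 3 - 4 * X.a ^ 2 * T.Hb f * iA A * X.p * X.sv * X.u * X.ub ^ 3 - X.a ^ 2 * T.Hb f * X.q
    * X.sv * X.u ^ 2 * X.ub ^ 2 + 2 * X.a ^ 2 * T.Hb f * X.sv * X.u * X.ub ^ 2 - 2 * X.a ^ 2 * T.Hb f
    * X.sv * X.ub ^ 3 + T.H f * X.p ^ 2 * X.q * X.sv * X.u * X.ub ^ 3 - 2 * T.H f * X.p ^ 2 * X.q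
    * X.sv * X.u ^ 2 * X.ub ^ 2 + 2 * T.H f * X.p ^ 2 * X.q ^ 2 * X.sv * X.u ^ 2 * X.ub ^ 3 - T.H f
    * X.p ^ 2 * X.sv * X.ub ^ 3 - 4 * T.Hb f * X.p ^ 2 * X.q * X.sv * X.u * X.ub ^ 3 + T.Hb f * X.p ^ 2
    * X.q * X.sv * X.u ^ 2 * X.ub ^ 2 + T.Hb f * X.p ^ 2 * X.sv * X.u * X.ub ^ 2 + 2 * T.Hb f * X.p ^ 2
    * X.sv * X.ub ^ 3) * iA_sq (A := A)

theorem kc_tp (f : A) : X.K.tp f = T.d1 f := by
  simp only [KC.tp, KC.V_ap, X.kc_v, ii_eq, T.V_six, X.xR_v]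
  linear_combination
    (T.d1 f) * X.hsv + (-T.H f * iA A * X.p * T.d1 X.q * X.u * X.ub + T.Hb f * iA A * X.p * T.d1 X.q
    * X.u * X.ub) * X.hai

theorem kc_et (f : A) : X.K.et f = T.d2 f := by
  have h : X.K.et f =
      T.V X.xQ f * X.ub + T.H f * X.p * T.d2 X.p * X.u * X.ub - T.Hb f * iA A * T.d2 X.p * X.q * X.u * X.ub := by
    simp only [KC.et, KC.V_ap, KC.zb, X.kc_v, ii_eq]
    linear_combination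
      (-T.V X.xQ f * iA A * X.p * X.u * X.ub + T.V X.xT f * X.a * X.ai * iA A ^ 2 * X.p * T.d2 X.p
      * X.q * X.u * X.ub + T.V X.xT f * X.a * X.ai * iA A ^ 3 * X.p ^ 2 * T.d2 X.p * X.u * X.ub - T.V X.xT f
      * iA A * T.d2 X.p * X.q ^ 2 * X.u * X.ub - T.V X.xT f * iA A ^ 2 * X.p * T.d2 X.p * X.q * X.u
      * X.ub - X.a * X.ai * T.H f * iA A ^ 2 * X.p ^ 3 * T.d2 X.p * X.u ^ 2 * X.ub ^ 2 + X.a * X.ai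
      * T.H f * X.p * T.d2 X.p * X.q ^ 2 * X.u ^ 2 * X.ub ^ 2 + X.a * X.ai * T.Hb f * iA A ^ 2 * X.p
      * T.d2 X.p * X.q ^ 2 * X.u ^ 2 * X.ub ^ 2 + X.a * X.ai * T.Hb f * iA A ^ 3 * X.p ^ 2 * T.d2 X.p
      * X.q * X.u ^ 2 * X.ub ^ 2 - X.a ^ 2 * X.ai ^ 2 * T.H f * iA A * X.p ^ 2 * T.d2 X.p * X.q * X.u ^ 2
      * X.ub ^ 2 - X.a ^ 2 * X.ai ^ 2 * T.H f * iA A ^ 2 * X.p ^ 3 * T.d2 X.p * X.u ^ 2 * X.ub ^ 2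
      - T.H f * iA A ^ 2 * X.p ^ 3 * T.d2 X.p * X.u ^ 2 * X.ub ^ 2 + T.H f * X.p * T.d2 X.p * X.q ^ 2
      * X.u ^ 2 * X.ub ^ 2 - T.Hb f * iA A * T.d2 X.p * X.q ^ 3 * X.u ^ 2 * X.ub ^ 2 + T.Hb f * iA A ^ 3
      * X.p ^ 2 * T.d2 X.p * X.q * X.u ^ 2 * X.ub ^ 2) * X.hai + (T.V X.xQ f * X.ub + T.H f * iA A
      * X.p ^ 2 * T.d2 X.p * X.u * X.ub ^ 2 + T.H f * iA A * T.d2 X.p * X.q * X.ub ^ 2 - T.H f * iA A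
      * T.d2 X.p * X.ub + T.H f * X.p * T.d2 X.p * X.q * X.u * X.ub ^ 2 - T.H f * X.p * T.d2 X.p
      * X.ub ^ 2 - T.Hb f * iA A * T.d2 X.p * X.q ^ 2 * X.u * X.ub ^ 2 - T.Hb f * iA A ^ 2 * X.p
      * T.d2 X.p * X.q * X.u * X.ub ^ 2) * X.hu + (-T.H f * iA A * T.d2 X.p * X.q * X.u * X.ub + T.H f
      * iA A * T.d2 X.p * X.ub - T.Hb f * iA A * T.d2 X.p * X.q * X.u * X.ub) * X.hub + (2 * T.H f
      * X.p * T.d2 X.p * X.q * X.u * X.ub ^ 2 - T.H f * X.p * T.d2 X.p * X.u * X.ub - T.H f * X.p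
      * T.d2 X.p * X.ub ^ 2) * iA_sq (A := A)
  rw [h]
  simp only [T.V_six, X.xQ_v]
  linear_combination
    (T.d2 f) * X.hub

theorem kc_ep (f : A) : X.K.ep f = T.d3 f := by
  have h : X.K.ep f =
      T.V X.xP f * X.u + T.H f * iA A * T.d3 X.p * X.q * X.u * X.ub + T.Hb f * X.p * T.d3 X.p * X.u * X.ub := by
    simp only [KC.ep, KC.V_ap, KC.z, X.kc_v, ii_eq]
    linear_combination
      (T.V X.xP f * iA A * X.p * X.u * X.ub + T.V X.xT f * X.a * X.ai * iA A ^ 2 * X.p * T.d3 X.p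
      * X.q * X.u * X.ub - T.V X.xT f * X.a * X.ai * iA A ^ 3 * X.p ^ 2 * T.d3 X.p * X.u * X.ub + T.V X.xT f
      * iA A * T.d3 X.p * X.q ^ 2 * X.u * X.ub - T.V X.xT f * iA A ^ 2 * X.p * T.d3 X.p * X.q * X.u
      * X.ub + X.a * X.ai * T.H f * iA A ^ 2 * X.p * T.d3 X.p * X.q ^ 2 * X.u ^ 2 * X.ub ^ 2 - X.a
      * X.ai * T.H f * iA A ^ 3 * X.p ^ 2 * T.d3 X.p * X.q * X.u ^ 2 * X.ub ^ 2 - X.a * X.ai * T.Hb f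
      * iA A ^ 2 * X.p ^ 3 * T.d3 X.p * X.u ^ 2 * X.ub ^ 2 + X.a * X.ai * T.Hb f * X.p * T.d3 X.p
      * X.q ^ 2 * X.u ^ 2 * X.ub ^ 2 + X.a ^ 2 * X.ai ^ 2 * T.Hb f * iA A * X.p ^ 2 * T.d3 X.p * X.q
      * X.u ^ 2 * X.ub ^ 2 - X.a ^ 2 * X.ai ^ 2 * T.Hb f * iA A ^ 2 * X.p ^ 3 * T.d3 X.p * X.u ^ 2
      * X.ub ^ 2 + T.H f * iA A * T.d3 X.p * X.q ^ 3 * X.u ^ 2 * X.ub ^ 2 - T.H f * iA A ^ 3 * X.p ^ 2
      * T.d3 X.p * X.q * X.u ^ 2 * X.ub ^ 2 - T.Hb f * iA A ^ 2 * X.p ^ 3 * T.d3 X.p * X.u ^ 2 * X.ub ^ 2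
      + T.Hb f * X.p * T.d3 X.p * X.q ^ 2 * X.u ^ 2 * X.ub ^ 2) * X.hai + (-T.V X.xP f * iA A ^ 2
      * X.ub - T.V X.xP f * X.ub + T.H f * iA A * T.d3 X.p * X.q ^ 2 * X.u * X.ub ^ 2 + T.H f * iA A ^ 2
      * X.p * T.d3 X.p * X.q * X.u * X.ub ^ 2 + T.Hb f * iA A * X.p ^ 2 * T.d3 X.p * X.u * X.ub ^ 2
      + T.Hb f * iA A * T.d3 X.p * X.q * X.ub ^ 2 - T.Hb f * iA A * T.d3 X.p * X.ub + T.Hb f * X.p
      * T.d3 X.p * X.q * X.u * X.ub ^ 2 - T.Hb f * X.p * T.d3 X.p * X.ub ^ 2) * X.hu + (T.V X.xP f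
      * iA A ^ 2 * X.u + 2 * T.V X.xP f * X.u + T.H f * iA A * T.d3 X.p * X.q * X.u * X.ub - T.Hb f
      * iA A * T.d3 X.p * X.q * X.u * X.ub + T.Hb f * iA A * T.d3 X.p * X.ub) * X.hub + (-2 * T.V X.xP f
      * iA A * X.p * X.u * X.ub + T.V X.xP f * X.u - T.V X.xP f * X.ub + 2 * T.Hb f * X.p * T.d3 X.p
      * X.q * X.u * X.ub ^ 2 - T.Hb f * X.p * T.d3 X.p * X.u * X.ub - T.Hb f * X.p * T.d3 X.p * X.ub ^ 2)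
      * iA_sq (A := A)
  rw [h]
  simp only [T.V_six, X.xP_v]
  linear_combination
    (T.d3 f) * X.hu

theorem kc_rh : X.K.rh = T.r := by
  simp only [KC.rh, KC.De, KC.z, X.kc_v, ii_eq, X.kv]
  linear_combination
    (X.u) * X.ks + (-2 * X.M * iA A * X.p * X.q * X.sv * X.u ^ 2 * X.ub ^ 2 + X.a ^ 2 * iA A * X.p
    * X.sv * X.u ^ 2 * X.ub ^ 2 + iA A * X.p * X.q ^ 2 * X.sv * X.u ^ 2 * X.ub ^ 2) * X.hai + (2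
    * X.M * iA A * X.p * X.sv * X.u * X.ub ^ 2 - 2 * X.M * iA A ^ 2 * X.sv * X.ub ^ 2 + 2 * X.M * X.q
    * X.sv * X.u * X.ub ^ 2 - 2 * X.M * X.sv * X.u * X.ub - 2 * X.M * X.sv * X.ub ^ 2 - X.a ^ 2 * iA A ^ 2
    * X.sv * X.u * X.ub ^ 2 - X.a ^ 2 * X.sv * X.u * X.ub ^ 2 - iA A * X.p * X.q * X.sv * X.u * X.ub ^ 2
    + iA A * X.p * X.sv * X.ub ^ 2 + X.q * X.sv * X.u * X.ub + X.q * X.sv * X.ub ^ 2 - X.q ^ 2 * X.sv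
    * X.u * X.ub ^ 2 - X.sv * X.ub) * X.hu + (2 * X.M * iA A * X.p * X.sv * X.u ^ 2 * X.ub + 2 * X.M
    * iA A ^ 2 * X.sv * X.u * X.ub - 4 * X.M * X.q * X.sv * X.u ^ 2 * X.ub + 4 * X.M * X.sv * X.u
    * X.ub + X.a ^ 2 * iA A ^ 2 * X.sv * X.u ^ 2 * X.ub + 2 * X.a ^ 2 * X.sv * X.u ^ 2 * X.ub - iA A
    * X.p * X.q * X.sv * X.u ^ 2 * X.ub + iA A * X.p * X.sv * X.u * X.ub - 2 * X.q * X.sv * X.u * X.ub
    + 2 * X.q ^ 2 * X.sv * X.u ^ 2 * X.ub + X.sv * X.ub) * X.hub + (-4 * X.M * iA A * X.p * X.sv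
    * X.u * X.ub ^ 2 + 2 * X.M * X.sv * X.u * X.ub - 2 * X.M * X.sv * X.ub ^ 2 - 2 * X.a ^ 2 * iA A
    * X.p * X.sv * X.u ^ 2 * X.ub ^ 2 - X.a ^ 2 * X.sv * X.u * X.ub ^ 2 + X.a ^ 2 * X.sv * X.u ^ 2
    * X.ub) * iA_sq (A := A)

theorem kc_rh2 : X.K.rh2 = T.r2 := by
  simp only [KC.rh2, KC.z, X.kc_v, ii_eq, X.kv]
  linear_combination
    (-iA A * X.p * T.d1 X.q * X.u * X.ub) * X.hai + (iA A ^ 2 * T.d1 X.q * X.ub + T.d1 X.q * X.ub)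
    * X.hu + (-iA A ^ 2 * T.d1 X.q * X.u - 2 * T.d1 X.q * X.u) * X.hub + (2 * iA A * X.p * T.d1 X.q
    * X.u * X.ub - T.d1 X.q * X.u + T.d1 X.q * X.ub) * iA_sq (A := A)

theorem kc_ta : X.K.ta = T.t := by
  simp only [KC.ta, X.kc_v, ii_eq, X.kv]
  linear_combination
    (iA A * T.d2 X.p * X.q * X.u * X.ub + iA A ^ 2 * X.p * T.d2 X.p * X.u * X.ub) * X.hai + (iA A
    * T.d2 X.p * X.u) * X.hub

theorem kc_ta2 : X.K.ta2 = T.t2 := by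
  simp only [KC.ta2, KC.z, X.kc_v, ii_eq, X.kv]
  linear_combination
    (2 * X.a * X.ai * iA A ^ 2 * X.p * T.d3 X.p * X.q ^ 2 * X.u ^ 2 * X.ub ^ 2 - X.a * X.ai * iA A ^ 3
    * X.p ^ 2 * T.d3 X.p * X.q * X.u ^ 2 * X.ub ^ 2 - X.a * X.ai * iA A ^ 4 * X.p ^ 3 * T.d3 X.p
    * X.u ^ 2 * X.ub ^ 2 + X.a ^ 2 * X.ai ^ 2 * iA A ^ 3 * X.p ^ 2 * T.d3 X.p * X.q * X.u ^ 2 * X.ub ^ 2
    - X.a ^ 2 * X.ai ^ 2 * iA A ^ 4 * X.p ^ 3 * T.d3 X.p * X.u ^ 2 * X.ub ^ 2 + iA A * T.d3 X.p * X.q ^ 3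
    * X.u ^ 2 * X.ub ^ 2 + iA A ^ 2 * X.p * T.d3 X.p * X.q ^ 2 * X.u ^ 2 * X.ub ^ 2 - iA A ^ 3 * X.p ^ 2
    * T.d3 X.p * X.q * X.u ^ 2 * X.ub ^ 2 - iA A ^ 4 * X.p ^ 3 * T.d3 X.p * X.u ^ 2 * X.ub ^ 2) * X.hai
    + (-iA A * T.d3 X.p * X.q * X.ub ^ 2 + iA A * T.d3 X.p * X.q ^ 2 * X.u * X.ub ^ 2 + iA A * T.d3 X.p
    * X.ub + 2 * iA A ^ 2 * X.p * T.d3 X.p * X.q * X.u * X.ub ^ 2 - iA A ^ 2 * X.p * T.d3 X.p * X.ub ^ 2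
    + iA A ^ 3 * X.p ^ 2 * T.d3 X.p * X.u * X.ub ^ 2) * X.hu + (2 * iA A * T.d3 X.p * X.q * X.u * X.ub
    + iA A * T.d3 X.p * X.u - iA A * T.d3 X.p * X.ub) * X.hub

theorem kc_P2 : X.K.P2 = T.zi ^ 3 := by
  simp only [KC.P2, KC.z, X.kc_v, ii_eq, X.kv]
  linear_combination
    (-6 * X.M * X.a * X.ai * iA A ^ 2 * X.p ^ 2 * X.q * X.u ^ 3 * X.ub ^ 3 - 2 * X.M * X.a * X.ai
    * iA A ^ 3 * X.p ^ 3 * X.u ^ 3 * X.ub ^ 3 - 2 * X.M * X.a ^ 2 * X.ai ^ 2 * iA A ^ 3 * X.p ^ 3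
    * X.u ^ 3 * X.ub ^ 3 - 6 * X.M * iA A * X.p * X.q ^ 2 * X.u ^ 3 * X.ub ^ 3 - 6 * X.M * iA A ^ 2
    * X.p ^ 2 * X.q * X.u ^ 3 * X.ub ^ 3 - 2 * X.M * iA A ^ 3 * X.p ^ 3 * X.u ^ 3 * X.ub ^ 3) * X.hai
    + (16 * X.M * iA A * X.p * X.q * X.u ^ 2 * X.ub ^ 3 - 18 * X.M * iA A * X.p * X.u * X.ub ^ 3
    + 4 * X.M * iA A * X.p * X.u ^ 2 * X.ub ^ 2 + 2 * X.M * iA A ^ 2 * X.p ^ 2 * X.u ^ 2 * X.ub ^ 3
    - 6 * X.M * iA A ^ 2 * X.u * X.ub ^ 2 + 2 * X.M * iA A ^ 2 * X.u ^ 2 * X.ub + 18 * X.M * iA A ^ 2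
    * X.ub ^ 3 - 18 * X.M * X.q * X.u * X.ub ^ 3 - 8 * X.M * X.q * X.u ^ 2 * X.ub ^ 2 + 14 * X.M
    * X.q ^ 2 * X.u ^ 2 * X.ub ^ 3 + 12 * X.M * X.u * X.ub ^ 2 - 4 * X.M * X.u ^ 2 * X.ub + 18 * X.M
    * X.ub ^ 3) * X.hu + (8 * X.M * iA A * X.p * X.q * X.u ^ 3 * X.ub ^ 2 - 16 * X.M * iA A * X.p
    * X.u ^ 2 * X.ub ^ 2 + 4 * X.M * iA A * X.p * X.u ^ 3 * X.ub - 18 * X.M * iA A ^ 2 * X.u * X.ub ^ 2
    + 6 * X.M * iA A ^ 2 * X.u ^ 2 * X.ub - 2 * X.M * iA A ^ 2 * X.u ^ 3 + 32 * X.M * X.q * X.u ^ 2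
    * X.ub ^ 2 - 8 * X.M * X.q * X.u ^ 3 * X.ub - 16 * X.M * X.q ^ 2 * X.u ^ 3 * X.ub ^ 2 - 36 * X.M
    * X.u * X.ub ^ 2 + 12 * X.M * X.u ^ 2 * X.ub - 4 * X.M * X.u ^ 3) * X.hub + (36 * X.M * iA A
    * X.p * X.u * X.ub ^ 3 - 12 * X.M * iA A * X.p * X.u ^ 2 * X.ub ^ 2 + 4 * X.M * iA A * X.p * X.u ^ 3
    * X.ub - 24 * X.M * X.u * X.ub ^ 2 + 8 * X.M * X.u ^ 2 * X.ub - 2 * X.M * X.u ^ 3 + 18 * X.M
    * X.ub ^ 3) * iA_sq (A := A)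

end KX
end Vale.Agent.P354NP
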